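import Crest.Agent.R316.CH.Count
import Crest.Agent.Lib.PT.Iter
import Crest.Prelude.Def_CountHier

/-!
# R316 / CH / Basic : the counting hierarchy on top of the `PT` library
-/

set_option autoImplicit false

namespace Crest.Agent.R316.CH

open Crest.Agent.Lib.PT Crest.CountHier

/-- levels built on the `PT` base class -/
def lev : ℕ → Set (Set (List Bool))
  | 0 => {L | PTPred (α := Bits) (fun x => x.val ∈ L)}
  | j + 1 => countStep (lev j)

theorem countStep_mono {K K' : Set (Set (List Bool))} (h : K ⊆ K') : countStep K ⊆ countStep K' := by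
  rintro L ⟨B, hB, p, hp⟩
  exact ⟨B, h hB, p, hp⟩

/-- A poly-time decidable set of strings is in P (in the sense of the prelude). -/
theorem inP_of_ptpred {L : Set (List Bool)} (h : PTPred (α := Bits) (fun x => x.val ∈ L)) :
    Crest.Complexity.InP L := by
  obtain ⟨f, ⟨g, hg, hgf⟩, hf⟩ := h
  refine ⟨fun x => f ⟨x⟩, ?_, fun x => hf ⟨x⟩⟩
  obtain ⟨⟨aux, time, outF⟩⟩ := hg.polyTime
  exact ⟨⟨aux, time, fun a => by
    have := outF a
    have e : g a = [f ⟨a⟩] := hgf ⟨a⟩
    rw [e] at this
    exact this⟩⟩

theorem lev_subset_level (j : ℕ) : lev j ⊆ level j := by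
  induction j with
  | zero => exact fun L hL => inP_of_ptpred hL
  | succ j ih => exact countStep_mono ih

theorem pairBits_eq (x y : List Bool) : pairBits x y = pair x y := rfl

theorem mem_countStep {K : Set (Set (List Bool))} {L : Set (List Bool)} :
    L ∈ countStep K ↔ ∃ B ∈ K, ∃ p : Polynomial ℕ, ∀ x : List Bool,
      x ∈ L ↔ 2 ^ (p.eval x.length) < 2 * cnt (p.eval x.length) {y | pair x y ∈ B} := Iff.rfl

/-- closure properties of a class of languages -/
structure Closed (K : Set (Set (List Bool))) : Prop where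
  preim : ∀ {L f}, L ∈ K → PT f → {x | f x ∈ L} ∈ K
  cond : ∀ {L₁ L₂ : Set (List Bool)} {c : List Bool → Bool}, L₁ ∈ K → L₂ ∈ K → PTB c →
    {x | if c x = true then x ∈ L₁ else x ∈ L₂} ∈ K
  compl : ∀ {L}, L ∈ K → Lᶜ ∈ K
  univ : Set.univ ∈ K

theorem Closed.empty {K : Set (Set (List Bool))} (h : Closed K) : (∅ : Set (List Bool)) ∈ K := by
  simpa using h.compl h.univ

/-- poly-time sets are in every closed class -/
theorem Closed.ptb {K : Set (Set (List Bool))} (h : Closed K) {c : List Bool → Bool} (hc : PTB c) :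
    {x | c x = true} ∈ K := by
  have := h.cond h.univ h.empty hc
  simpa using this

theorem ptpred_iff_ptb {L : Set (List Bool)} :
    PTPred (α := Bits) (fun x => x.val ∈ L) ↔
      ∃ c : List Bool → Bool, PTB c ∧ ∀ x, x ∈ L ↔ c x = true := by
  constructor
  · rintro ⟨f, ⟨g, hg, hgf⟩, hf⟩
    exact ⟨fun x => f ⟨x⟩, hg.of_eq fun x => hgf ⟨x⟩, fun x => hf ⟨x⟩⟩
  · rintro ⟨c, hc, h⟩
    exact ⟨fun x => c x.val, ⟨_, hc, fun _ => rfl⟩, fun x => h x.val⟩

theorem closed_zero : Closed (lev 0) where
  preim := by
    intro L f hL hf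
    obtain ⟨c, hc, h⟩ := ptpred_iff_ptb.1 hL
    exact ptpred_iff_ptb.2 ⟨_, hc.comp hf, fun x => h (f x)⟩
  cond := by
    intro L₁ L₂ c h₁ h₂ hc
    obtain ⟨c₁, hc₁, h₁⟩ := ptpred_iff_ptb.1 h₁
    obtain ⟨c₂, hc₂, h₂⟩ := ptpred_iff_ptb.1 h₂
    refine ptpred_iff_ptb.2 ⟨fun x => (c x && c₁ x) || (!c x && c₂ x),
      (hc.and hc₁).or (hc.not.and hc₂), fun x => ?_⟩
    simp only [Set.mem_ofPred_eq, h₁, h₂]
    cases c x <;> simp
  compl := by
    intro L hL
    obtain ⟨c, hc, h⟩ := ptpred_iff_ptb.1 hL
    refine ptpred_iff_ptb.2 ⟨_, hc.not, fun x => ?_⟩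
    simp [h]
  univ := ptpred_iff_ptb.2 ⟨_, PTB.const true, fun x => by simp⟩

theorem eval_mono' (p : Polynomial ℕ) {m n : ℕ} (h : m ≤ n) : p.eval m ≤ p.eval n :=
  Crest.Agent.Lib.PT.eval_mono p h

/-- unary string of polynomial length, as a PT function -/
theorem pt_clock (p : Polynomial ℕ) {f : List Bool → List Bool} (hf : PT f) :
    PT (fun x => List.replicate (p.eval (f x).length) true) := by
  obtain ⟨g, hg, h⟩ := PTU.eval p (PTU.sz (α := Bits))
  exact (hg.comp hf).of_eq (fun x => h ⟨f x⟩)

/-- The defining data of a `countStep` can be padded: any larger polynomial works. -/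
theorem countStep_pad {K : Set (Set (List Bool))} (hK : Closed K) {L : Set (List Bool)}
    (hL : L ∈ countStep K) (f : List Bool → List Bool) (hf : PT f) :
    ∃ q₀ : Polynomial ℕ, ∀ q : Polynomial ℕ, (∀ n, q₀.eval n ≤ q.eval n) →
      ∃ B ∈ K, ∀ x : List Bool,
        f x ∈ L ↔ 2 ^ (q.eval x.length) < 2 * cnt (q.eval x.length) {y | pair x y ∈ B} := by
  obtain ⟨B, hB, p, hp⟩ := mem_countStep.1 hL
  obtain ⟨b, hb⟩ := PT.bound hf
  refine ⟨p.comp b, fun q hq => ?_⟩
  refine ⟨{z | pair (f (fst z)) ((snd z).take (List.replicate (p.eval (f (fst z)).length) true).length)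
      ∈ B}, hK.preim hB (PT.pair (hf.comp PT.fst) (PT.take' (pt_clock p (hf.comp PT.fst)) PT.snd)),
      fun x => ?_⟩
  have hle : p.eval (f x).length ≤ q.eval x.length := by
    refine le_trans ?_ (hq _)
    rw [Polynomial.eval_comp]
    exact eval_mono' p (hb x)
  obtain ⟨k, hk⟩ := Nat.exists_eq_add_of_le hle
  have e : {y : List Bool | pair x y ∈ {z | pair (f (fst z))
      ((snd z).take (List.replicate (p.eval (f (fst z)).length) true).length) ∈ B}} =
      {y | y.take (p.eval (f x).length) ∈ {y | pair (f x) y ∈ B}} := by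
    ext y; simp
  rw [hp, hk, e, cnt_take, pow_add]
  generalize cnt (p.eval (f x).length) {y | pair (f x) y ∈ B} = c
  have h2 : 0 < 2 ^ k := Nat.two_pow_pos k
  rw [show 2 * (2 ^ k * c) = (2 * c) * 2 ^ k by ring]
  exact (Nat.mul_lt_mul_right h2).symm

/-- drop the head if it is `b` -/
def dropHead (b : Bool) (x : List Bool) : List Bool := if x.head? = some b then x.tail else x

theorem pt_dropHead (b : Bool) : PT (dropHead b) := by
  cases b
  · refine (PT.cases (c := fun x => x) PT.id PT.id PT.id PT.tail).of_eq (fun x => ?_)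
    rcases x with _ | ⟨_ | _, x⟩ <;> simp [dropHead]
  · refine (PT.cases (c := fun x => x) PT.id PT.id PT.tail PT.id).of_eq (fun x => ?_)
    rcases x with _ | ⟨_ | _, x⟩ <;> simp [dropHead]

theorem dropHead_length (b : Bool) (x : List Bool) : (dropHead b x).length ≤ x.length := by
  unfold dropHead; split_ifs <;> simp

theorem dropHead_iterate (b : Bool) (x : List Bool) (n : ℕ) (hn : x.length ≤ n) :
    (dropHead b)^[n] x = x.dropWhile (fun c => c == b) := by
  induction x generalizing n with
  | nil =>
    have : dropHead b [] = [] := by simp [dropHead]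
    simpa using Function.iterate_fixed this n
  | cons c x ih =>
    obtain ⟨m, rfl⟩ : ∃ m, n = m + 1 := ⟨n - 1, by simp at hn; omega⟩
    by_cases h : c = b
    · subst h
      rw [Function.iterate_succ_apply]
      have : dropHead c (c :: x) = x := by simp [dropHead]
      rw [this, ih m (by simp at hn; omega)]
      simp
    · have : dropHead b (c :: x) = c :: x := by simp [dropHead, h]
      rw [Function.iterate_fixed this, List.dropWhile_cons_of_neg]
      simpa using h

theorem dropHead_iterate_length (b : Bool) (x : List Bool) (i : ℕ) :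
    ((dropHead b)^[i] x).length ≤ x.length := by
  induction i with
  | zero => simp
  | succ i ih => rw [Function.iterate_succ_apply']; exact (dropHead_length _ _).trans ih

theorem pt_dropWhile (b : Bool) : PT (fun x => x.dropWhile (fun c => c == b)) := by
  have h := PT.iter (pt_dropHead b) ⟨Polynomial.X, fun x n i _ => by
    simpa using (dropHead_iterate_length b x i).trans (Nat.le_add_right _ _)⟩
  refine (h.comp (PT.pair PT.id PT.id)).of_eq (fun x => ?_)
  simp only [fst_pair, snd_pair]
  exact dropHead_iterate b x _ le_rfl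

theorem ptb_eq_nil {f : List Bool → List Bool} (hf : PT f) : PTB (fun x => decide (f x = [])) :=
  (PTB.eqConst []).comp hf

/-- test whether a string consists of `true` only -/
theorem ptb_allTrue {f : List Bool → List Bool} (hf : PT f) :
    PTB (fun x => (f x).all (fun b => b)) := by
  refine (ptb_eq_nil ((pt_dropWhile true).comp hf)).of_eq (fun x => ?_)
  rw [Bool.eq_iff_iff]
  simp [List.dropWhile_eq_nil_iff, List.all_eq_true]

theorem ptb_head {f : List Bool → List Bool} (hf : PT f) (b : Bool) :
    PTB (fun x => decide ((f x).head? = some b)) := by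
  cases b
  · refine (PT.cases (c := f) hf (PT.const [false]) (PT.const [false])
      (PT.const [true])).of_eq (fun x => ?_)
    rcases h : f x with _ | ⟨_ | _, x⟩ <;> simp [h]
  · refine (PT.cases (c := f) hf (PT.const [false]) (PT.const [true])
      (PT.const [false])).of_eq (fun x => ?_)
    rcases h : f x with _ | ⟨_ | _, x⟩ <;> simp [h]

/-- exactly `2 ^ p + 1` strings of length `p + 1` start with `false` or are all-true. -/
theorem cnt_half (p : ℕ) :
    cnt (p + 1) {y | y.head? = some false ∨ (y.all (fun b => b)) = true} = 2 ^ p + 1 := by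
  classical
  rw [cnt_succ]
  congr 1
  · have : {y : List Bool | false :: y ∈ {y : List Bool | y.head? = some false ∨
        (y.all (fun b => b)) = true}} = Set.univ := by ext; simp
    rw [this, cnt_univ]
  · have h : ∀ p, cnt p {y : List Bool | (y.all (fun b => b)) = true} = 1 := by
      intro p
      induction p with
      | zero => simp [cnt_zero]
      | succ p ih =>
        rw [cnt_succ]
        have e1 : {y : List Bool | false :: y ∈ {y : List Bool | (y.all (fun b => b)) = true}} = ∅ := by
          ext; simp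
        have e2 : {y : List Bool | true :: y ∈ {y : List Bool | (y.all (fun b => b)) = true}} =
            {y : List Bool | (y.all (fun b => b)) = true} := by ext; simp
        rw [e1, e2, cnt_empty, ih]
    have e : {y : List Bool | true :: y ∈ {y : List Bool | y.head? = some false ∨
        (y.all (fun b => b)) = true}} = {y : List Bool | (y.all (fun b => b)) = true} := by
      ext; simp
    rw [e, h]

/-- The level-raising inclusion. -/
theorem subset_countStep {K : Set (Set (List Bool))} (hK : Closed K) : K ⊆ countStep K := by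
  classical
  intro L hL
  refine mem_countStep.2 ⟨_, hK.preim hL PT.fst, 0, fun x => ?_⟩
  simp only [Polynomial.eval_zero, pow_zero, cnt_zero, Set.mem_ofPred_eq, fst_pair]
  split_ifs with h <;> simp [h]

theorem closed_succ {K : Set (Set (List Bool))} (hK : Closed K) : Closed (countStep K) where
  preim := by
    intro L f hL hf
    obtain ⟨q₀, h⟩ := countStep_pad hK hL f hf
    obtain ⟨B, hB, h⟩ := h q₀ (fun _ => le_rfl)
    exact mem_countStep.2 ⟨B, hB, q₀, h⟩
  cond := by
    intro L₁ L₂ c h₁ h₂ hc
    obtain ⟨q₁, h₁⟩ := countStep_pad hK h₁ _ PT.id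
    obtain ⟨q₂, h₂⟩ := countStep_pad hK h₂ _ PT.id
    obtain ⟨B₁, hB₁, h₁⟩ := h₁ (q₁ + q₂) (fun n => by simp)
    obtain ⟨B₂, hB₂, h₂⟩ := h₂ (q₁ + q₂) (fun n => by simp)
    refine mem_countStep.2 ⟨_, hK.cond hB₁ hB₂ (hc.comp PT.fst), q₁ + q₂, fun x => ?_⟩
    simp only [Set.mem_ofPred_eq, fst_pair]
    by_cases hcx : c x = true
    · simp only [hcx, if_true, h₁]
    · simp only [hcx]
      exact h₂ x
  compl := by
    intro L hL
    obtain ⟨q₀, h⟩ := countStep_pad hK hL _ PT.id
    obtain ⟨B, hB, h⟩ := h (q₀ + 1) (fun n => by simp)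
    -- count strings of length q+2: first bit selects
    have hB' : {z | if (fun z => decide ((snd z).head? = some false)) z = true then
        z ∈ {z | pair (fst z) (snd z).tail ∈ Bᶜ} else
        z ∈ {z | (fun z => decide ((snd z).tail.head? = some false) ||
          (snd z).tail.all (fun b => b)) z = true}} ∈ K :=
      hK.cond (hK.preim (hK.compl hB) (PT.pair PT.fst (PT.tail' PT.snd)))
        (hK.ptb ((ptb_head (PT.tail' PT.snd) false).or (ptb_allTrue (PT.tail' PT.snd))))
        (ptb_head PT.snd false)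
    refine mem_countStep.2 ⟨_, hB', q₀ + 1 + 1, fun x => ?_⟩
    have hx := h x
    have e0 : (q₀ + 1).eval x.length = q₀.eval x.length + 1 := by simp
    have e1 : (q₀ + 1 + 1).eval x.length = q₀.eval x.length + 1 + 1 := by simp
    rw [e0] at hx
    rw [e1, cnt_succ]
    have f1 : {y : List Bool | false :: y ∈ {y : List Bool | pair x y ∈ {z |
        if (fun z => decide ((snd z).head? = some false)) z = true then
        z ∈ {z | pair (fst z) (snd z).tail ∈ Bᶜ} else
        z ∈ {z | (fun z => decide ((snd z).tail.head? = some false) ||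
          (snd z).tail.all (fun b => b)) z = true}}}} = {y | pair x y ∈ B}ᶜ := by
      ext y; simp
    have f2 : {y : List Bool | true :: y ∈ {y : List Bool | pair x y ∈ {z |
        if (fun z => decide ((snd z).head? = some false)) z = true then
        z ∈ {z | pair (fst z) (snd z).tail ∈ Bᶜ} else
        z ∈ {z | (fun z => decide ((snd z).tail.head? = some false) ||
          (snd z).tail.all (fun b => b)) z = true}}}} =
        {y | y.head? = some false ∨ (y.all (fun b => b)) = true} := by
      ext y; simp [List.head?_eq_getElem?]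
    rw [f1, f2, cnt_half]
    have h3 := cnt_add_compl (q₀.eval x.length + 1) {y | pair x y ∈ B}
    rw [Set.mem_compl_iff, hx]
    generalize cnt (q₀.eval x.length + 1) {y | pair x y ∈ B} = c at *
    generalize cnt (q₀.eval x.length + 1) {y | pair x y ∈ B}ᶜ = c' at *
    rw [pow_succ] at h3 ⊢
    rw [pow_succ]
    omega
  univ := by
    refine mem_countStep.2 ⟨Set.univ, hK.univ, 0, fun x => ?_⟩
    simp [cnt_univ]

theorem closed_lev (j : ℕ) : Closed (lev j) := by
  induction j with
  | zero => exact closed_zero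
  | succ j ih => exact closed_succ ih

theorem lev_mono {i j : ℕ} (h : i ≤ j) : lev i ⊆ lev j := by
  induction h with
  | refl => exact fun _ h => h
  | step _ ih => exact ih.trans (subset_countStep (closed_lev _))

/-- A language is in the counting hierarchy. -/
def InCH (L : Set (List Bool)) : Prop := ∃ j, L ∈ lev j

theorem InCH.level {L : Set (List Bool)} (h : InCH L) : ∃ j, L ∈ level j :=
  h.imp fun j hj => lev_subset_level j hj

theorem InCH.common {L₁ L₂ : Set (List Bool)} (h₁ : InCH L₁) (h₂ : InCH L₂) :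
    ∃ j, L₁ ∈ lev j ∧ L₂ ∈ lev j := by
  obtain ⟨i, hi⟩ := h₁
  obtain ⟨j, hj⟩ := h₂
  exact ⟨max i j, lev_mono (le_max_left _ _) hi, lev_mono (le_max_right _ _) hj⟩

theorem InCH.preim {L : Set (List Bool)} (h : InCH L) {f : List Bool → List Bool} (hf : PT f) :
    InCH {x | f x ∈ L} := h.imp fun _ hj => (closed_lev _).preim hj hf

theorem InCH.compl {L : Set (List Bool)} (h : InCH L) : InCH Lᶜ :=
  h.imp fun _ hj => (closed_lev _).compl hj

theorem InCH.of_ptb {c : List Bool → Bool} (hc : PTB c) : InCH {x | c x = true} :=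
  ⟨0, (closed_lev 0).ptb hc⟩

theorem InCH.cond {L₁ L₂ : Set (List Bool)} {c : List Bool → Bool} (h₁ : InCH L₁) (h₂ : InCH L₂)
    (hc : PTB c) : InCH {x | if c x = true then x ∈ L₁ else x ∈ L₂} := by
  obtain ⟨j, h₁, h₂⟩ := h₁.common h₂
  exact ⟨j, (closed_lev j).cond h₁ h₂ hc⟩

/-- majority with a polynomial number of bits -/
theorem InCH.majority {B : Set (List Bool)} (h : InCH B) (p : Polynomial ℕ) :
    InCH {x | 2 ^ (p.eval x.length) < 2 * cnt (p.eval x.length) {y | pair x y ∈ B}} := by
  obtain ⟨j, hj⟩ := h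
  exact ⟨j + 1, mem_countStep.2 ⟨B, hj, p, fun x => Iff.rfl⟩⟩

theorem InCH.inter {L₁ L₂ : Set (List Bool)} (h₁ : InCH L₁) (h₂ : InCH L₂) : InCH (L₁ ∩ L₂) := by
  classical
  -- two extra bits: `00 → L₁`, `01 → L₂`, `10 → true`, `11 → false`
  have hB : InCH {z | if (fun z => decide ((snd z).head? = some false)) z = true then
      z ∈ {z | if (fun z => decide ((snd z).tail.head? = some false)) z = true then
        z ∈ {z | fst z ∈ L₁} else z ∈ {z | fst z ∈ L₂}} else
      z ∈ {z | (fun z => decide ((snd z).tail.head? = some false)) z = true}} :=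
    InCH.cond (InCH.cond (h₁.preim PT.fst) (h₂.preim PT.fst) (ptb_head (PT.tail' PT.snd) false))
      (InCH.of_ptb (ptb_head (PT.tail' PT.snd) false)) (ptb_head PT.snd false)
  have := hB.majority 2
  convert this using 1
  ext x
  have e : (2 : Polynomial ℕ).eval x.length = 1 + 1 := by
    simpa using Polynomial.eval_ofNat (n := 2) x.length
  simp only [Set.mem_inter_iff, Set.mem_ofPred_eq, e]
  rw [cnt_succ, show (1 : ℕ) = 0 + 1 by rfl, cnt_succ, cnt_succ, cnt_zero, cnt_zero, cnt_zero,
    cnt_zero]
  by_cases h1 : x ∈ L₁ <;> by_cases h2 : x ∈ L₂ <;> simp [h1, h2]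

end Crest.Agent.R316.CH
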