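import Mathlib

/-!
# R316 / CH / Count : counting bit strings of a fixed length
-/

set_option autoImplicit false

namespace Crest.Agent.R316.CH

/-- number of strings of length `n` in `S` -/
noncomputable def cnt (n : ℕ) (S : Set (List Bool)) : ℕ := {y : List Bool | y.length = n ∧ y ∈ S}.ncard

theorem cnt_finite (n : ℕ) (S : Set (List Bool)) : {y : List Bool | y.length = n ∧ y ∈ S}.Finite :=
  (List.finite_length_eq Bool n).subset fun _ h => h.1

theorem cnt_zero (S : Set (List Bool)) [Decidable ([] ∈ S)] :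
    cnt 0 S = if [] ∈ S then 1 else 0 := by
  unfold cnt
  split_ifs with h
  · have : {y : List Bool | y.length = 0 ∧ y ∈ S} = {[]} := by
      ext y; simp only [List.length_eq_zero_iff, Set.mem_ofPred_eq, Set.mem_singleton_iff]
      constructor
      · exact fun h => h.1
      · rintro rfl; exact ⟨rfl, h⟩
    rw [this, Set.ncard_singleton]
  · have : {y : List Bool | y.length = 0 ∧ y ∈ S} = ∅ := by
      ext y; simp only [List.length_eq_zero_iff, Set.mem_ofPred_eq, Set.mem_empty_iff_false,
        iff_false, not_and]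
      rintro rfl; exact h
    rw [this, Set.ncard_empty]

theorem cnt_succ (n : ℕ) (S : Set (List Bool)) :
    cnt (n + 1) S = cnt n {y | false :: y ∈ S} + cnt n {y | true :: y ∈ S} := by
  unfold cnt
  have h : {y : List Bool | y.length = n + 1 ∧ y ∈ S} =
      (List.cons false) '' {y | y.length = n ∧ y ∈ {y | false :: y ∈ S}} ∪
      (List.cons true) '' {y | y.length = n ∧ y ∈ {y | true :: y ∈ S}} := by
    ext y
    cases y with
    | nil => simp
    | cons b y => cases b <;> simp
  rw [h, Set.ncard_union_eq ?_ ((cnt_finite n _).image _) ((cnt_finite n _).image _),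
    Set.ncard_image_of_injective _ List.cons_injective,
    Set.ncard_image_of_injective _ List.cons_injective]
  rw [Set.disjoint_left]
  rintro y ⟨a, _, rfl⟩ ⟨b, _, hb⟩
  simp at hb

theorem cnt_congr {n : ℕ} {S T : Set (List Bool)} (h : ∀ y : List Bool, y.length = n → (y ∈ S ↔ y ∈ T)) :
    cnt n S = cnt n T := by
  unfold cnt
  congr 1
  ext y
  simp only [Set.mem_ofPred_eq]
  constructor
  · rintro ⟨h1, h2⟩; exact ⟨h1, (h y h1).1 h2⟩
  · rintro ⟨h1, h2⟩; exact ⟨h1, (h y h1).2 h2⟩

theorem cnt_mono {n : ℕ} {S T : Set (List Bool)} (h : ∀ y : List Bool, y.length = n → y ∈ S → y ∈ T) :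
    cnt n S ≤ cnt n T :=
  Set.ncard_le_ncard (fun y hy => ⟨hy.1, h y hy.1 hy.2⟩) (cnt_finite n T)

@[simp] theorem cnt_empty (n : ℕ) : cnt n ∅ = 0 := by simp [cnt]

@[simp] theorem cnt_univ (n : ℕ) : cnt n Set.univ = 2 ^ n := by
  classical
  induction n with
  | zero => simp [cnt_zero]
  | succ n ih => rw [cnt_succ]; simp only [Set.mem_univ, Set.ofPred_true, ih]; ring

theorem cnt_le (n : ℕ) (S : Set (List Bool)) : cnt n S ≤ 2 ^ n := by
  rw [← cnt_univ n]; exact cnt_mono fun _ _ _ => Set.mem_univ _

theorem cnt_add_compl (n : ℕ) (S : Set (List Bool)) : cnt n S + cnt n Sᶜ = 2 ^ n := by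
  classical
  induction n generalizing S with
  | zero => by_cases h : [] ∈ S <;> simp [cnt_zero, h]
  | succ n ih =>
    rw [cnt_succ, cnt_succ]
    have h1 := ih {y | false :: y ∈ S}
    have h2 := ih {y | true :: y ∈ S}
    have e1 : {y : List Bool | false :: y ∈ S}ᶜ = {y | false :: y ∈ Sᶜ} := rfl
    have e2 : {y : List Bool | true :: y ∈ S}ᶜ = {y | true :: y ∈ Sᶜ} := rfl
    rw [e1] at h1
    rw [e2] at h2
    rw [pow_succ]
    omega

/-- counting with an appended block of arbitrary bits -/
theorem cnt_take (m k : ℕ) (S : Set (List Bool)) :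
    cnt (m + k) {y | y.take m ∈ S} = 2 ^ k * cnt m S := by
  classical
  induction m generalizing S with
  | zero =>
    simp only [Nat.zero_add, List.take_zero, cnt_zero]
    split_ifs with h
    · have : {y : List Bool | [] ∈ S} = Set.univ := by ext; simp [h]
      rw [this, cnt_univ]; simp
    · have : {y : List Bool | [] ∈ S} = ∅ := by ext; simp [h]
      rw [this, cnt_empty]; simp
  | succ m ih =>
    have : m + 1 + k = (m + k) + 1 := by ring
    rw [this, cnt_succ, cnt_succ]
    have e1 := ih {y | false :: y ∈ S}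
    have e2 := ih {y | true :: y ∈ S}
    have f1 : {y : List Bool | false :: y ∈ {y | y.take (m + 1) ∈ S}} =
        {y | y.take m ∈ {y | false :: y ∈ S}} := by ext; simp
    have f2 : {y : List Bool | true :: y ∈ {y | y.take (m + 1) ∈ S}} =
        {y | y.take m ∈ {y | true :: y ∈ S}} := by ext; simp
    rw [f1, f2, e1, e2]; ring

/-- value of a bit string, least significant bit first -/
def bval (l : List Bool) : ℕ := l.foldr (fun b n => Nat.bit b n) 0

@[simp] theorem bval_nil : bval [] = 0 := rfl
@[simp] theorem bval_cons (b : Bool) (l : List Bool) : bval (b :: l) = Nat.bit b (bval l) := rfl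

theorem bval_lt (l : List Bool) : bval l < 2 ^ l.length := by
  induction l with
  | nil => simp
  | cons b l ih =>
    rw [bval_cons, List.length_cons, pow_succ, Nat.bit_val]
    cases b <;> simp <;> omega

/-- counting strings = counting numbers below a power of two -/
theorem cnt_bval (n : ℕ) (Q : ℕ → Prop) :
    cnt n {y | Q (bval y)} = {k | k < 2 ^ n ∧ Q k}.ncard := by
  classical
  induction n generalizing Q with
  | zero =>
    rw [cnt_zero]
    split_ifs with h
    · have : {k | k < 2 ^ 0 ∧ Q k} = {0} := by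
        ext k; simp only [pow_zero, Nat.lt_one_iff, Set.mem_ofPred_eq, Set.mem_singleton_iff]
        constructor
        · exact fun h => h.1
        · rintro rfl; exact ⟨rfl, h⟩
      rw [this, Set.ncard_singleton]
    · have : {k | k < 2 ^ 0 ∧ Q k} = ∅ := by
        ext k; simp only [pow_zero, Nat.lt_one_iff, Set.mem_ofPred_eq, Set.mem_empty_iff_false,
          iff_false, not_and]
        rintro rfl; exact h
      rw [this, Set.ncard_empty]
  | succ n ih =>
    rw [cnt_succ]
    have e1 := ih (fun k => Q (2 * k))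
    have e2 := ih (fun k => Q (2 * k + 1))
    have f1 : {y : List Bool | false :: y ∈ {y | Q (bval y)}} = {y | Q (2 * bval y)} := by
      ext; simp [Nat.bit_val]
    have f2 : {y : List Bool | true :: y ∈ {y | Q (bval y)}} = {y | Q (2 * bval y + 1)} := by
      ext; simp [Nat.bit_val]
    rw [f1, f2, e1, e2]
    have h : {k | k < 2 ^ (n + 1) ∧ Q k} =
        (fun k => 2 * k) '' {k | k < 2 ^ n ∧ Q (2 * k)} ∪
        (fun k => 2 * k + 1) '' {k | k < 2 ^ n ∧ Q (2 * k + 1)} := by
      ext k
      simp only [Set.mem_ofPred_eq, Set.mem_union, Set.mem_image]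
      constructor
      · rintro ⟨h1, h2⟩
        rcases Nat.even_or_odd' k with ⟨c, rfl | rfl⟩
        · left; exact ⟨c, ⟨by rw [pow_succ] at h1; omega, h2⟩, rfl⟩
        · right; exact ⟨c, ⟨by rw [pow_succ] at h1; omega, h2⟩, rfl⟩
      · rintro (⟨c, ⟨h1, h2⟩, rfl⟩ | ⟨c, ⟨h1, h2⟩, rfl⟩)
        · exact ⟨by rw [pow_succ]; omega, h2⟩
        · exact ⟨by rw [pow_succ]; omega, h2⟩
    have fin : ∀ P : ℕ → Prop, {k | k < 2 ^ n ∧ P k}.Finite := fun P =>
      (Set.finite_Iio (2 ^ n)).subset fun _ h => h.1
    rw [h, Set.ncard_union_eq ?_ ((fin _).image _) ((fin _).image _),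
      Set.ncard_image_of_injective, Set.ncard_image_of_injective]
    · intro a b h; simpa using h
    · intro a b h; simpa using h
    · rw [Set.disjoint_left]
      rintro y ⟨a, _, rfl⟩ ⟨b, _, hb⟩
      simp only at hb; omega

end Crest.Agent.R316.CH
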