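import Crest.Agent.R316.CH.Mod
import Crest.Agent.Lib.PT.ListFns2

/-!
# R316 / CH / Digits : enumeration of functions `Fin n → Fin K` (as lists) by numbers `< K ^ n`,
and list-valued substitutions
-/

set_option autoImplicit false

namespace Crest.Agent.R316.CH

open Crest.Agent.Lib.PT

variable {α β γ : Type} [PTCode α] [PTCode β] [PTCode γ]

/-- the `n` lowest digits of `k` in base `K`, least significant first -/
def digs : ℕ → ℕ → ℕ → List ℕ
  | 0, _, _ => []
  | n + 1, K, k => k % K :: digs n K (k / K)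

theorem digs_length (n K k : ℕ) : (digs n K k).length = n := by
  induction n generalizing k with
  | zero => rfl
  | succ n ih => simp [digs, ih]

theorem digs_getD {n K k i : ℕ} (hi : i < n) : (digs n K k).getD i 0 = k / K ^ i % K := by
  induction n generalizing k i with
  | zero => omega
  | succ n ih =>
    rcases i with _ | i
    · simp [digs]
    · rw [digs, List.getD_cons_succ, ih (by omega), Nat.div_div_eq_div_mul, pow_succ']

/-- every list of `n` digits `< K` is `digs n K k` for some `k < K ^ n` -/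
theorem exists_digs {K : ℕ} (l : List ℕ) (hl : ∀ d ∈ l, d < K) :
    ∃ k < K ^ l.length, digs l.length K k = l := by
  induction l with
  | nil => exact ⟨0, by simp, rfl⟩
  | cons d l ih =>
    obtain ⟨k, hk, h⟩ := ih fun e he => hl e (by simp [he])
    have hd : d < K := hl d (by simp)
    refine ⟨d + K * k, ?_, ?_⟩
    · rw [List.length_cons, pow_succ']
      calc d + K * k < K + K * k := by omega
        _ = K * (k + 1) := by ring
        _ ≤ K * K ^ l.length := Nat.mul_le_mul_left _ hk
    · rw [List.length_cons, digs, Nat.add_mul_mod_self_left, Nat.mod_eq_of_lt hd,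
        Nat.add_mul_div_left _ _ (by omega), Nat.div_eq_of_lt hd, zero_add, h]

theorem digs_eq_map (n K k : ℕ) :
    digs n K k = (List.range n).map fun i => k / K ^ min i n % K := by
  apply List.ext_getElem
  · simp [digs_length]
  · intro i h1 h2
    rw [digs_length] at h1
    have := digs_getD (K := K) (k := k) h1
    rw [List.getD_eq_getElem _ _ (by rwa [digs_length])] at this
    rw [this]
    simp [Nat.min_eq_left h1.le]

theorem ptf_digs {n K k : α → ℕ} (hn : PTU n) (hK : PTF K) (hk : PTF k) :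
    PTF (fun a => digs (n a) (K a) (k a)) := by
  refine (PTF.tabulate (f := fun a i => k a / K a ^ min i (n a) % K a) hn ?_).of_eq
    fun a => (digs_eq_map _ _ _).symm
  exact PTF.natMod (PTF.natDiv (hk.comp PTF.fst) (PTF.natPow (hK.comp PTF.fst)
    (PTF.natMinUn PTF.snd (hn.comp PTF.fst)))) (hK.comp PTF.fst)

theorem sum_digs {M : Type*} [AddCommMonoid M] (n K : ℕ) (f : List ℕ → M) :
    ∑ κ : Fin n → Fin K, f (List.ofFn fun i => (κ i : ℕ)) =
      ∑ k ∈ Finset.range (K ^ n), f (digs n K k) := by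
  rw [Finset.sum_range]
  refine Fintype.sum_equiv finFunctionFinEquiv _ _ fun κ => ?_
  congr 1
  have h : κ = finFunctionFinEquiv.symm (finFunctionFinEquiv κ) := by simp
  generalize finFunctionFinEquiv κ = k at h
  subst h
  apply List.ext_getElem
  · simp [digs_length]
  · intro i h1 h2
    rw [digs_length] at h2
    have := digs_getD (K := K) (k := k) h2
    rw [List.getD_eq_getElem _ _ (by rwa [digs_length])] at this
    rw [this]
    simp [finFunctionFinEquiv]

theorem digs_sum (n : ℕ) {K : ℕ} (d : ℕ → ℕ) (hd : ∀ i < n, d i < K) :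
    digs n K (∑ i ∈ Finset.range n, d i * K ^ i) = (List.range n).map d := by
  induction n generalizing d with
  | zero => rfl
  | succ n ih =>
    have hK : 0 < K := (Nat.zero_le _).trans_lt (hd 0 (by omega))
    have e : ∑ i ∈ Finset.range (n + 1), d i * K ^ i =
        d 0 + K * ∑ i ∈ Finset.range n, d (i + 1) * K ^ i := by
      rw [Finset.sum_range_succ', Finset.mul_sum, pow_zero, mul_one, add_comm]
      congr 1
      refine Finset.sum_congr rfl fun i _ => ?_
      rw [pow_succ]; ring
    rw [digs, e, Nat.add_mul_mod_self_left, Nat.mod_eq_of_lt (hd 0 (by omega)),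
      Nat.add_mul_div_left _ _ hK, Nat.div_eq_of_lt (hd 0 (by omega)), zero_add,
      ih (fun i => d (i + 1)) (fun i hi => hd _ (by omega)), List.range_succ_eq_map,
      List.map_cons, List.map_map]
    rfl

/-- a `CHF` number coding the list `X (a, 0), ..., X (a, n a - 1)` in base `2 ^ m a` -/
theorem CHF.exists_code {n : α → ℕ} (hn : PTU n) {X : α × ℕ → ℕ} (hX : CHF X) :
    ∃ m : α → ℕ, PTU m ∧ ∃ U : α → ℕ, CHF U ∧
      ∀ a, digs (n a) (2 ^ m a) (U a) = (List.range (n a)).map fun i => X (a, i) := by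
  obtain ⟨p, hp⟩ := hX.1
  have hm : PTU (fun a => p.eval (2 * sz a + 1 + n a)) := by
    refine PTU.eval p ?_
    exact PTU.add (PTU.add (PTU.mul (PTU.const 2) PTU.sz) (PTU.const 1)) hn
  refine ⟨fun a => p.eval (2 * sz a + 1 + n a), hm,
    fun a => ∑ i ∈ Finset.range (n a), X (a, i) * (2 ^ p.eval (2 * sz a + 1 + n a)) ^ i, ?_,
    fun a => ?_⟩
  · have h1 : CHF (fun q : α × ℕ => X q *
        (2 ^ p.eval (2 * sz q.1 + 1 + n q.1)) ^ min q.2 (n q.1)) :=
      hX.mul (CHF.of_ptf (PTF.natPow (PTF.natTwoPow (hm.comp PTF.fst))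
        (PTF.natMinUn PTF.snd (hn.comp PTF.fst))))
    refine (CHF.sum h1 (CHF.of_ptf hn.toPTF)).of_eq fun a => ?_
    refine Finset.sum_congr rfl fun i hi => ?_
    rw [Finset.mem_range] at hi
    simp only [Nat.min_eq_left hi.le]
  · refine digs_sum _ (fun i => X (a, i)) fun i hi => ?_
    refine Nat.size_le.1 ((hp (a, i)).trans (eval_mono p ?_))
    rw [sz_prod]
    have : sz i ≤ n a := (sz_nat_le i).trans hi.le
    simp only
    omega

/-- substitution of a list of `CHF` numbers into a `CHF` -/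
theorem CHF.substList {F : α × List ℕ → ℕ} (hF : CHF F) {n : α → ℕ} (hn : PTU n) {X : α × ℕ → ℕ}
    (hX : CHF X) : CHF (fun a => F (a, (List.range (n a)).map fun i => X (a, i))) := by
  obtain ⟨m, hm, U, hU, h⟩ := CHF.exists_code hn hX
  refine ((hF.comp (g := fun q : α × ℕ => (q.1, digs (n q.1) (2 ^ m q.1) q.2))
    (PTF.prodMk PTF.fst (ptf_digs (hn.comp PTF.fst) (PTF.natTwoPow (hm.comp PTF.fst))
      PTF.snd))).subst hU).of_eq fun a => ?_
  simp only [h]

/-- substitution of a list of `CHF` numbers into a predicate -/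
theorem CHPred.substList {P : α × List ℕ → Prop} (hP : CHPred P) {n : α → ℕ} (hn : PTU n)
    {X : α × ℕ → ℕ} (hX : CHF X) :
    CHPred (fun a => P (a, (List.range (n a)).map fun i => X (a, i))) := by
  obtain ⟨m, hm, U, hU, h⟩ := CHF.exists_code hn hX
  refine ((hP.comp (f := fun q : α × ℕ => (q.1, digs (n q.1) (2 ^ m q.1) q.2))
    (PTF.prodMk PTF.fst (ptf_digs (hn.comp PTF.fst) (PTF.natTwoPow (hm.comp PTF.fst))
      PTF.snd))).subst hU).of_iff fun a => ?_
  simp only [h]

/-- powers `K ^ n` with unary exponent -/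
theorem CHF.pow_unary {K n : α → ℕ} (hK : CHF K) (hn : PTU n) : CHF (fun a => K a ^ n a) :=
  CHF.subst (g := fun q : α × ℕ => q.2 ^ n q.1)
    (CHF.of_ptf (PTF.natPow PTF.snd (hn.comp PTF.fst))) hK

/-- sums over `Fin n → Fin K`, `n` unary -/
theorem CHF.sum_pi {f : α × List ℕ → ℕ} (hf : CHF f) {n K : α → ℕ} (hn : PTU n) (hK : CHF K) :
    CHF (fun a => ∑ κ : Fin (n a) → Fin (K a), f (a, List.ofFn fun i => (κ i : ℕ))) := by
  have h1 : CHF (fun q : α × ℕ => f (q.1, digs (n q.1) (K q.1) q.2)) :=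
    CHF.subst (g := fun r : (α × ℕ) × ℕ => f (r.1.1, digs (n r.1.1) r.2 r.1.2))
      (hf.comp (g := fun r : (α × ℕ) × ℕ => (r.1.1, digs (n r.1.1) r.2 r.1.2))
        (PTF.prodMk (by fun_prop) (ptf_digs (hn.comp (by fun_prop)) (by fun_prop) (by fun_prop))))
      (hK.comp PTF.fst)
  refine (CHF.sum h1 (CHF.pow_unary hK hn)).of_eq fun a => ?_
  exact (sum_digs (n a) (K a) (fun l => f (a, l))).symm

/-- sums over `Fin n → Fin K`, `n` unary -/
theorem CHMod.sum_pi {u : β → ℕ} {W : β × List ℕ → ℤ}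
    (hW : CHMod (fun x : β × List ℕ => u x.1) W) {n K : β → ℕ} (hn : PTU n) (hK : CHF K) :
    CHMod u (fun b => ∑ κ : Fin (n b) → Fin (K b), W (b, List.ofFn fun i => (κ i : ℕ))) := by
  have h1 : CHMod (fun q : β × ℕ => u q.1)
      (fun q : β × ℕ => W (q.1, digs (n q.1) (K q.1) q.2)) :=
    CHMod.subst (u := fun q : β × ℕ => u q.1)
      (W := fun r : (β × ℕ) × ℕ => W (r.1.1, digs (n r.1.1) r.2 r.1.2))
      (hW.comp (g := fun r : (β × ℕ) × ℕ => (r.1.1, digs (n r.1.1) r.2 r.1.2))
        (PTF.prodMk (by fun_prop) (ptf_digs (hn.comp (by fun_prop)) (by fun_prop) (by fun_prop))))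
      (hK.comp PTF.fst)
  refine (CHMod.sum h1 (CHF.pow_unary hK hn)).of_eq fun b => ?_
  exact (sum_digs (n b) (K b) (fun l => W (b, l))).symm

end Crest.Agent.R316.CH
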