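import Mathlib

/-!
# R316 / CH / Extract : coefficients as character sums over `(F_q^*)^n` (pure algebra)
-/

set_option autoImplicit false

namespace Crest.Agent.R316.CH

open MvPolynomial

variable {q : ℕ} [Fact q.Prime]

/-- `∑_{b ≠ 0} b ^ k = -1` if `q - 1 ∣ k`, else `0` -/
theorem sum_pow_units_zmod (k : ℕ) :
    ∑ b ∈ Finset.range (q - 1), ((b : ZMod q) + 1) ^ k = if q - 1 ∣ k then -1 else 0 := by
  have hq : q.Prime := Fact.out
  have hq1 : q - 1 + 1 = q := Nat.succ_pred_eq_of_pos hq.pos
  have hcard : Fintype.card (ZMod q) = q := ZMod.card q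
  have h := FiniteField.sum_pow_units (ZMod q) k
  rw [hcard] at h
  rw [← h]
  symm
  refine Finset.sum_bij' (fun (x : (ZMod q)ˣ) _ => (x : ZMod q).val - 1)
    (fun b hb => Units.mk0 ((b : ZMod q) + 1) ?_) ?_ ?_ ?_ ?_ ?_
  · rw [Finset.mem_range] at hb
    intro h0
    have h1 : (((b + 1 : ℕ)) : ZMod q) = 0 := by push_cast; exact h0
    rw [ZMod.natCast_eq_zero_iff] at h1
    have := Nat.le_of_dvd (by omega) h1
    omega
  · intro x _
    rw [Finset.mem_range]
    have h1 : (x : ZMod q).val < q := ZMod.val_lt _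
    have h2 : (x : ZMod q).val ≠ 0 := by
      rw [Ne, ZMod.val_eq_zero]; exact x.ne_zero
    omega
  · intro b hb
    exact Finset.mem_univ _
  · intro x _
    apply Units.ext
    rw [Units.val_mk0]
    have h2 : (x : ZMod q).val ≠ 0 := by
      rw [Ne, ZMod.val_eq_zero]; exact x.ne_zero
    have h3 : ((((x : ZMod q).val - 1 + 1 : ℕ)) : ZMod q) = x := by
      rw [Nat.sub_add_cancel (by omega), ZMod.natCast_zmod_val]
    push_cast at h3
    exact h3
  · intro b hb
    rw [Finset.mem_range] at hb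
    simp only [Units.val_mk0]
    have h1 : (b : ZMod q) + 1 = ((b + 1 : ℕ) : ZMod q) := by push_cast; ring
    rw [h1, ZMod.val_natCast, Nat.mod_eq_of_lt (by omega)]
    simp
  · intro x _
    have h2 : (x : ZMod q).val ≠ 0 := by
      rw [Ne, ZMod.val_eq_zero]; exact x.ne_zero
    have h3 : ((((x : ZMod q).val - 1 + 1 : ℕ)) : ZMod q) = x := by
      rw [Nat.sub_add_cancel (by omega), ZMod.natCast_zmod_val]
    push_cast at h3
    rw [h3]

theorem dvd_add_sub_iff {q m e : ℕ} (hm : m < q - 1) (he : e < q - 1) :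
    q - 1 ∣ m + (q - 1 - e) ↔ m = e := by
  constructor
  · intro h
    obtain ⟨c, hc⟩ := h
    rcases c with _ | _ | c
    · omega
    · omega
    · have : (q - 1) * (c + 1 + 1) = (q - 1) * c + (q - 1) + (q - 1) := by ring
      have h0 : 0 ≤ (q - 1) * c := Nat.zero_le _
      omega
  · rintro rfl
    have : m + (q - 1 - m) = q - 1 := by omega
    rw [this]

theorem polyCoeff_eq_sum_zmod (P : Polynomial ℤ) (hd : P.natDegree < q - 1) (e : ℕ)
    (he : e < q - 1) :
    ((P.coeff e : ℤ) : ZMod q) = -∑ k ∈ Finset.range (q - 1),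
      ((P.eval ((k : ℤ) + 1) : ℤ) : ZMod q) * ((k : ZMod q) + 1) ^ (q - 1 - e) := by
  have h1 : ∀ k : ℕ, ((P.eval ((k : ℤ) + 1) : ℤ) : ZMod q)
      = ∑ m ∈ Finset.range (q - 1), ((P.coeff m : ℤ) : ZMod q) * ((k : ZMod q) + 1) ^ m := by
    intro k
    rw [Polynomial.eval_eq_sum_range' hd]
    push_cast
    rfl
  have h2 : ∑ k ∈ Finset.range (q - 1),
      ((P.eval ((k : ℤ) + 1) : ℤ) : ZMod q) * ((k : ZMod q) + 1) ^ (q - 1 - e)
      = ∑ m ∈ Finset.range (q - 1), ((P.coeff m : ℤ) : ZMod q) *
          ∑ k ∈ Finset.range (q - 1), ((k : ZMod q) + 1) ^ (m + (q - 1 - e)) := by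
    simp only [Finset.mul_sum]
    rw [Finset.sum_comm]
    apply Finset.sum_congr rfl
    intro k _
    rw [h1, Finset.sum_mul]
    apply Finset.sum_congr rfl
    intro m _
    rw [pow_add]; ring
  rw [h2]
  have h3 : ∀ m ∈ Finset.range (q - 1), ((P.coeff m : ℤ) : ZMod q) *
          ∑ k ∈ Finset.range (q - 1), ((k : ZMod q) + 1) ^ (m + (q - 1 - e))
        = if m = e then -((P.coeff m : ℤ) : ZMod q) else 0 := by
    intro m hm
    rw [Finset.mem_range] at hm
    rw [sum_pow_units_zmod]
    by_cases h : m = e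
    · rw [if_pos ((dvd_add_sub_iff hm he).mpr h), if_pos h]; ring
    · rw [if_neg (fun h' => h ((dvd_add_sub_iff hm he).mp h')), if_neg h]; ring
  rw [Finset.sum_congr rfl h3, Finset.sum_ite_eq', if_pos (Finset.mem_range.mpr he)]
  ring

theorem coeff_eq_sum_zmod {n : ℕ} (P : MvPolynomial (Fin n) ℤ) (hd : P.totalDegree < q - 1)
    (e : Fin n → ℕ) (he : ∀ i, e i < q - 1) :
    ((coeff (Finsupp.equivFunOnFinite.symm e) P : ℤ) : ZMod q) =
      (-1) ^ n * ∑ κ : Fin n → Fin (q - 1),
        ((eval (fun i => ((κ i : ℕ) : ℤ) + 1) P : ℤ) : ZMod q) *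
          ∏ i, (((κ i : ℕ) : ZMod q) + 1) ^ (q - 1 - e i) := by
  have h1 : ∀ κ : Fin n → Fin (q - 1), ((eval (fun i => ((κ i : ℕ) : ℤ) + 1) P : ℤ) : ZMod q)
      = ∑ m ∈ P.support, ((coeff m P : ℤ) : ZMod q) * ∏ i, (((κ i : ℕ) : ZMod q) + 1) ^ m i := by
    intro κ
    rw [MvPolynomial.eval_eq']
    push_cast
    rfl
  have h2 : ∑ κ : Fin n → Fin (q - 1),
        ((eval (fun i => ((κ i : ℕ) : ℤ) + 1) P : ℤ) : ZMod q) *
          ∏ i, (((κ i : ℕ) : ZMod q) + 1) ^ (q - 1 - e i)
      = ∑ m ∈ P.support, ((coeff m P : ℤ) : ZMod q) *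
          ∏ i, ∑ k : Fin (q - 1), (((k : ℕ) : ZMod q) + 1) ^ (m i + (q - 1 - e i)) := by
    have h3 : ∀ m : Fin n →₀ ℕ,
        ∏ i, ∑ k : Fin (q - 1), (((k : ℕ) : ZMod q) + 1) ^ (m i + (q - 1 - e i))
        = ∑ κ : Fin n → Fin (q - 1), ∏ i, (((κ i : ℕ) : ZMod q) + 1) ^ (m i + (q - 1 - e i)) := by
      intro m
      rw [Fintype.prod_sum]
    simp only [h3, Finset.mul_sum]
    rw [Finset.sum_comm]
    apply Finset.sum_congr rfl
    intro κ _
    rw [h1, Finset.sum_mul]
    apply Finset.sum_congr rfl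
    intro m _
    rw [mul_assoc, ← Finset.prod_mul_distrib]
    congr 1
    apply Finset.prod_congr rfl
    intro i _
    rw [pow_add]
  have hmd : ∀ m ∈ P.support, ∀ i, m i < q - 1 := by
    intro m hm i
    refine lt_of_le_of_lt ?_ hd
    refine le_trans ?_ (MvPolynomial.le_totalDegree hm)
    rw [Finsupp.sum_fintype _ _ (fun _ => rfl)]
    exact Finset.single_le_sum (f := fun i => m i) (fun _ _ => Nat.zero_le _) (Finset.mem_univ i)
  have h4 : ∀ m ∈ P.support, ((coeff m P : ℤ) : ZMod q) *
          ∏ i, ∑ k : Fin (q - 1), (((k : ℕ) : ZMod q) + 1) ^ (m i + (q - 1 - e i))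
        = if m = Finsupp.equivFunOnFinite.symm e then (-1) ^ n * ((coeff m P : ℤ) : ZMod q)
          else 0 := by
    intro m hm
    have h5 : ∀ i, ∑ k : Fin (q - 1), (((k : ℕ) : ZMod q) + 1) ^ (m i + (q - 1 - e i))
        = if m i = e i then -1 else 0 := by
      intro i
      rw [Fin.sum_univ_eq_sum_range (fun k => ((k : ZMod q) + 1) ^ (m i + (q - 1 - e i)))
        (q - 1), sum_pow_units_zmod]
      by_cases h : m i = e i
      · rw [if_pos ((dvd_add_sub_iff (hmd m hm i) (he i)).mpr h), if_pos h]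
      · rw [if_neg (fun h' => h ((dvd_add_sub_iff (hmd m hm i) (he i)).mp h')), if_neg h]
    rw [Finset.prod_congr rfl fun i _ => h5 i]
    by_cases h : m = Finsupp.equivFunOnFinite.symm e
    · rw [if_pos h]
      subst h
      simp [mul_comm]
    · rw [if_neg h]
      have : ∃ i, m i ≠ e i := by
        by_contra h'
        push Not at h'
        apply h
        ext i
        simpa using h' i
      obtain ⟨i, hi⟩ := this
      rw [Finset.prod_eq_zero (Finset.mem_univ i), mul_zero]
      rw [if_neg hi]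
  rw [h2, Finset.sum_congr rfl h4, Finset.sum_ite_eq']
  split_ifs with h
  · rw [← mul_assoc, ← pow_add, ← two_mul]
    simp
  · rw [mul_zero]
    rw [MvPolynomial.notMem_support_iff] at h
    rw [h]
    simp

/-- restriction of `P` to the line through `x` in direction `j` -/
noncomputable def lineP {n : ℕ} (x : Fin n → ℤ) (j : Fin n) (P : MvPolynomial (Fin n) ℤ) :
    Polynomial ℤ :=
  aeval (fun i => Polynomial.C (x i) + (if i = j then Polynomial.X else 0)) P

theorem lineP_eval {n : ℕ} (x : Fin n → ℤ) (j : Fin n) (P : MvPolynomial (Fin n) ℤ) (s : ℤ) :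
    (lineP x j P).eval s = eval (Function.update x j (x j + s)) P := by
  unfold lineP
  induction P using MvPolynomial.induction_on with
  | C a => simp
  | add p q hp hq => rw [map_add, Polynomial.eval_add, hp, hq, map_add]
  | mul_X p i hp =>
    rw [map_mul, Polynomial.eval_mul, hp, map_mul, aeval_X, eval_X]
    congr 1
    by_cases h : i = j
    · subst h; simp
    · rw [if_neg h, Function.update_of_ne h]; simp

theorem lineP_natDegree {n : ℕ} (x : Fin n → ℤ) (j : Fin n) (P : MvPolynomial (Fin n) ℤ) :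
    (lineP x j P).natDegree ≤ P.totalDegree := by
  unfold lineP
  rw [aeval_def, eval₂_eq']
  apply Polynomial.natDegree_sum_le_of_forall_le
  intro m hm
  refine le_trans (Polynomial.natDegree_C_mul_le _ _) ?_
  refine le_trans (Polynomial.natDegree_prod_le _ _) ?_
  refine le_trans ?_ (MvPolynomial.le_totalDegree hm)
  rw [Finsupp.sum_fintype _ _ (fun _ => rfl)]
  apply Finset.sum_le_sum
  intro i _
  refine le_trans Polynomial.natDegree_pow_le ?_
  have : (Polynomial.C (x i) + (if i = j then (Polynomial.X : Polynomial ℤ) else 0)).natDegree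
      ≤ 1 := by
    refine le_trans (Polynomial.natDegree_add_le _ _) ?_
    rw [Polynomial.natDegree_C]
    split_ifs
    · simp
    · simp
  calc m i * _ ≤ m i * 1 := Nat.mul_le_mul_left _ this
    _ = m i := mul_one _

theorem lineP_derivative {n : ℕ} (x : Fin n → ℤ) (j : Fin n) (P : MvPolynomial (Fin n) ℤ) :
    (lineP x j P).derivative = lineP x j (pderiv j P) := by
  unfold lineP
  induction P using MvPolynomial.induction_on with
  | C a => simp
  | add p q hp hq => rw [map_add, Polynomial.derivative_add, hp, hq, map_add, map_add]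
  | mul_X p i hp =>
    rw [map_mul, Polynomial.derivative_mul, hp, Derivation.leibniz, map_add, smul_eq_mul,
      smul_eq_mul, map_mul, map_mul, aeval_X]
    by_cases h : i = j
    · subst h
      simp
      ring
    · rw [pderiv_X_of_ne h]
      simp [h]
      ring

/-- the partial derivative at a point as a character sum -/
theorem pderiv_eq_sum_zmod {n : ℕ} (hq : 2 < q) (P : MvPolynomial (Fin n) ℤ)
    (hd : P.totalDegree < q - 1)
    (x : Fin n → ℤ) (j : Fin n) :
    ((eval x (pderiv j P) : ℤ) : ZMod q) = -∑ k ∈ Finset.range (q - 1),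
      ((eval (Function.update x j (x j + (k + 1))) P : ℤ) : ZMod q) *
        ((k : ZMod q) + 1) ^ (q - 1 - 1) := by
  have h1 := polyCoeff_eq_sum_zmod (q := q) (lineP x j P)
    (lt_of_le_of_lt (lineP_natDegree x j P) hd) 1 (by omega)
  have h2 : (lineP x j P).coeff 1 = eval x (pderiv j P) := by
    have h3 : (lineP x j P).derivative.coeff 0 = (lineP x j P).coeff 1 := by
      rw [Polynomial.coeff_derivative]; simp
    rw [← h3, lineP_derivative, Polynomial.coeff_zero_eq_eval_zero, lineP_eval]
    simp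
  rw [h2] at h1
  rw [h1]
  simp only [lineP_eval]

/-- determinants as signed sums over all functions -/
theorem det_eq_sum_functions {R : Type*} [CommRing R] {n : ℕ} (A : Matrix (Fin n) (Fin n) R) :
    A.det = ∑ κ : Fin n → Fin n,
      (∏ j : Fin n, ∏ i : Fin n, if i < j then
        (if κ i < κ j then (1 : R) else if κ j < κ i then -1 else 0) else 1) *
      ∏ i, A (κ i) i := by
  classical
  set w : (Fin n → Fin n) → R := fun κ => ∏ j : Fin n, ∏ i : Fin n, if i < j then
        (if κ i < κ j then (1 : R) else if κ j < κ i then -1 else 0) else 1 with hw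
  have h0 : ∀ κ : Fin n → Fin n, ¬ Function.Bijective κ → w κ = 0 := by
    intro κ hκ
    have hinj : ¬ Function.Injective κ := fun h => hκ (Finite.injective_iff_bijective.mp h)
    rw [Function.Injective] at hinj
    push Not at hinj
    obtain ⟨a, b, hab, hne⟩ := hinj
    rcases lt_or_gt_of_ne hne with h | h
    · apply Finset.prod_eq_zero (Finset.mem_univ b)
      apply Finset.prod_eq_zero (Finset.mem_univ a)
      rw [if_pos h, hab]; simp
    · apply Finset.prod_eq_zero (Finset.mem_univ a)
      apply Finset.prod_eq_zero (Finset.mem_univ b)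
      rw [if_pos h, hab]; simp
  have h1 : ∀ σ : Equiv.Perm (Fin n), w σ = ((Equiv.Perm.sign σ : ℤˣ) : ℤ) := by
    intro σ
    rw [Equiv.Perm.sign_eq_prod_prod_Iio]
    push_cast
    simp only [hw]
    apply Finset.prod_congr rfl
    intro j _
    rw [← Finset.prod_filter]
    have : (Finset.univ.filter fun i : Fin n => i < j) = Finset.Iio j := by
      ext i; simp
    rw [this]
    apply Finset.prod_congr rfl
    intro i hi
    rw [Finset.mem_Iio] at hi
    have hne : σ i ≠ σ j := fun h => hi.ne (σ.injective h)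
    by_cases h : σ i < σ j
    · simp [h]
    · have h' : σ j < σ i := lt_of_le_of_ne (not_lt.mp h) hne.symm
      simp [h, h']
  rw [Matrix.det_apply']
  symm
  have h2 : ∑ κ : Fin n → Fin n, w κ * ∏ i, A (κ i) i
      = ∑ κ ∈ Finset.univ.filter (fun κ : Fin n → Fin n => Function.Bijective κ),
        w κ * ∏ i, A (κ i) i := by
    rw [Finset.sum_filter]
    apply Finset.sum_congr rfl
    intro κ _
    split_ifs with h
    · rfl
    · rw [h0 κ h, zero_mul]
  rw [h2]
  refine Finset.sum_bij' (fun κ hκ => Equiv.ofBijective κ (Finset.mem_filter.mp hκ).2)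
    (fun σ _ => (σ : Fin n → Fin n)) ?_ ?_ ?_ ?_ ?_
  · intro κ _; exact Finset.mem_univ _
  · intro σ _; exact Finset.mem_filter.mpr ⟨Finset.mem_univ _, σ.bijective⟩
  · intro κ _; rfl
  · intro σ _; ext i; rfl
  · intro κ hκ
    rw [← h1]
    rfl

end Crest.Agent.R316.CH
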