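import Crest.Agent.R316.CH.Pred

/-!
# R316 / CH / Fun : functions with poly-size values computable in the counting hierarchy
-/

set_option autoImplicit false

namespace Crest.Agent.R316.CH

open Crest.Agent.Lib.PT

variable {α β γ : Type} [PTCode α] [PTCode β] [PTCode γ]

/-- `f` has polynomial bit length and its (lower) graph is in the counting hierarchy -/
def CHF (f : α → ℕ) : Prop :=
  PB (fun a => (f a).size) ∧ CHPred (fun p : α × ℕ => p.2 < f p.1)

theorem CHF.of_eq {f g : α → ℕ} (hf : CHF f) (h : ∀ a, f a = g a) : CHF g := by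
  have : f = g := funext h
  rwa [← this]

theorem CHF.pb {f : α → ℕ} (hf : CHF f) : PB (fun a => (f a).size) := hf.1

theorem CHF.of_ptf {f : α → ℕ} (hf : PTF f) : CHF f := by
  refine ⟨?_, CHPred.of_ptpred (PTPred.natLt PTF.snd (hf.comp PTF.fst))⟩
  have := hf.sz
  simpa only [sz_nat] using this

theorem CHF.const (n : ℕ) : CHF (fun _ : α => n) := CHF.of_ptf (PTF.const n)

/-- unary bound on the bit length -/
theorem CHF.exists_bound {f : α → ℕ} (hf : CHF f) : ∃ m : α → ℕ, PTU m ∧ ∀ a, f a < 2 ^ m a := by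
  obtain ⟨m, hm, h⟩ := hf.1.exists_ptu
  exact ⟨m, hm, fun a => Nat.size_le.1 (h a)⟩

theorem CHF.comp {f : β → ℕ} {g : α → β} (hf : CHF f) (hg : PTF g) : CHF (fun a => f (g a)) :=
  ⟨PB.comp (f := fun b => (f b).size) hf.1 hg,
    hf.2.comp (f := fun p : α × ℕ => (g p.1, p.2)) (PTF.prodMk (hg.comp PTF.fst) PTF.snd)⟩

/-- `k < f a` as a predicate, `k` poly-time -/
theorem CHF.gt_ptf {f k : α → ℕ} (hf : CHF f) (hk : PTF k) : CHPred (fun a => k a < f a) :=
  hf.2.comp (f := fun a => (a, k a)) (PTF.prodMk PTF.id hk)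

theorem CHF.eq_ptf {f k : α → ℕ} (hf : CHF f) (hk : PTF k) : CHPred (fun a => f a = k a) := by
  refine ((hf.gt_ptf hk).not.and ((CHPred.of_ptpred (PTPred.natEq hk (PTF.const 0))).or
    (hf.gt_ptf (PTF.natSub hk (PTF.const 1))))).of_iff fun a => ?_
  omega

/-- substitution of a `CHF` function into a predicate -/
theorem CHPred.subst {P : α × ℕ → Prop} (hP : CHPred P) {f : α → ℕ} (hf : CHF f) :
    CHPred (fun a => P (a, f a)) := by
  obtain ⟨m, hm, h⟩ := hf.exists_bound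
  have h1 : CHPred (fun p : α × ℕ => f p.1 = p.2 ∧ P (p.1, p.2)) :=
    ((hf.comp PTF.fst).eq_ptf PTF.snd).and hP
  refine (h1.exists_lt_two_pow hm).of_iff fun a => ?_
  constructor
  · rintro ⟨k, _, h2, h3⟩
    simp only at h2 h3
    rwa [h2]
  · intro h2
    exact ⟨f a, h a, rfl, h2⟩

/-- substitution, general form -/
theorem CHPred.subst' {P : β → Prop} (hP : CHPred P) {f : α → ℕ} (hf : CHF f) {g : α × ℕ → β}
    (hg : PTF g) : CHPred (fun a => P (g (a, f a))) :=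
  (hP.comp hg).subst hf

theorem CHPred.lt {f g : α → ℕ} (hf : CHF f) (hg : CHF g) : CHPred (fun a => f a < g a) :=
  CHPred.subst (P := fun p : α × ℕ => p.2 < g p.1) hg.2 hf

theorem CHPred.le {f g : α → ℕ} (hf : CHF f) (hg : CHF g) : CHPred (fun a => f a ≤ g a) :=
  (CHPred.lt hg hf).not.of_iff fun _ => not_lt

theorem CHPred.eq {f g : α → ℕ} (hf : CHF f) (hg : CHF g) : CHPred (fun a => f a = g a) :=
  ((CHPred.le hf hg).and (CHPred.le hg hf)).of_iff fun _ => le_antisymm_iff.symm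

theorem CHF.of_bound {f : α → ℕ} {m : α → ℕ} (hm : PB m) (h : ∀ a, f a < 2 ^ m a)
    (hf : CHPred (fun p : α × ℕ => p.2 < f p.1)) : CHF f :=
  ⟨hm.mono fun a => Nat.size_le.2 (h a), hf⟩

/-- composition in the last argument -/
theorem CHF.subst {g : α × ℕ → ℕ} (hg : CHF g) {f : α → ℕ} (hf : CHF f) :
    CHF (fun a => g (a, f a)) := by
  refine ⟨?_, ?_⟩
  · obtain ⟨p, hp⟩ := hg.1
    have h1 : PB (fun a : α => 2 * sz a + 1 + (f a).size) := by
      have := hf.1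
      fun_prop
    refine (PB.eval p h1).mono fun a => ?_
    have := hp (a, f a)
    rwa [sz_prod, sz_nat] at this
  · have h1 : CHPred (fun q : (α × ℕ) × ℕ => q.1.2 < g (q.1.1, q.2)) :=
      hg.2.comp (f := fun q : (α × ℕ) × ℕ => ((q.1.1, q.2), q.1.2)) (by fun_prop)
    exact h1.subst (hf.comp PTF.fst)

theorem CHF.subst' {h : β → ℕ} (hh : CHF h) {f : α → ℕ} (hf : CHF f) {g : α × ℕ → β}
    (hg : PTF g) : CHF (fun a => h (g (a, f a))) :=
  (hh.comp hg).subst hf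

theorem CHF.comp₂ {h : ℕ × ℕ → ℕ} (hh : PTF h) {f g : α → ℕ} (hf : CHF f) (hg : CHF g) :
    CHF (fun a => h (f a, g a)) := by
  have h1 : CHF (fun p : α × ℕ => h (f p.1, p.2)) :=
    ((CHF.of_ptf hh).comp (g := fun q : (α × ℕ) × ℕ => (q.2, q.1.2)) (by fun_prop)).subst
      (hf.comp PTF.fst)
  exact h1.subst hg

theorem CHF.comp₃ {h : ℕ × ℕ × ℕ → ℕ} (hh : PTF h) {f g k : α → ℕ} (hf : CHF f) (hg : CHF g)
    (hk : CHF k) : CHF (fun a => h (f a, g a, k a)) := by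
  have h1 : CHF (fun p : α × ℕ => h (f p.1, g p.1, p.2)) :=
    CHF.subst (g := fun r : (α × ℕ) × ℕ => h (f r.1.1, r.2, r.1.2))
      (CHF.subst (g := fun s : ((α × ℕ) × ℕ) × ℕ => h (s.2, s.1.2, s.1.1.2))
        ((CHF.of_ptf hh).comp (g := fun s : ((α × ℕ) × ℕ) × ℕ => (s.2, s.1.2, s.1.1.2))
          (by fun_prop)) (hf.comp (g := fun r : (α × ℕ) × ℕ => r.1.1) (by fun_prop)))
      (hg.comp PTF.fst)
  exact h1.subst hk

theorem CHF.add {f g : α → ℕ} (hf : CHF f) (hg : CHF g) : CHF (fun a => f a + g a) :=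
  CHF.comp₂ (h := fun p => p.1 + p.2) (by fun_prop) hf hg

theorem CHF.sub {f g : α → ℕ} (hf : CHF f) (hg : CHF g) : CHF (fun a => f a - g a) :=
  CHF.comp₂ (h := fun p => p.1 - p.2) (by fun_prop) hf hg

theorem CHF.mul {f g : α → ℕ} (hf : CHF f) (hg : CHF g) : CHF (fun a => f a * g a) :=
  CHF.comp₂ (h := fun p => p.1 * p.2) (by fun_prop) hf hg

theorem CHF.div {f g : α → ℕ} (hf : CHF f) (hg : CHF g) : CHF (fun a => f a / g a) :=
  CHF.comp₂ (h := fun p => p.1 / p.2) (by fun_prop) hf hg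

theorem CHF.mod {f g : α → ℕ} (hf : CHF f) (hg : CHF g) : CHF (fun a => f a % g a) :=
  CHF.comp₂ (h := fun p => p.1 % p.2) (by fun_prop) hf hg

theorem CHF.ite {c : α → Prop} [DecidablePred c] (hc : CHPred c) {f g : α → ℕ} (hf : CHF f)
    (hg : CHF g) : CHF (fun a => if c a then f a else g a) := by
  refine ⟨?_, ?_⟩
  · have : PB (fun a => (f a).size + (g a).size) := PB.add hf.1 hg.1
    refine this.mono fun a => ?_
    by_cases h : c a <;> simp [h]
  · refine (CHPred.ite (c := fun p : α × ℕ => c p.1) (hc.comp PTF.fst) hf.2 hg.2).of_iff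
      fun p => ?_
    by_cases h : c p.1 <;> simp [h]

theorem CHPred.exists_lt {P : α × ℕ → Prop} (hP : CHPred P) {b : α → ℕ} (hb : CHF b) :
    CHPred (fun a => ∃ k < b a, P (a, k)) := by
  obtain ⟨m, hm, h⟩ := hb.exists_bound
  refine ((hb.2.and hP).exists_lt_two_pow hm).of_iff fun a => ?_
  constructor
  · rintro ⟨k, _, h1, h2⟩; exact ⟨k, h1, h2⟩
  · rintro ⟨k, h1, h2⟩; exact ⟨k, h1.trans (h a), h1, h2⟩

theorem CHPred.forall_lt {P : α × ℕ → Prop} (hP : CHPred P) {b : α → ℕ} (hb : CHF b) :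
    CHPred (fun a => ∀ k < b a, P (a, k)) :=
  (hP.not.exists_lt hb).not.of_iff fun a => by push Not; rfl

/-- counting -/
theorem CHF.count {P : α × ℕ → Prop} (hP : CHPred P) {b : α → ℕ} (hb : CHF b) :
    CHF (fun a => {k | k < b a ∧ P (a, k)}.ncard) := by
  obtain ⟨m, hm, h⟩ := hb.exists_bound
  have hle : ∀ a, {k | k < b a ∧ P (a, k)}.ncard < 2 ^ m a := by
    intro a
    refine lt_of_le_of_lt ?_ (h a)
    have h1 : {k | k < b a ∧ P (a, k)} ⊆ (Finset.range (b a) : Set ℕ) := by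
      intro k hk; simpa using hk.1
    have := Set.ncard_le_ncard h1 (Finset.finite_toSet _)
    rwa [Set.ncard_coe_finset, Finset.card_range] at this
  refine CHF.of_bound hm.pb hle ?_
  have h1 : CHPred (fun q : (α × ℕ) × ℕ => q.2 < b q.1.1 ∧ P (q.1.1, q.2)) :=
    (hb.2.and hP).comp (f := fun q : (α × ℕ) × ℕ => (q.1.1, q.2)) (by fun_prop)
  refine (h1.count_gt (hm.comp PTF.fst) PTF.snd).of_iff fun p => ?_
  have : {k | k < 2 ^ m p.1 ∧ k < b p.1 ∧ P (p.1, k)} = {k | k < b p.1 ∧ P (p.1, k)} := by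
    ext k
    simp only [Set.mem_ofPred_eq]
    constructor
    · exact fun h => h.2
    · exact fun h' => ⟨h'.1.trans (h _), h'⟩
  simp only [this]

/-- exponentially long sums -/
theorem CHF.sum {f : α × ℕ → ℕ} (hf : CHF f) {b : α → ℕ} (hb : CHF b) :
    CHF (fun a => ∑ k ∈ Finset.range (b a), f (a, k)) := by
  obtain ⟨m, hm, hm'⟩ := hb.exists_bound
  -- a uniform bound for `f (a, k)`, `k < b a`
  obtain ⟨l, hl, hl'⟩ : ∃ l : α → ℕ, PTU l ∧ ∀ a, ∀ k < b a, f (a, k) < 2 ^ l a := by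
    obtain ⟨p, hp⟩ := hf.1
    refine ⟨fun a => p.eval (2 * sz a + 1 + m a), PTU.eval p ?_, fun a k hk => ?_⟩
    · exact PTU.add (PTU.add (PTU.mul (PTU.const 2) PTU.sz) (PTU.const 1)) hm
    · refine Nat.size_le.1 ((hp (a, k)).trans (eval_mono p ?_))
      rw [sz_prod, sz_nat]
      have : k.size ≤ m a := Nat.size_le.2 (hk.trans (hm' a))
      simp only
      omega
  have hcount := CHF.count (P := fun q : α × ℕ => q.2 / 2 ^ l q.1 < b q.1 ∧
      q.2 % 2 ^ l q.1 < f (q.1, q.2 / 2 ^ l q.1)) (b := fun a => 2 ^ (m a + l a)) ?_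
      (CHF.of_ptf (PTF.natTwoPow (PTU.add hm hl)))
  · refine hcount.of_eq fun a => ?_
    have e1 : ∑ k ∈ Finset.range (b a), f (a, k) =
        ((Finset.range (b a)).sigma (fun k => Finset.range (f (a, k)))).card := by
      rw [Finset.card_sigma]; simp
    rw [e1, ← Set.ncard_coe_finset]
    refine Set.ncard_congr (fun u _ => (⟨u / 2 ^ l a, u % 2 ^ l a⟩ : (_ : ℕ) × ℕ)) ?_ ?_ ?_
    · rintro u ⟨_, h2, h3⟩
      simpa using ⟨h2, h3⟩
    · rintro u v ⟨_, h2, h3⟩ ⟨_, h2', h3'⟩ h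
      simp only [Sigma.mk.injEq, heq_eq_eq] at h
      rw [← Nat.div_add_mod u (2 ^ l a), ← Nat.div_add_mod v (2 ^ l a), h.1, h.2]
    · rintro ⟨k, j⟩ h
      simp only [Finset.coe_sigma, Set.mem_sigma_iff, Finset.coe_range, Set.mem_Iio] at h
      have hj : j < 2 ^ l a := h.2.trans (hl' a k h.1)
      have hd : (k * 2 ^ l a + j) / 2 ^ l a = k := by
        rw [mul_comm, Nat.mul_add_div (Nat.two_pow_pos _), Nat.div_eq_of_lt hj, add_zero]
      have hmod : (k * 2 ^ l a + j) % 2 ^ l a = j := by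
        rw [mul_comm, Nat.mul_add_mod, Nat.mod_eq_of_lt hj]
      refine ⟨k * 2 ^ l a + j, ⟨?_, ?_⟩, ?_⟩
      · have h1 : k < 2 ^ m a := h.1.trans (hm' a)
        rw [pow_add]
        calc k * 2 ^ l a + j < k * 2 ^ l a + 2 ^ l a := by omega
          _ = (k + 1) * 2 ^ l a := by ring
          _ ≤ 2 ^ m a * 2 ^ l a := Nat.mul_le_mul_right _ h1
      · simp only [hd, hmod]; exact h
      · simp only [hd, hmod]
  · have hq : PTF (fun q : α × ℕ => q.2 / 2 ^ l q.1) :=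
      PTF.natDiv PTF.snd (PTF.natTwoPow (hl.comp PTF.fst))
    have hr : PTF (fun q : α × ℕ => q.2 % 2 ^ l q.1) :=
      PTF.natMod PTF.snd (PTF.natTwoPow (hl.comp PTF.fst))
    exact ((hb.comp PTF.fst).gt_ptf hq).and ((hf.comp (g := fun q : α × ℕ =>
      (q.1, q.2 / 2 ^ l q.1)) (PTF.prodMk PTF.fst hq)).gt_ptf hr)

/-! ### bounded search -/

/-- least `k < b` with `P k`, or `b` -/
noncomputable def least (b : ℕ) (P : ℕ → Prop) : ℕ := sInf {j | P j ∨ j = b}

theorem least_mem (b : ℕ) (P : ℕ → Prop) : P (least b P) ∨ least b P = b :=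
  Nat.sInf_mem (s := {j | P j ∨ j = b}) ⟨b, Or.inr rfl⟩

theorem least_le (b : ℕ) (P : ℕ → Prop) : least b P ≤ b :=
  Nat.sInf_le (s := {j | P j ∨ j = b}) (Or.inr rfl)

theorem least_le_of {b : ℕ} {P : ℕ → Prop} {k : ℕ} (h : P k) : least b P ≤ k :=
  Nat.sInf_le (s := {j | P j ∨ j = b}) (Or.inl h)

theorem least_spec {b : ℕ} {P : ℕ → Prop} (h : ∃ k, k < b ∧ P k) : least b P < b ∧ P (least b P) := by
  obtain ⟨k, hk, hP⟩ := h
  have h1 := least_le_of (b := b) hP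
  rcases least_mem b P with h2 | h2
  · exact ⟨by omega, h2⟩
  · omega

theorem lt_least_iff {b : ℕ} {P : ℕ → Prop} {k : ℕ} :
    k < least b P ↔ k < b ∧ ∀ j < k + 1, ¬ P j := by
  constructor
  · intro h
    exact ⟨h.trans_le (least_le b P), fun j hj hP => by
      have := least_le_of (b := b) hP
      omega⟩
  · rintro ⟨h1, h2⟩
    rcases least_mem b P with h3 | h3
    · by_contra h4
      exact h2 _ (by omega) h3
    · omega

theorem CHF.least {P : α × ℕ → Prop} (hP : CHPred P) {b : α → ℕ} (hb : CHF b) :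
    CHF (fun a => least (b a) (fun k => P (a, k))) := by
  obtain ⟨m, hm, h⟩ := hb.exists_bound
  refine CHF.of_bound hm.pb (fun a => (least_le _ _).trans_lt (h a)) ?_
  have h1 : CHPred (fun p : α × ℕ => ∀ j < p.2 + 1, ¬ P (p.1, j)) :=
    CHPred.forall_lt (P := fun q : (α × ℕ) × ℕ => ¬ P (q.1.1, q.2))
      (hP.not.comp (f := fun q : (α × ℕ) × ℕ => (q.1.1, q.2)) (by fun_prop))
      (CHF.of_ptf (by fun_prop))
  exact (hb.2.and h1).of_iff fun p => lt_least_iff.symm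

/-! ### iteration -/

/-- the `i`-th digit of `u` in base `2 ^ m` -/
def dig (m u i : ℕ) : ℕ := (u >>> (m * i)) % 2 ^ m

theorem dig_eq (m u i : ℕ) : dig m u i = u / 2 ^ (m * i) % 2 ^ m := by
  rw [dig, Nat.shiftRight_eq_div_pow]

theorem exists_digits (m : ℕ) (d : ℕ → ℕ) (n : ℕ) (hd : ∀ i ≤ n, d i < 2 ^ m) :
    ∃ u < 2 ^ (m * (n + 1)), ∀ i ≤ n, dig m u i = d i := by
  induction n with
  | zero =>
    refine ⟨d 0, by simpa using hd 0 le_rfl, fun i hi => ?_⟩
    obtain rfl : i = 0 := by omega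
    rw [dig_eq]
    simp [Nat.mod_eq_of_lt (hd 0 le_rfl)]
  | succ n ih =>
    obtain ⟨u, hu, h⟩ := ih fun i hi => hd i (by omega)
    have hdn := hd (n + 1) le_rfl
    refine ⟨u + 2 ^ (m * (n + 1)) * d (n + 1), ?_, fun i hi => ?_⟩
    · rw [show m * (n + 1 + 1) = m * (n + 1) + m by ring, pow_add]
      calc u + 2 ^ (m * (n + 1)) * d (n + 1) < 2 ^ (m * (n + 1)) + 2 ^ (m * (n + 1)) * d (n + 1) := by
            omega
        _ = 2 ^ (m * (n + 1)) * (d (n + 1) + 1) := by ring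
        _ ≤ 2 ^ (m * (n + 1)) * 2 ^ m := Nat.mul_le_mul_left _ hdn
    · rw [dig_eq]
      rcases Nat.lt_or_ge n i with hi' | hi'
      · obtain rfl : i = n + 1 := by omega
        rw [Nat.add_mul_div_left _ _ (Nat.two_pow_pos _), Nat.div_eq_of_lt hu, zero_add,
          Nat.mod_eq_of_lt hdn]
      · rw [← h i hi', dig_eq]
        obtain ⟨c, hc⟩ := Nat.exists_eq_add_of_le hi'
        have : 2 ^ (m * (n + 1)) = 2 ^ (m * i) * (2 ^ m * 2 ^ (m * c)) := by
          rw [← pow_add, ← pow_add]; congr 1; rw [hc]; ring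
        rw [this, mul_assoc, Nat.add_mul_div_left _ _ (Nat.two_pow_pos _), mul_assoc,
          Nat.add_mul_mod_self_left]

theorem ptf_dig {m u i : α → ℕ} (hm : PTU m) (hu : PTF u) (hi : PTF i) :
    PTF (fun a => dig (m a) (u a) (i a)) :=
  PTF.natMod (PTF.natShiftRight hu (PTF.natMul hm.toPTF hi)) (PTF.natTwoPow hm)

/-- polynomially many iterations -/
theorem CHF.iterate {f : α × ℕ → ℕ} (hf : CHF f) {s : α → ℕ} (hs : CHF s) {n : α → ℕ}
    (hn : PTU n) {m : α → ℕ} (hm : PTU m)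
    (hb : ∀ a, ∀ i ≤ n a, (fun k => f (a, k))^[i] (s a) < 2 ^ m a) :
    CHF (fun a => (fun k => f (a, k))^[n a] (s a)) := by
  refine CHF.of_bound hm.pb (fun a => hb a _ le_rfl) ?_
  -- `(a, u)` : `u` is a valid trace
  have hdig : ∀ {β : Type} [PTCode β] {c : β → α} {u i : β → ℕ}, PTF c → PTF u → PTF i →
      PTF (fun b => dig (m (c b)) (u b) (i b)) := fun hc hu hi => ptf_dig (hm.comp hc) hu hi
  have h0 : CHPred (fun p : α × ℕ => dig (m p.1) p.2 0 = s p.1) :=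
    ((hs.comp PTF.fst).eq_ptf (hdig PTF.fst PTF.snd (PTF.const 0))).of_iff fun _ => eq_comm
  have h1 : CHPred (fun p : α × ℕ => ∀ i < n p.1,
      dig (m p.1) p.2 (i + 1) = f (p.1, dig (m p.1) p.2 i)) := by
    refine CHPred.forall_lt (P := fun q : (α × ℕ) × ℕ =>
      dig (m q.1.1) q.1.2 (q.2 + 1) = f (q.1.1, dig (m q.1.1) q.1.2 q.2)) ?_
      (CHF.of_ptf (hn.toPTF.comp PTF.fst))
    have hq : PTF (fun q : (α × ℕ) × ℕ => (q.1.1, dig (m q.1.1) q.1.2 q.2)) :=
      PTF.prodMk (by fun_prop) (hdig (by fun_prop) (by fun_prop) (by fun_prop))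
    exact ((hf.comp hq).eq_ptf (hdig (by fun_prop) (by fun_prop) (by fun_prop))).of_iff
      fun _ => eq_comm
  have h2 : CHPred (fun p : (α × ℕ) × ℕ => (dig (m p.1.1) p.2 0 = s p.1.1 ∧ ∀ i < n p.1.1,
      dig (m p.1.1) p.2 (i + 1) = f (p.1.1, dig (m p.1.1) p.2 i)) ∧
        p.1.2 < dig (m p.1.1) p.2 (n p.1.1)) := by
    refine ((h0.and h1).comp (f := fun p : (α × ℕ) × ℕ => (p.1.1, p.2)) (by fun_prop)).and
      (CHPred.of_ptpred (PTPred.natLt (by fun_prop) (hdig (by fun_prop) (by fun_prop) ?_)))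
    exact hn.toPTF.comp (by fun_prop)
  refine (h2.exists_lt_two_pow (m := fun p : α × ℕ => m p.1 * (n p.1 + 1))
    ((hm.mul (hn.add (PTU.const 1))).comp PTF.fst)).of_iff fun p => ?_
  have huniq : ∀ u, (dig (m p.1) u 0 = s p.1 ∧ ∀ i < n p.1,
      dig (m p.1) u (i + 1) = f (p.1, dig (m p.1) u i)) → ∀ i ≤ n p.1,
      dig (m p.1) u i = (fun k => f (p.1, k))^[i] (s p.1) := by
    rintro u ⟨h3, h4⟩ i
    induction i with
    | zero => intro _; exact h3
    | succ i ih =>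
      intro hi
      rw [h4 i (by omega), ih (by omega), Function.iterate_succ_apply']
  constructor
  · rintro ⟨u, _, h3, h4⟩
    simp only at h3 h4
    rwa [huniq u h3 _ le_rfl] at h4
  · intro h3
    obtain ⟨u, hu, h4⟩ := exists_digits (m p.1) (fun i => (fun k => f (p.1, k))^[i] (s p.1)) (n p.1)
      (hb p.1)
    refine ⟨u, hu, ⟨by simpa using h4 0 (Nat.zero_le _), fun i hi => ?_⟩, ?_⟩
    · simp only at hi ⊢
      rw [h4 (i + 1) (by omega), h4 i (by omega), Function.iterate_succ_apply']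
    · simp only
      rw [h4 _ le_rfl]
      exact h3

/-! ### products modulo a prime -/

theorem chpred_prime {q : α → ℕ} (hq : CHF q) : CHPred (fun a => (q a).Prime) := by
  have h1 : CHPred (fun n : ℕ => 2 ≤ n ∧ ∀ d < n, 2 ≤ d → ¬ d ∣ n) := by
    refine (CHPred.of_ptpred (PTPred.natLe (by fun_prop) (by fun_prop))).and
      (CHPred.forall_lt (P := fun p : ℕ × ℕ => 2 ≤ p.2 → ¬ p.2 ∣ p.1) ?_ (CHF.of_ptf PTF.id))
    exact (CHPred.of_ptpred (PTPred.natLe (by fun_prop) (by fun_prop))).imp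
      (CHPred.of_ptpred (PTPred.natDvd (by fun_prop) (by fun_prop))).not
  refine (h1.subst' hq (g := fun p : α × ℕ => p.2) (by fun_prop)).of_iff fun a => ?_
  simp only
  rw [Nat.prime_def_lt']
  constructor
  · rintro ⟨h1, h2⟩; exact ⟨h1, fun m hm hlt => h2 m hlt hm⟩
  · rintro ⟨h1, h2⟩; exact ⟨h1, fun m hm hlt => h2 m hlt hm⟩

/-- modular powers, total -/
def pmod (x e q : ℕ) : ℕ := if q = 0 then 0 else x ^ e % q

theorem pmod_eq {x e q : ℕ} (hq : 0 < q) : pmod x e q = x ^ e % q := by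
  rw [pmod, if_neg hq.ne']

theorem ptf_pmod {x e q : α → ℕ} (hx : PTF x) (he : PTF e) (hq : PTF q) :
    PTF (fun a => pmod (x a) (e a) (q a)) := PTF.natPowMod' hx he hq

theorem CHF.pmod {x e q : α → ℕ} (hx : CHF x) (he : CHF e) (hq : CHF q) :
    CHF (fun a => pmod (x a) (e a) (q a)) :=
  CHF.comp₃ (h := fun p : ℕ × ℕ × ℕ => R316.CH.pmod p.1 p.2.1 p.2.2)
    (ptf_pmod (by fun_prop) (by fun_prop) (by fun_prop)) hx he hq

/-- `g` generates the multiplicative group modulo `q` -/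
def IsGen (q g : ℕ) : Prop := ∀ x < q, x ≠ 0 → ∃ e < q, pmod g e q = x

theorem exists_isGen {q : ℕ} (hq : q.Prime) : ∃ g < q, IsGen q g := by
  have := Fact.mk hq
  obtain ⟨g, hg⟩ := IsCyclic.exists_generator (α := (ZMod q)ˣ)
  refine ⟨(g : ZMod q).val, ZMod.val_lt _, fun x hx hx0 => ?_⟩
  have hxu : ((x : ℕ) : ZMod q) ≠ 0 := by
    intro h
    rw [ZMod.natCast_eq_zero_iff] at h
    exact hx0 (Nat.eq_zero_of_dvd_of_lt h hx)
  obtain ⟨n, hn⟩ := (mem_powers_iff_mem_zpowers (G := (ZMod q)ˣ)).2 (hg (Units.mk0 _ hxu))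
  have ho : orderOf g < q := by
    have h1 : orderOf g ≤ Fintype.card (ZMod q)ˣ := orderOf_le_card_univ
    have h2 : Fintype.card (ZMod q)ˣ = q - 1 := ZMod.card_units q
    have := hq.pos
    omega
  refine ⟨n % orderOf g, (Nat.mod_lt _ (orderOf_pos g)).trans ho, ?_⟩
  rw [pmod_eq hq.pos]
  have h1 : g ^ (n % orderOf g) = Units.mk0 _ hxu := by
    rw [pow_mod_orderOf]; exact hn
  have h2 := congrArg (Units.val) h1
  rw [Units.val_pow_eq_pow_val, Units.val_mk0] at h2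
  have h3 := congrArg ZMod.val h2
  rw [ZMod.val_natCast, Nat.mod_eq_of_lt hx] at h3
  rw [← h3]
  rw [← ZMod.val_natCast]
  congr 1
  push_cast
  rw [ZMod.natCast_zmod_val]

theorem chpred_isGen : CHPred (fun p : ℕ × ℕ => IsGen p.1 p.2) := by
  unfold IsGen
  refine CHPred.forall_lt (P := fun r : (ℕ × ℕ) × ℕ => r.2 ≠ 0 →
    ∃ e < r.1.1, R316.CH.pmod r.1.2 e r.1.1 = r.2) ?_ (CHF.of_ptf (by fun_prop))
  refine (CHPred.of_ptpred (PTPred.natEq (by fun_prop) (by fun_prop))).not.imp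
    (CHPred.exists_lt (P := fun s : ((ℕ × ℕ) × ℕ) × ℕ =>
      R316.CH.pmod s.1.1.2 s.2 s.1.1.1 = s.1.2) ?_ (CHF.of_ptf (by fun_prop)))
  exact CHPred.of_ptpred (PTPred.natEq (ptf_pmod (by fun_prop) (by fun_prop) (by fun_prop))
    (by fun_prop))

/-- a generator modulo `q` (if `q` is prime) -/
noncomputable def gen (q : ℕ) : ℕ := least q (IsGen q)

theorem gen_spec {q : ℕ} (hq : q.Prime) : gen q < q ∧ IsGen q (gen q) :=
  least_spec (exists_isGen hq)

theorem chf_gen {q : α → ℕ} (hq : CHF q) : CHF (fun a => gen (q a)) :=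
  CHF.subst' (h := gen) (CHF.least (P := fun p : ℕ × ℕ => IsGen p.1 p.2) chpred_isGen
    (CHF.of_ptf PTF.id)) hq (g := fun p => p.2) PTF.snd

/-- discrete logarithm -/
noncomputable def dlog (q x : ℕ) : ℕ := least q (fun e => pmod (gen q) e q = x)

theorem dlog_spec {q : ℕ} (hq : q.Prime) {x : ℕ} (hx : x < q) (hx0 : x ≠ 0) :
    gen q ^ dlog q x % q = x := by
  have h := least_spec (b := q) (P := fun e => pmod (gen q) e q = x) ((gen_spec hq).2 x hx hx0)
  have h2 := h.2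
  rwa [pmod_eq hq.pos] at h2

theorem chf_dlog {q x : α → ℕ} (hq : CHF q) (hx : CHF x) : CHF (fun a => dlog (q a) (x a)) := by
  have h1 : CHF (fun p : ℕ × ℕ => dlog p.1 p.2) := by
    unfold dlog
    refine CHF.least (P := fun r : (ℕ × ℕ) × ℕ => R316.CH.pmod (gen r.1.1) r.2 r.1.1 = r.1.2) ?_
      (CHF.of_ptf (by fun_prop))
    exact CHPred.eq (CHF.pmod (chf_gen (CHF.of_ptf (by fun_prop))) (CHF.of_ptf (by fun_prop))
      (CHF.of_ptf (by fun_prop))) (CHF.of_ptf (by fun_prop))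
  have h2 : CHF (fun p : α × ℕ => dlog p.2 (x p.1)) :=
    CHF.subst (g := fun r : (α × ℕ) × ℕ => dlog r.1.2 r.2)
      (h1.comp (g := fun r : (α × ℕ) × ℕ => (r.1.2, r.2)) (by fun_prop)) (hx.comp PTF.fst)
  exact h2.subst hq

theorem prod_mod_eq {q : ℕ} (hq : q.Prime) (b : ℕ) (f : ℕ → ℕ) :
    (∏ k ∈ Finset.range b, f k) % q = if ∃ k < b, f k % q = 0 then 0 else
      pmod (gen q) (∑ k ∈ Finset.range b, dlog q (f k % q)) q := by
  split_ifs with h
  · obtain ⟨k, hk, h⟩ := h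
    refine Nat.mod_eq_zero_of_dvd ?_
    exact (Nat.dvd_of_mod_eq_zero h).trans (Finset.dvd_prod_of_mem f (Finset.mem_range.2 hk))
  · rw [pmod_eq hq.pos, ← Finset.prod_pow_eq_pow_sum, Finset.prod_nat_mod]
    conv_rhs => rw [Finset.prod_nat_mod]
    congr 1
    refine Finset.prod_congr rfl fun k hk => ?_
    rw [dlog_spec hq (Nat.mod_lt _ hq.pos) (fun h' => h ⟨k, Finset.mem_range.1 hk, h'⟩)]

/-- exponentially long products modulo a prime -/
theorem CHF.prodMod {f : α × ℕ → ℕ} (hf : CHF f) {b q : α → ℕ} (hb : CHF b) (hq : CHF q) :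
    CHF (fun a => if (q a).Prime then (∏ k ∈ Finset.range (b a), f (a, k)) % q a else 0) := by
  classical
  have hmod : CHF (fun p : α × ℕ => f p % q p.1) := hf.mod (hq.comp PTF.fst)
  have h1 : CHF (fun a => ∑ k ∈ Finset.range (b a), dlog (q a) (f (a, k) % q a)) :=
    CHF.sum (f := fun p : α × ℕ => dlog (q p.1) (f p % q p.1)) (chf_dlog (hq.comp PTF.fst) hmod) hb
  have h2 : CHPred (fun a => ∃ k < b a, f (a, k) % q a = 0) :=
    CHPred.exists_lt (P := fun p : α × ℕ => f p % q p.1 = 0) (CHPred.eq hmod (CHF.const 0)) hb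
  refine (CHF.ite (chpred_prime hq) (CHF.ite h2 (CHF.const 0) (CHF.pmod (chf_gen hq) h1 hq))
    (CHF.const 0)).of_eq fun a => ?_
  by_cases hp : (q a).Prime
  · rw [if_pos hp, if_pos hp, prod_mod_eq hp]
  · rw [if_neg hp, if_neg hp]

end Crest.Agent.R316.CH
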