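import Crest.Agent.R316.CH.Fun

/-!
# R316 / CH / Mod : integers known modulo all large primes

Context types `β` carry a "unary size" `u : β → ℕ`. `CHMod u W` says that the residue of the
integer `W b` modulo every prime `q > 2 ^ p (u b)` is computable in the counting hierarchy from
`(b, q)`. NOTE: the threshold depends on `u b` only; the evaluation points (which have residues
modulo `q` as entries) must not contribute to `u`.
-/

set_option autoImplicit false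

namespace Crest.Agent.R316.CH

open Crest.Agent.Lib.PT

section classes
variable {β γ : Type}

/-- `f ≤ poly (u)` -/
def PolyLe (u f : β → ℕ) : Prop := ∃ p : Polynomial ℕ, ∀ b, f b ≤ p.eval (u b)

/-- `f ≤ 2 ^ poly (u)` -/
def ExpLe (u f : β → ℕ) : Prop := ∃ p : Polynomial ℕ, ∀ b, f b ≤ 2 ^ p.eval (u b)

/-- `|W| ≤ 2 ^ 2 ^ poly (u)` -/
def DExpLe (u : β → ℕ) (W : β → ℤ) : Prop := ∃ p : Polynomial ℕ, ∀ b, |W b| ≤ 2 ^ 2 ^ p.eval (u b)

theorem PolyLe.expLe {u f : β → ℕ} (h : PolyLe u f) : ExpLe u f := by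
  obtain ⟨p, hp⟩ := h
  exact ⟨p, fun b => (hp b).trans Nat.lt_two_pow_self.le⟩

theorem PolyLe.comp {u f : β → ℕ} (h : PolyLe u f) (g : γ → β) :
    PolyLe (fun c => u (g c)) (fun c => f (g c)) := ⟨h.choose, fun c => h.choose_spec (g c)⟩

theorem ExpLe.comp {u f : β → ℕ} (h : ExpLe u f) (g : γ → β) :
    ExpLe (fun c => u (g c)) (fun c => f (g c)) := ⟨h.choose, fun c => h.choose_spec (g c)⟩

theorem DExpLe.comp {u : β → ℕ} {f : β → ℤ} (h : DExpLe u f) (g : γ → β) :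
    DExpLe (fun c => u (g c)) (fun c => f (g c)) := ⟨h.choose, fun c => h.choose_spec (g c)⟩

theorem ExpLe.mono {u f g : β → ℕ} (h : ExpLe u f) (hg : ∀ b, g b ≤ f b) : ExpLe u g :=
  ⟨h.choose, fun b => (hg b).trans (h.choose_spec b)⟩

theorem PolyLe.mono {u f g : β → ℕ} (h : PolyLe u f) (hg : ∀ b, g b ≤ f b) : PolyLe u g :=
  ⟨h.choose, fun b => (hg b).trans (h.choose_spec b)⟩

theorem PolyLe.self {u : β → ℕ} : PolyLe u u := ⟨Polynomial.X, fun b => by simp⟩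

theorem PolyLe.const {u : β → ℕ} (c : ℕ) : PolyLe u (fun _ => c) :=
  ⟨Polynomial.C c, fun b => by simp⟩

theorem ExpLe.const {u : β → ℕ} (c : ℕ) : ExpLe u (fun _ => c) := (PolyLe.const c).expLe

theorem PolyLe.add {u f g : β → ℕ} (hf : PolyLe u f) (hg : PolyLe u g) :
    PolyLe u (fun b => f b + g b) := by
  obtain ⟨p, hp⟩ := hf
  obtain ⟨r, hr⟩ := hg
  exact ⟨p + r, fun b => by rw [Polynomial.eval_add]; exact Nat.add_le_add (hp b) (hr b)⟩

theorem PolyLe.mul {u f g : β → ℕ} (hf : PolyLe u f) (hg : PolyLe u g) :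
    PolyLe u (fun b => f b * g b) := by
  obtain ⟨p, hp⟩ := hf
  obtain ⟨r, hr⟩ := hg
  exact ⟨p * r, fun b => by rw [Polynomial.eval_mul]; exact Nat.mul_le_mul (hp b) (hr b)⟩

theorem ExpLe.two_pow {u f : β → ℕ} (hf : PolyLe u f) : ExpLe u (fun b => 2 ^ f b) := by
  obtain ⟨p, hp⟩ := hf
  exact ⟨p, fun b => Nat.pow_le_pow_right (by norm_num) (hp b)⟩

theorem ExpLe.add {u f g : β → ℕ} (hf : ExpLe u f) (hg : ExpLe u g) :
    ExpLe u (fun b => f b + g b) := by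
  obtain ⟨p, hp⟩ := hf
  obtain ⟨r, hr⟩ := hg
  refine ⟨p + r + 1, fun b => ?_⟩
  simp only [Polynomial.eval_add, Polynomial.eval_one]
  have h1 : 2 ^ p.eval (u b) ≤ 2 ^ (p.eval (u b) + r.eval (u b)) :=
    Nat.pow_le_pow_right (by norm_num) (Nat.le_add_right _ _)
  have h2 : 2 ^ r.eval (u b) ≤ 2 ^ (p.eval (u b) + r.eval (u b)) :=
    Nat.pow_le_pow_right (by norm_num) (Nat.le_add_left _ _)
  rw [pow_succ]
  have := hp b
  have := hr b
  omega

theorem ExpLe.mul {u f g : β → ℕ} (hf : ExpLe u f) (hg : ExpLe u g) :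
    ExpLe u (fun b => f b * g b) := by
  obtain ⟨p, hp⟩ := hf
  obtain ⟨r, hr⟩ := hg
  refine ⟨p + r, fun b => ?_⟩
  simp only [Polynomial.eval_add, pow_add]
  exact Nat.mul_le_mul (hp b) (hr b)

/-- exponential base, polynomial exponent -/
theorem ExpLe.pow {u f g : β → ℕ} (hf : ExpLe u f) (hg : PolyLe u g) :
    ExpLe u (fun b => f b ^ g b) := by
  obtain ⟨p, hp⟩ := hf
  obtain ⟨r, hr⟩ := hg
  refine ⟨p * r, fun b => ?_⟩
  simp only [Polynomial.eval_mul, pow_mul]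
  exact (Nat.pow_le_pow_left (hp b) _).trans
    (Nat.pow_le_pow_right (Nat.two_pow_pos _) (hr b))

theorem ExpLe.max {u f g : β → ℕ} (hf : ExpLe u f) (hg : ExpLe u g) :
    ExpLe u (fun b => max (f b) (g b)) :=
  (hf.add hg).mono fun b => by omega

/-- sum of `m` terms -/
theorem ExpLe.sum {u : β → ℕ} {f : β × ℕ → ℕ} (hf : ExpLe (fun x : β × ℕ => u x.1) f) {m : β → ℕ}
    (hm : ExpLe u m) : ExpLe u (fun b => ∑ k ∈ Finset.range (m b), f (b, k)) := by
  obtain ⟨p, hp⟩ := hf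
  obtain ⟨r, hr⟩ := hm
  refine ⟨r + p, fun b => ?_⟩
  simp only [Polynomial.eval_add, pow_add]
  calc ∑ k ∈ Finset.range (m b), f (b, k) ≤ ∑ _k ∈ Finset.range (m b), 2 ^ p.eval (u b) :=
        Finset.sum_le_sum fun k _ => hp (b, k)
    _ = m b * 2 ^ p.eval (u b) := by simp
    _ ≤ 2 ^ r.eval (u b) * 2 ^ p.eval (u b) := Nat.mul_le_mul_right _ (hr b)

end classes

variable {α β γ : Type} [PTCode α] [PTCode β] [PTCode γ]

/-- the residues of `W b` modulo all primes `q > 2 ^ poly (u b)` are computable in the counting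
hierarchy -/
def CHMod (u : β → ℕ) (W : β → ℤ) : Prop :=
  ∃ (p : Polynomial ℕ) (F : β × ℕ → ℕ), CHF F ∧
    ∀ b q, q.Prime → 2 ^ p.eval (u b) < q → ((F (b, q) : ℕ) : ZMod q) = (W b : ZMod q)

theorem CHMod.of_eq {u : β → ℕ} {W W' : β → ℤ} (hW : CHMod u W) (h : ∀ b, W b = W' b) :
    CHMod u W' := by
  have : W = W' := funext h
  rwa [← this]

/-- reduced form -/
theorem CHMod.reduced {u : β → ℕ} {W : β → ℤ} (hW : CHMod u W) :
    ∃ (p : Polynomial ℕ) (F : β × ℕ → ℕ), CHF F ∧ ∀ b q, q.Prime → 2 ^ p.eval (u b) < q →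
      F (b, q) < q ∧ ((F (b, q) : ℕ) : ZMod q) = (W b : ZMod q) := by
  obtain ⟨p, F, hF, h⟩ := hW
  refine ⟨p, fun x => F x % x.2, hF.mod (CHF.of_ptf PTF.snd), fun b q hq hp => ?_⟩
  refine ⟨Nat.mod_lt _ hq.pos, ?_⟩
  rw [← h b q hq hp]
  simp

theorem lt_of_eval_add_left {p r : Polynomial ℕ} {n q : ℕ} (h : 2 ^ (p + r).eval n < q) :
    2 ^ p.eval n < q := by
  refine lt_of_le_of_lt (Nat.pow_le_pow_right (by norm_num) ?_) h
  rw [Polynomial.eval_add]
  exact Nat.le_add_right _ _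

theorem lt_of_eval_add_right {p r : Polynomial ℕ} {n q : ℕ} (h : 2 ^ (p + r).eval n < q) :
    2 ^ r.eval n < q := by
  rw [add_comm] at h
  exact lt_of_eval_add_left h


/-- enlarging the threshold: any larger polynomial may be used -/
theorem CHMod.natCast {u : β → ℕ} {f : β → ℕ} (hf : CHF f) : CHMod u (fun b => (f b : ℤ)) :=
  ⟨0, fun x => f x.1, hf.comp PTF.fst, fun b q _ _ => by simp⟩

theorem CHMod.neg {u : β → ℕ} {W : β → ℤ} (hW : CHMod u W) : CHMod u (fun b => -W b) := by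
  obtain ⟨p, F, hF, h⟩ := hW.reduced
  refine ⟨p, fun x => x.2 - F x, (CHF.of_ptf PTF.snd).sub hF, fun b q hq hp => ?_⟩
  obtain ⟨h1, h2⟩ := h b q hq hp
  simp only
  rw [Nat.cast_sub h1.le, h2]
  simp

theorem CHMod.const {u : β → ℕ} (c : ℤ) : CHMod u (fun _ => c) := by
  obtain ⟨n, rfl | rfl⟩ := Int.eq_nat_or_neg c
  · exact CHMod.natCast (CHF.const n)
  · exact (CHMod.natCast (CHF.const n)).neg

theorem CHMod.add {u : β → ℕ} {W W' : β → ℤ} (hW : CHMod u W) (hW' : CHMod u W') :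
    CHMod u (fun b => W b + W' b) := by
  obtain ⟨p, F, hF, h⟩ := hW
  obtain ⟨p', F', hF', h'⟩ := hW'
  refine ⟨p + p', fun x => F x + F' x, hF.add hF', fun b q hq hp => ?_⟩
  push_cast
  rw [h b q hq (lt_of_eval_add_left hp), h' b q hq (lt_of_eval_add_right hp)]

theorem CHMod.sub {u : β → ℕ} {W W' : β → ℤ} (hW : CHMod u W) (hW' : CHMod u W') :
    CHMod u (fun b => W b - W' b) := by
  simpa only [sub_eq_add_neg] using hW.add hW'.neg

theorem CHMod.mul {u : β → ℕ} {W W' : β → ℤ} (hW : CHMod u W) (hW' : CHMod u W') :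
    CHMod u (fun b => W b * W' b) := by
  obtain ⟨p, F, hF, h⟩ := hW
  obtain ⟨p', F', hF', h'⟩ := hW'
  refine ⟨p + p', fun x => F x * F' x, hF.mul hF', fun b q hq hp => ?_⟩
  push_cast
  rw [h b q hq (lt_of_eval_add_left hp), h' b q hq (lt_of_eval_add_right hp)]

/-- powers with (binary) exponents -/
theorem CHMod.pow {u : β → ℕ} {W : β → ℤ} (hW : CHMod u W) {e : β → ℕ} (he : CHF e) :
    CHMod u (fun b => W b ^ e b) := by
  obtain ⟨p, F, hF, h⟩ := hW
  refine ⟨p, fun x => pmod (F x) (e x.1) x.2, CHF.pmod hF (he.comp PTF.fst) (CHF.of_ptf PTF.snd),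
    fun b q hq hp => ?_⟩
  simp only
  rw [pmod_eq hq.pos]
  push_cast [ZMod.natCast_mod]
  rw [h b q hq hp]

theorem CHMod.ite {u : β → ℕ} {P : β → Prop} [DecidablePred P] (hP : CHPred P) {W W' : β → ℤ}
    (hW : CHMod u W) (hW' : CHMod u W') : CHMod u (fun b => if P b then W b else W' b) := by
  obtain ⟨p, F, hF, h⟩ := hW
  obtain ⟨p', F', hF', h'⟩ := hW'
  refine ⟨p + p', fun x => if P x.1 then F x else F' x, CHF.ite (hP.comp PTF.fst) hF hF',
    fun b q hq hp => ?_⟩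
  simp only
  split_ifs
  · exact h b q hq (lt_of_eval_add_left hp)
  · exact h' b q hq (lt_of_eval_add_right hp)

theorem CHMod.comp {u : β → ℕ} {W : β → ℤ} (hW : CHMod u W) {g : γ → β} (hg : PTF g) :
    CHMod (fun c => u (g c)) (fun c => W (g c)) := by
  obtain ⟨p, F, hF, h⟩ := hW
  exact ⟨p, fun x => F (g x.1, x.2),
    hF.comp (g := fun x : γ × ℕ => (g x.1, x.2)) (PTF.prodMk (hg.comp PTF.fst) PTF.snd),
    fun c q hq hp => h (g c) q hq hp⟩

/-- enlarging `u` -/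
theorem CHMod.mono {u u' : β → ℕ} {W : β → ℤ} (hW : CHMod u W) (h : PolyLe u' u) :
    CHMod u' W := by
  obtain ⟨p, F, hF, hp⟩ := hW
  obtain ⟨r, hr⟩ := h
  refine ⟨p.comp r, F, hF, fun b q hq hlt => hp b q hq (lt_of_le_of_lt ?_ hlt)⟩
  rw [Polynomial.eval_comp]
  exact Nat.pow_le_pow_right (by norm_num) (Crest.Agent.Lib.PT.eval_mono p (hr b))

/-- substitution of a `CHF` number -/
theorem CHMod.subst {u : β → ℕ} {W : β × ℕ → ℤ} (hW : CHMod (fun x : β × ℕ => u x.1) W)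
    {f : β → ℕ} (hf : CHF f) : CHMod u (fun b => W (b, f b)) := by
  obtain ⟨p, F, hF, h⟩ := hW
  refine ⟨p, fun x => F ((x.1, f x.1), x.2), ?_, fun b q hq hp => h (b, f b) q hq hp⟩
  exact CHF.subst' (f := fun x : β × ℕ => f x.1) hF (hf.comp PTF.fst)
    (g := fun y : (β × ℕ) × ℕ => ((y.1.1, y.2), y.1.2)) (by fun_prop)

/-- exponentially long sums -/
theorem CHMod.sum {u : β → ℕ} {W : β × ℕ → ℤ} (hW : CHMod (fun x : β × ℕ => u x.1) W) {b : β → ℕ}
    (hb : CHF b) : CHMod u (fun x => ∑ k ∈ Finset.range (b x), W (x, k)) := by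
  obtain ⟨p, F, hF, h⟩ := hW
  refine ⟨p, fun y => ∑ k ∈ Finset.range (b y.1), F ((y.1, k), y.2), ?_, fun x q hq hp => ?_⟩
  · exact CHF.sum (f := fun z : (β × ℕ) × ℕ => F ((z.1.1, z.2), z.1.2))
      (hF.comp (g := fun z : (β × ℕ) × ℕ => ((z.1.1, z.2), z.1.2)) (by fun_prop))
      (hb.comp PTF.fst)
  · push_cast
    exact Finset.sum_congr rfl fun k _ => h (x, k) q hq hp

/-- exponentially long products -/
theorem CHMod.prod {u : β → ℕ} {W : β × ℕ → ℤ} (hW : CHMod (fun x : β × ℕ => u x.1) W) {b : β → ℕ}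
    (hb : CHF b) : CHMod u (fun x => ∏ k ∈ Finset.range (b x), W (x, k)) := by
  obtain ⟨p, F, hF, h⟩ := hW
  refine ⟨p, _, CHF.prodMod (f := fun z : (β × ℕ) × ℕ => F ((z.1.1, z.2), z.1.2))
      (hF.comp (g := fun z : (β × ℕ) × ℕ => ((z.1.1, z.2), z.1.2)) (by fun_prop))
      (hb.comp PTF.fst) (CHF.of_ptf PTF.snd), fun x q hq hp => ?_⟩
  simp only [hq, if_true]
  push_cast [ZMod.natCast_mod]
  exact Finset.prod_congr rfl fun k _ => h (x, k) q hq hp

/-- exact quotients by integers without large prime factors -/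
theorem CHMod.div {u : β → ℕ} {W N d : β → ℤ} (hN : CHMod u N) (hd : CHMod u d)
    (h : ∀ b, W b * d b = N b)
    (hc : ∃ p : Polynomial ℕ, ∀ b (q : ℕ), q.Prime → 2 ^ p.eval (u b) < q → ¬ (q : ℤ) ∣ d b) :
    CHMod u W := by
  obtain ⟨p, F, hF, hpF⟩ := hN
  obtain ⟨p', F', hF', hpF'⟩ := hd
  obtain ⟨p₀, hp₀⟩ := hc
  refine ⟨p + (p' + p₀), fun x => F x * pmod (F' x) (x.2 - 2) x.2,
    hF.mul (CHF.pmod hF' ((CHF.of_ptf PTF.snd).sub (CHF.const 2)) (CHF.of_ptf PTF.snd)),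
    fun b q hq hp => ?_⟩
  have : Fact q.Prime := ⟨hq⟩
  have h1 := hpF b q hq (lt_of_eval_add_left hp)
  have h2 := hpF' b q hq (lt_of_eval_add_left (lt_of_eval_add_right hp))
  have h3 := hp₀ b q hq (lt_of_eval_add_right (lt_of_eval_add_right hp))
  have h4 : (d b : ZMod q) ≠ 0 := fun h0 => h3 ((ZMod.intCast_zmod_eq_zero_iff_dvd _ _).1 h0)
  simp only
  rw [pmod_eq hq.pos]
  push_cast [ZMod.natCast_mod]
  rw [h1, h2, ← h b]
  push_cast
  have h5 : (d b : ZMod q) * (d b : ZMod q) ^ (q - 2) = 1 := by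
    rw [← pow_succ', show q - 2 + 1 = q - 1 by have := hq.two_le; omega]
    exact ZMod.pow_card_sub_one_eq_one h4
  rw [mul_assoc, h5, mul_one]

theorem CHMod.factorial {u : β → ℕ} {f : β → ℕ} (hf : CHF f) :
    CHMod u (fun b => ((f b).factorial : ℤ)) := by
  have h := CHMod.prod (u := u) (W := fun x : β × ℕ => ((x.2 + 1 : ℕ) : ℤ))
    (CHMod.natCast ((CHF.of_ptf PTF.snd).add (CHF.const 1))) hf
  refine h.of_eq fun b => ?_
  rw [← Finset.prod_range_add_one_eq_factorial]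
  push_cast
  rfl

/-- the general principle behind character sums: if the residue of `W b` is a `CHF` of `(b, q)` -/
theorem CHMod.intro {u : β → ℕ} {W : β → ℤ} (p : Polynomial ℕ) {F : β × ℕ → ℕ} (hF : CHF F)
    (h : ∀ b q, q.Prime → 2 ^ p.eval (u b) < q → ((F (b, q) : ℕ) : ZMod q) = (W b : ZMod q)) :
    CHMod u W := ⟨p, F, hF, h⟩

/-! ### finite sums over `Fin n` -/

theorem CHMod.sum_fin {u n : β → ℕ} (hn : CHF n) {W : ∀ b, Fin (n b) → ℤ}
    (hW : CHMod (fun x : β × ℕ => u x.1)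
      (fun x => if h : x.2 < n x.1 then W x.1 ⟨x.2, h⟩ else 0)) :
    CHMod u (fun b => ∑ i, W b i) := by
  refine (hW.sum hn).of_eq fun b => ?_
  rw [← Fin.sum_univ_eq_sum_range (fun k => if h : k < n b then W b ⟨k, h⟩ else 0)]
  exact Finset.sum_congr rfl fun i _ => by simp

theorem CHMod.prod_fin {u n : β → ℕ} (hn : CHF n) {W : ∀ b, Fin (n b) → ℤ}
    (hW : CHMod (fun x : β × ℕ => u x.1)
      (fun x => if h : x.2 < n x.1 then W x.1 ⟨x.2, h⟩ else 0)) :
    CHMod u (fun b => ∏ i, W b i) := by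
  refine (hW.prod hn).of_eq fun b => ?_
  rw [← Fin.prod_univ_eq_prod_range (fun k => if h : k < n b then W b ⟨k, h⟩ else 0)]
  exact Finset.prod_congr rfl fun i _ => by simp

end Crest.Agent.R316.CH
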