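import Crest.Agent.R316.CH.PolyK

/-!
# R316 / CH / PolyCoeff : coefficients of CH-evaluable polynomials (task K1)
-/

set_option autoImplicit false

namespace Crest.Agent.R316.CH

open Crest.Agent.Lib.PT MvPolynomial

variable {α β γ : Type} [PTCode α] [PTCode β] [PTCode γ]

/-- multivariate coefficient extraction; `E (b, i)` is the exponent of the `i`-th variable.
Use `coeff_eq_sum_zmod` and `CHF.sum_pi` in the context `β × ℕ ∋ (b, q)`. -/
theorem CHPoly.coeff {u n : β → ℕ} (hn : PTU n) {P : ∀ b, MvPolynomial (Fin (n b)) ℤ}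
    (hP : CHPoly u n P) {E : β × ℕ → ℕ} (hE : CHF E)
    (hE' : ExpLe (fun c : β × ℕ => u c.1) E) :
    CHMod u (fun b => MvPolynomial.coeff
      (Finsupp.equivFunOnFinite.symm fun i : Fin (n b) => E (b, (i : ℕ))) (P b)) := by
  obtain ⟨⟨p, F, hF, h⟩, d, hd⟩ := hP
  obtain ⟨d', hd'⟩ := hE'
  -- the product of powers, modulo `q`; context `((b, q), X)`
  have hprod : CHF (fun c : ((β × ℕ) × List ℕ) × ℕ =>
      R316.CH.pmod (c.1.2.getD (min c.2 (n c.1.1.1)) 0 + 1) (c.1.1.2 - 1 - E (c.1.1.1, c.2))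
        c.1.1.2) := by
    refine CHF.pmod (CHF.of_ptf (PTF.natAdd (PTF.getD (PTF.natMinUn PTF.snd
      (hn.comp (by fun_prop))) (by fun_prop) (PTF.const 0)) (PTF.const 1))) ?_
      (CHF.of_ptf (by fun_prop))
    exact (CHF.of_ptf (by fun_prop)).sub (hE.comp (by fun_prop))
  have hprod' := CHF.prodMod hprod (b := fun a : (β × ℕ) × List ℕ => n a.1.1)
    (q := fun a => a.1.2) (CHF.of_ptf (hn.toPTF.comp (by fun_prop))) (CHF.of_ptf (by fun_prop))
  have hf : CHF (fun a : (β × ℕ) × List ℕ =>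
      F ((a.1.1, a.2.map fun x => x + 1), a.1.2) *
        (if a.1.2.Prime then (∏ k ∈ Finset.range (n a.1.1),
          R316.CH.pmod (a.2.getD (min k (n a.1.1)) 0 + 1) (a.1.2 - 1 - E (a.1.1, k))
            a.1.2) % a.1.2 else 0)) := by
    refine (hF.comp (g := fun a : (β × ℕ) × List ℕ =>
      ((a.1.1, a.2.map fun x => x + 1), a.1.2)) ?_).mul hprod'
    refine PTF.prodMk (PTF.prodMk (by fun_prop) (PTF.map PTF.snd (f := fun _ x => x + 1) ?_))
      (by fun_prop)
    exact PTF.natAdd PTF.snd (PTF.const 1)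
  have hsum := CHF.sum_pi hf (n := fun c : β × ℕ => n c.1) (K := fun c : β × ℕ => c.2 - 1)
    (hn.comp PTF.fst) (CHF.of_ptf (by fun_prop))
  have hsgn : CHF (fun c : β × ℕ => R316.CH.pmod (c.2 - 1) (n c.1) c.2) :=
    CHF.pmod (CHF.of_ptf (by fun_prop)) (CHF.of_ptf (hn.toPTF.comp PTF.fst))
      (CHF.of_ptf PTF.snd)
  refine CHMod.intro (p + d + d' + 2) (hsgn.mul hsum) ?_
  intro b q hqp hlt
  have := Fact.mk hqp
  simp only [Polynomial.eval_add, Polynomial.eval_ofNat] at hlt
  have hp' : 2 ^ p.eval (u b) < q := lt_of_le_of_lt (Nat.pow_le_pow_right (by norm_num) (by omega)) hlt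
  have hlt1 : 2 ^ d.eval (u b) * 4 ≤ q - 1 := by
    have : 2 ^ d.eval (u b) * 4 ≤ 2 ^ (p.eval (u b) + d.eval (u b) + d'.eval (u b) + 2) := by
      rw [show (4 : ℕ) = 2 ^ 2 by norm_num, ← pow_add]
      exact Nat.pow_le_pow_right (by norm_num) (by omega)
    omega
  have hlt2 : 2 ^ d'.eval (u b) * 4 ≤ q - 1 := by
    have : 2 ^ d'.eval (u b) * 4 ≤ 2 ^ (p.eval (u b) + d.eval (u b) + d'.eval (u b) + 2) := by
      rw [show (4 : ℕ) = 2 ^ 2 by norm_num, ← pow_add]
      exact Nat.pow_le_pow_right (by norm_num) (by omega)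
    omega
  have hdeg : (P b).totalDegree < q - 1 := by
    have h5 : (P b).totalDegree ≤ 2 ^ d.eval (u b) := hd b
    have := Nat.two_pow_pos (d.eval (u b))
    omega
  have hee : ∀ i : Fin (n b), E (b, (i : ℕ)) < q - 1 := by
    intro i
    have h5 : E (b, (i : ℕ)) ≤ 2 ^ d'.eval (u b) := hd' (b, (i : ℕ))
    have := Nat.two_pow_pos (d'.eval (u b))
    omega
  rw [coeff_eq_sum_zmod (P b) hdeg (fun i => E (b, (i : ℕ))) hee]
  simp only [hqp, if_true]
  push_cast
  congr 1
  · rw [pmod_eq hqp.pos, ZMod.natCast_mod]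
    push_cast
    rw [Nat.cast_sub hqp.one_le, ZMod.natCast_self]
    congr 1
    simp
  · refine Finset.sum_congr rfl fun κ _ => ?_
    have hlen : (List.ofFn fun i => ((κ i : Fin (q - 1)) : ℕ)).length = n b := by simp
    have hget : ∀ i : Fin (n b), (List.ofFn fun i => ((κ i : Fin (q - 1)) : ℕ)).getD i 0 =
        (κ i : ℕ) := by
      intro i
      rw [List.getD_eq_getElem _ _ (by rw [hlen]; exact i.2), List.getElem_ofFn]
    congr 1
    · have h3 := h (b, (List.ofFn fun i => ((κ i : Fin (q - 1)) : ℕ)).map fun x => x + 1) q hqp hp'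
      simp only at h3
      have hpt : pt (n b) ((List.ofFn fun i => ((κ i : Fin (q - 1)) : ℕ)).map fun x => x + 1) =
          fun i => ((κ i : ℕ) : ℤ) + 1 := by
        funext i
        rw [pt_apply, List.getD_eq_getElem _ _ (by rw [List.length_map, hlen]; exact i.2),
          List.getElem_map, List.getElem_ofFn]
        push_cast
        rfl
      rw [h3, hpt]
    · rw [ZMod.natCast_mod]
      push_cast
      rw [← Fin.prod_univ_eq_prod_range (fun k => ((R316.CH.pmod ((List.ofFn fun i =>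
        ((κ i : Fin (q - 1)) : ℕ)).getD (min k (n b)) 0 + 1) (q - 1 - E (b, k)) q : ℕ) : ZMod q))]
      refine Finset.prod_congr rfl fun i _ => ?_
      rw [pmod_eq hqp.pos, ZMod.natCast_mod, Nat.min_eq_left i.2.le, hget]
      push_cast
      rfl

end Crest.Agent.R316.CH
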