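import Crest.Agent.R316.CH.PolyPd
import Crest.Agent.R316.Num.DegIn

/-!
# R316 / CH / PolyDer : derivatives, determinants, Jacobians (task K2)
-/

set_option autoImplicit false

namespace Crest.Agent.R316.CH

open Crest.Agent.Lib.PT MvPolynomial

variable {α β γ : Type} [PTCode α] [PTCode β] [PTCode γ]

/-- determinants -/
theorem CHMod.det {u n : β → ℕ} (hn : PTU n) {A : ∀ b, Matrix (Fin (n b)) (Fin (n b)) ℤ}
    (hA : CHMod (fun c : β × ℕ × ℕ => u c.1)
      (fun c => extF (fun i => extF (A c.1 i) c.2.2) c.2.1)) :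
    CHMod u (fun b => (A b).det) := by
  have hnC : CHF n := CHF.of_ptf hn.toPTF
  -- the summand
  have hget : ∀ {δ : Type} [PTCode δ] {b : δ → β} {l : δ → List ℕ} {i : δ → ℕ}, PTF b → PTF l →
      PTF i → PTF (fun d => (l d).getD (min (i d) (n (b d))) 0) := by
    intro δ _ b l i hb hl hi
    exact PTF.getD (PTF.natMinUn hi (hn.comp hb)) hl (PTF.const 0)
  have h1 : CHMod (fun c : β × List ℕ => u c.1) (fun c : β × List ℕ =>
      ∏ j ∈ Finset.range (n c.1), ∏ i ∈ Finset.range (n c.1),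
        if i < j then (if c.2.getD (min i (n c.1)) 0 < c.2.getD (min j (n c.1)) 0 then (1 : ℤ)
          else if c.2.getD (min j (n c.1)) 0 < c.2.getD (min i (n c.1)) 0 then -1 else 0) else 1) := by
    refine CHMod.prod (u := fun c : β × List ℕ => u c.1) (b := fun c : β × List ℕ => n c.1)
      (W := fun d : (β × List ℕ) × ℕ => ∏ i ∈ Finset.range (n d.1.1),
        if i < d.2 then (if d.1.2.getD (min i (n d.1.1)) 0 < d.1.2.getD (min d.2 (n d.1.1)) 0
          then (1 : ℤ) else if d.1.2.getD (min d.2 (n d.1.1)) 0 < d.1.2.getD (min i (n d.1.1)) 0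
          then -1 else 0) else 1) ?_ (hnC.comp PTF.fst)
    refine CHMod.prod (u := fun d : (β × List ℕ) × ℕ => u d.1.1)
      (b := fun d : (β × List ℕ) × ℕ => n d.1.1)
      (W := fun e : ((β × List ℕ) × ℕ) × ℕ =>
        if e.2 < e.1.2 then (if e.1.1.2.getD (min e.2 (n e.1.1.1)) 0 <
            e.1.1.2.getD (min e.1.2 (n e.1.1.1)) 0
          then (1 : ℤ) else if e.1.1.2.getD (min e.1.2 (n e.1.1.1)) 0 <
            e.1.1.2.getD (min e.2 (n e.1.1.1)) 0
          then -1 else 0) else 1) ?_ (hnC.comp (by fun_prop))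
    refine CHMod.ite (CHPred.of_ptpred (PTPred.natLt (by fun_prop) (by fun_prop))) ?_ (CHMod.const 1)
    refine CHMod.ite (CHPred.of_ptpred (PTPred.natLt (hget (by fun_prop) (by fun_prop) (by fun_prop))
      (hget (by fun_prop) (by fun_prop) (by fun_prop)))) (CHMod.const 1) ?_
    exact CHMod.ite (CHPred.of_ptpred (PTPred.natLt (hget (by fun_prop) (by fun_prop) (by fun_prop))
      (hget (by fun_prop) (by fun_prop) (by fun_prop)))) (CHMod.const (-1)) (CHMod.const 0)
  have h2 : CHMod (fun c : β × List ℕ => u c.1) (fun c : β × List ℕ =>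
      ∏ i ∈ Finset.range (n c.1), extF (fun k => extF (A c.1 k) i) (c.2.getD (min i (n c.1)) 0)) := by
    refine CHMod.prod (u := fun c : β × List ℕ => u c.1) (b := fun c : β × List ℕ => n c.1)
      (W := fun d : (β × List ℕ) × ℕ =>
        extF (fun k => extF (A d.1.1 k) d.2) (d.1.2.getD (min d.2 (n d.1.1)) 0)) ?_
      (hnC.comp PTF.fst)
    exact hA.comp (g := fun d : (β × List ℕ) × ℕ =>
      (d.1.1, d.1.2.getD (min d.2 (n d.1.1)) 0, d.2))
      (PTF.prodMk (by fun_prop) (PTF.prodMk (hget (by fun_prop) (by fun_prop) (by fun_prop))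
        (by fun_prop)))
  refine (CHMod.sum_pi (h1.mul h2) hn hnC).of_eq fun b => ?_
  rw [det_eq_sum_functions]
  refine Finset.sum_congr rfl fun κ _ => ?_
  have hκ : ∀ i : Fin (n b), (List.ofFn fun i => (κ i : ℕ)).getD (min (i : ℕ) (n b)) 0 = κ i := by
    intro i
    rw [Nat.min_eq_left i.2.le, List.getD_eq_getElem _ _ (by simp)]
    simp
  congr 1
  · rw [Finset.prod_range]
    refine Finset.prod_congr rfl fun j _ => ?_
    rw [Finset.prod_range]
    refine Finset.prod_congr rfl fun i _ => ?_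
    rw [hκ, hκ]
    simp only [Fin.lt_def]
  · rw [Finset.prod_range]
    refine Finset.prod_congr rfl fun i _ => ?_
    rw [hκ, extF_fin, extF_fin]

/-- the Jacobian determinant of a monic system -/
theorem CHPoly.mjac {u n m : β → ℕ} (hn : PTU n) (hn' : PolyLe u n) (hm : PTF m) (hm' : ExpLe u m)
    {g : ∀ b, Fin (n b) → MvPolynomial (Fin (n b)) ℤ} (hg : CHSys u n g)
    (hdeg : ∀ b i, (g b i).totalDegree < m b) :
    CHPoly u n (fun b => R316.mjac (m b) (g b)) := by
  refine ⟨?_, (hn'.expLe.mul hm').mono fun b => totalDegree_mjac_le (hdeg b)⟩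
  have hX : CHPoly (fun c : β × ℕ × ℕ => u c.1) (fun c => n c.1)
      (fun c => if h : c.2.1 < n c.1 then
        (MvPolynomial.X ⟨c.2.1, h⟩ : MvPolynomial (Fin (n c.1)) ℤ) else 0) :=
    CHPoly.X (i := fun c : β × ℕ × ℕ => c.2.1) (by fun_prop) (hn.comp PTF.fst)
  have hQ := CHPoly.pderiv (j := fun c : β × ℕ × ℕ => c.2.2) (hn.comp PTF.fst) (by fun_prop)
    ((hX.pow (CHF.of_ptf (hm.comp PTF.fst)) (hm'.comp Prod.fst)).sub
      (hg.comp (g := fun c : β × ℕ × ℕ => (c.1, c.2.1)) (by fun_prop)))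
  refine (CHMod.det (u := fun c : β × List ℕ => u c.1) (n := fun c => n c.1) (hn.comp PTF.fst)
    (A := fun c => Matrix.of fun i j => eval (pt (n c.1) c.2)
      (MvPolynomial.pderiv j (MvPolynomial.X i ^ m c.1 - g c.1 i))) ?_).of_eq fun c => ?_
  · refine (hQ.1.comp (g := fun d : (β × List ℕ) × ℕ × ℕ => ((d.1.1, d.2.1, d.2.2), d.1.2))
      (by fun_prop)).of_eq fun d => ?_
    simp only [extF]
    by_cases hj : d.2.2 < n d.1.1
    · by_cases hi : d.2.1 < n d.1.1
      · simp [hi, hj]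
      · simp only [hi, hj, dif_pos, dif_neg, not_false_eq_true, sub_zero]
        rcases Nat.eq_zero_or_pos (m d.1.1) with hm0 | hm0
        · simp [hm0]
        · rw [zero_pow hm0.ne']; simp
    · simp [hj]
  · show _ = eval (pt (n c.1) c.2) (Matrix.det (Matrix.of fun i j =>
      MvPolynomial.pderiv j (MvPolynomial.X i ^ m c.1 - g c.1 i)))
    rw [RingHom.map_det]
    rfl

end Crest.Agent.R316.CH
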