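import Crest.Agent.R316.CH.SignPure

/-!
# R316 / CH / SignAlg : the sign of a huge integer given by its residues modulo primes
-/

set_option autoImplicit false

namespace Crest.Agent.R316.CH

open Crest.Agent.Lib.PT

variable {α β γ : Type} [PTCode α] [PTCode β] [PTCode γ]

/-- the selected primes as a predicate -/
def SelP (l q : ℕ) : Prop := q.Prime ∧ 2 ^ l < q

/-- `∏_{p ≠ q} p mod q` -/
noncomputable def coM (l L q : ℕ) : ℕ :=
  open Classical in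
  if q.Prime then (∏ k ∈ Finset.range (2 ^ L), if SelP l k ∧ k ≠ q then k else 1) % q else 0

/-- the CRT coefficient of `2^k X` at `q` -/
noncomputable def crtc (l L : ℕ) (r : ℕ → ℕ) (k q : ℕ) : ℕ :=
  (pmod 2 k q * r q * pmod (coM l L q) (q - 2) q) % q

/-- the approximate fraction -/
noncomputable def crtA (l L t : ℕ) (r : ℕ → ℕ) (k : ℕ) : ℕ :=
  open Classical in
  (∑ q ∈ Finset.range (2 ^ L), if SelP l q then crtc l L r k q * 2 ^ t / q else 0) % 2 ^ t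

theorem coM_eq {l L q : ℕ} (hq : q ∈ PS l L) :
    coM l L q = (∏ p ∈ (PS l L).erase q, p) % q := by
  classical
  unfold coM
  rw [if_pos (mem_PS.1 hq).2.1, ← Finset.prod_filter]
  have : (Finset.range (2 ^ L)).filter (fun k => SelP l k ∧ k ≠ q) = (PS l L).erase q := by
    ext k
    simp only [Finset.mem_filter, Finset.mem_range, Finset.mem_erase, mem_PS, SelP]
    tauto
  rw [this]

theorem crtc_dvd {l L q k : ℕ} {r : ℕ → ℕ} {X : ℤ} (hq : q ∈ PS l L)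
    (hr : ((r q : ℕ) : ZMod q) = (X : ZMod q)) :
    (q : ℤ) ∣ ((crtc l L r k q * ∏ p ∈ (PS l L).erase q, p : ℕ) : ℤ) - 2 ^ k * X := by
  have hqp := (mem_PS.1 hq).2.1
  have := Fact.mk hqp
  have hne : ((∏ p ∈ (PS l L).erase q, p : ℕ) : ZMod q) ≠ 0 := by
    rw [Ne, ZMod.natCast_eq_zero_iff, hqp.prime.dvd_finsetProd_iff]
    rintro ⟨p, hp, hd⟩
    rw [Finset.mem_erase] at hp
    exact hp.1 ((Nat.prime_dvd_prime_iff_eq hqp (mem_PS.1 hp.2).2.1).1 hd).symm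
  have e2 : ((coM l L q : ℕ) : ZMod q) = ((∏ p ∈ (PS l L).erase q, p : ℕ) : ZMod q) := by
    rw [coM_eq hq, ZMod.natCast_mod]
  generalize (∏ p ∈ (PS l L).erase q, p) = m at hne e2 ⊢
  rw [← Int.modEq_iff_dvd, ← ZMod.intCast_eq_intCast_iff]
  push_cast
  unfold crtc
  rw [ZMod.natCast_mod]
  push_cast
  rw [pmod_eq hqp.pos, pmod_eq hqp.pos, ZMod.natCast_mod, ZMod.natCast_mod, hr]
  push_cast
  rw [e2]
  have e3 : (m : ZMod q) ^ (q - 2) * (m : ZMod q) = 1 := by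
    rw [← pow_succ, show q - 2 + 1 = q - 1 by have := hqp.two_le; omega]
    exact ZMod.pow_card_sub_one_eq_one hne
  calc (2 : ZMod q) ^ k * X = (2 : ZMod q) ^ k * X * ((m : ZMod q) ^ (q - 2) * (m : ZMod q)) := by
        rw [e3, mul_one]
    _ = _ := by ring

/-- correctness of the sign algorithm -/
theorem neg_iff_alg {l L t K : ℕ} (hL : 2 ^ (2 ^ l + 4) ≤ ∏ q ∈ PS l L, q) (ht : t = L + 10)
    (hK : K = L * 2 ^ L) {r : ℕ → ℕ} {X : ℤ} (hX : |X| ≤ 2 ^ 2 ^ l)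
    (hr : ∀ q, q.Prime → 2 ^ l < q → ((r q : ℕ) : ZMod q) = (X : ZMod q)) :
    X < 0 ↔ least K (fun k => Mid (2 ^ t) (crtA l L t r k)) < K ∧
      2 ^ t ≤ 2 * crtA l L t r (least K (fun k => Mid (2 ^ t) (crtA l L t r k))) := by
  classical
  have hP : ∀ q ∈ PS l L, q.Prime := fun q hq => (mem_PS.1 hq).2.1
  refine sign_algorithm (M := ∏ q ∈ PS l L, q) (N := 2 ^ L) _
    (Finset.prod_pos fun q hq => (hP q hq).pos) (by positivity) ?_
    (fun k => Nat.mod_lt _ (by positivity)) (fun k => ?_) ?_ (by rw [hK]; exact prod_PS_le _ _)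
  · rw [ht, pow_add]; omega
  · obtain ⟨i, hi1, hi2⟩ := crt_approx (PS l L) hP (2 ^ k * X) (crtc l L r k)
      (fun q hq => crtc_dvd hq (hr q (hP q hq) (mem_PS.1 hq).2.2)) (2 ^ t)
    have hA : crtA l L t r k = (∑ q ∈ PS l L, crtc l L r k q * 2 ^ t / q) % 2 ^ t := by
      unfold crtA
      rw [← Finset.sum_filter]
      have : (Finset.range (2 ^ L)).filter (SelP l) = PS l L := by
        ext k
        simp only [Finset.mem_filter, Finset.mem_range, mem_PS, SelP]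
      rw [this]
    rw [hA]
    have hc : ((PS l L).card : ℤ) ≤ ((2 ^ L : ℕ) : ℤ) := by
      exact_mod_cast card_PS_le l L
    have hM0 : (0 : ℤ) ≤ ((∏ q ∈ PS l L, q : ℕ) : ℤ) := Int.natCast_nonneg _
    generalize ((∏ q ∈ PS l L, q : ℕ) : ℤ) = M at hi1 hi2 hM0 ⊢
    generalize (∑ q ∈ PS l L, crtc l L r k q * 2 ^ t / q) = S at hi1 hi2 ⊢
    generalize ((PS l L).card : ℤ) = C at hi1 hi2 hc
    generalize (2 ^ k * X) = Y at hi1 hi2 ⊢
    have e : (S : ℤ) = (2 ^ t : ℕ) * (S / 2 ^ t : ℕ) + (S % 2 ^ t : ℕ) := by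
      exact_mod_cast (Nat.div_add_mod S (2 ^ t)).symm
    generalize (2 ^ t : ℕ) = T at hi1 hi2 e ⊢
    have hi3 := hi2.trans (mul_le_mul_of_nonneg_left (add_le_add_right hc (S : ℤ)) hM0)
    rw [e] at hi1 hi3
    generalize (S / T : ℕ) = s at hi1 hi3 ⊢
    refine ⟨i - s, ?_, ?_⟩ <;> push_cast at hi1 hi3 ⊢ <;> linarith
  · have h1 : ((2 ^ (2 ^ l + 4) : ℕ) : ℤ) ≤ ((∏ q ∈ PS l L, q : ℕ) : ℤ) := by
      exact_mod_cast hL
    have h2 : ((2 ^ (2 ^ l + 4) : ℕ) : ℤ) = 16 * 2 ^ 2 ^ l := by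
      push_cast; rw [pow_add]; ring
    have h3 : (0 : ℤ) < 2 ^ 2 ^ l := by positivity
    linarith

end Crest.Agent.R316.CH
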