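import Crest.Agent.R316.CH.Mod
import Crest.Agent.R316.CH.SignAlg

/-!
# R316 / CH / Sign : the sign of an integer given by its residues
-/

set_option autoImplicit false

namespace Crest.Agent.R316.CH

open Crest.Agent.Lib.PT

variable {α β γ : Type} [PTCode α] [PTCode β] [PTCode γ]

theorem chpred_selP {l q : α → ℕ} (hl : PTU l) (hq : PTF q) :
    CHPred (fun a => SelP (l a) (q a)) :=
  (chpred_prime (CHF.of_ptf hq)).and (CHPred.of_ptpred (PTPred.natLt (PTF.natTwoPow hl) hq))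

theorem chf_coM {l L q : α → ℕ} (hl : PTU l) (hL : PTU L) (hq : PTF q) :
    CHF (fun a => coM (l a) (L a) (q a)) := by
  classical
  unfold coM
  refine CHF.prodMod (f := fun x : α × ℕ => if SelP (l x.1) x.2 ∧ x.2 ≠ q x.1 then x.2 else 1)
    ?_ (CHF.of_ptf (PTF.natTwoPow hL)) (CHF.of_ptf hq)
  refine CHF.ite ?_ (CHF.of_ptf PTF.snd) (CHF.const 1)
  exact (chpred_selP (hl.comp PTF.fst) PTF.snd).and
    (CHPred.of_ptpred (PTPred.natEq PTF.snd (hq.comp PTF.fst))).not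

theorem chf_crtc {l L k q : α → ℕ} {r : α × ℕ → ℕ} (hl : PTU l) (hL : PTU L) (hr : CHF r)
    (hk : PTF k) (hq : PTF q) :
    CHF (fun a => crtc (l a) (L a) (fun q => r (a, q)) (k a) (q a)) := by
  unfold crtc
  exact (((CHF.of_ptf (ptf_pmod (PTF.const 2) hk hq)).mul
    (hr.comp (g := fun a => (a, q a)) (PTF.prodMk PTF.id hq))).mul
    (CHF.pmod (chf_coM hl hL hq) (CHF.of_ptf (PTF.natSub hq (PTF.const 2)))
      (CHF.of_ptf hq))).mod (CHF.of_ptf hq)

theorem chf_crtA {l L t k : α → ℕ} {r : α × ℕ → ℕ} (hl : PTU l) (hL : PTU L) (ht : PTU t)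
    (hr : CHF r) (hk : PTF k) :
    CHF (fun a => crtA (l a) (L a) (t a) (fun q => r (a, q)) (k a)) := by
  classical
  unfold crtA
  refine CHF.mod (CHF.sum (f := fun x : α × ℕ => if SelP (l x.1) x.2 then
    crtc (l x.1) (L x.1) (fun q => r (x.1, q)) (k x.1) x.2 * 2 ^ t x.1 / x.2 else 0) ?_
    (CHF.of_ptf (PTF.natTwoPow hL))) (CHF.of_ptf (PTF.natTwoPow ht))
  refine CHF.ite (chpred_selP (hl.comp PTF.fst) PTF.snd) ?_ (CHF.const 0)
  have h1 := chf_crtc (α := α × ℕ) (l := fun x => l x.1) (L := fun x => L x.1)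
    (k := fun x => k x.1) (q := fun x => x.2) (r := fun y : (α × ℕ) × ℕ => r (y.1.1, y.2))
    (hl.comp PTF.fst) (hL.comp PTF.fst)
    (hr.comp (g := fun y : (α × ℕ) × ℕ => (y.1.1, y.2)) (by fun_prop)) (hk.comp PTF.fst) PTF.snd
  exact (h1.mul (CHF.of_ptf (PTF.natTwoPow (ht.comp PTF.fst)))).div (CHF.of_ptf PTF.snd)

/-- **sign theorem**, raw form -/
theorem chpred_neg {X : β → ℤ} {l : β → ℕ} (hl : PTU l) (hX : ∀ b, |X b| ≤ 2 ^ 2 ^ l b)
    {r : β × ℕ → ℕ} (hr : CHF r)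
    (h : ∀ b q, q.Prime → 2 ^ l b < q → ((r (b, q) : ℕ) : ZMod q) = (X b : ZMod q)) :
    CHPred (fun b => X b < 0) := by
  have hL : PTU (fun b => 2 * l b + 20) := ((PTU.const 2).mul hl).add (PTU.const 20)
  have ht : PTU (fun b => 2 * l b + 20 + 10) := hL.add (PTU.const 10)
  have hA : CHF (fun x : β × ℕ => crtA (l x.1) (2 * l x.1 + 20) (2 * l x.1 + 20 + 10)
      (fun q => r (x.1, q)) x.2) :=
    chf_crtA (α := β × ℕ) (l := fun x => l x.1) (L := fun x => 2 * l x.1 + 20)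
      (t := fun x => 2 * l x.1 + 20 + 10) (k := fun x => x.2)
      (r := fun y : (β × ℕ) × ℕ => r (y.1.1, y.2)) (hl.comp PTF.fst) (hL.comp PTF.fst)
      (ht.comp PTF.fst) (hr.comp (g := fun y : (β × ℕ) × ℕ => (y.1.1, y.2)) (by fun_prop)) PTF.snd
  have hT : CHF (fun x : β × ℕ => 2 ^ (2 * l x.1 + 20 + 10)) :=
    CHF.of_ptf (PTF.natTwoPow (ht.comp PTF.fst))
  have hMid : CHPred (fun x : β × ℕ => Mid (2 ^ (2 * l x.1 + 20 + 10))
      (crtA (l x.1) (2 * l x.1 + 20) (2 * l x.1 + 20 + 10) (fun q => r (x.1, q)) x.2)) :=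
    (CHPred.le hT ((CHF.const 8).mul hA)).and (CHPred.lt ((CHF.const 8).mul hA)
      ((CHF.const 7).mul hT))
  have hK : CHF (fun b => (2 * l b + 20) * 2 ^ (2 * l b + 20)) :=
    CHF.of_ptf (PTF.natMul hL.toPTF (PTF.natTwoPow hL))
  have hleast := CHF.least hMid hK
  have hAl := CHF.subst hA hleast
  refine ((CHPred.lt hleast hK).and (CHPred.le (CHF.of_ptf (PTF.natTwoPow ht))
    ((CHF.const 2).mul hAl))).of_iff fun b => ?_
  exact (neg_iff_alg (prod_PS_large (l b)) rfl rfl (hX b) (h b)).symm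

/-- **sign theorem** -/
theorem CHMod.neg_iff {u : β → ℕ} (hu : PTU u) {W : β → ℤ} (hW : CHMod u W) (hb : DExpLe u W) :
    CHPred (fun b => W b < 0) := by
  obtain ⟨p, F, hF, h⟩ := hW
  obtain ⟨p', hp'⟩ := hb
  refine chpred_neg (l := fun b => (p + p').eval (u b)) (PTU.eval _ hu) (fun b => ?_) hF
    (fun b q hq hlt => h b q hq (lt_of_eval_add_left hlt))
  refine (hp' b).trans ?_
  have h1 : p'.eval (u b) ≤ (p + p').eval (u b) := by
    rw [Polynomial.eval_add]; exact Nat.le_add_left _ _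
  exact pow_le_pow_right₀ (by norm_num) (Nat.pow_le_pow_right (by norm_num) h1)

end Crest.Agent.R316.CH
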