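import Crest.Agent.R316.CH.PolyOut
import Crest.Agent.R316.CH.Sign
import Crest.Agent.R316.Num.Deg

/-!
# R316 / CH / PolyFin : the numeric test is in the counting hierarchy (task K9)
-/

set_option autoImplicit false

namespace Crest.Agent.R316.CH

open Crest.Agent.Lib.PT MvPolynomial

variable {α β γ : Type} [PTCode α] [PTCode β] [PTCode γ]

theorem chmod_twoTwoPow {u : β → ℕ} {f : β → ℕ} (hf : PTU f) :
    CHMod u (fun b => ((2 ^ 2 ^ f b : ℕ) : ℤ)) := by
  refine ((CHMod.const 2).pow (CHF.of_ptf (PTF.natTwoPow hf))).of_eq fun b => ?_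
  push_cast
  rfl

/-- **(K9)** -/
theorem chpred_finalW {c : β → Cfg} (hq : PTU (fun x => (c x).q)) (hn : PTU (fun x => (c x).n))
    (hf : CHEv (fun x => (c x).q) (fun x => (c x).n) (fun x => (c x).f))
    (a u v k e t b l k' e' t' b' l' : Polynomial ℕ)
    (ha : ∀ c : Cfg, Bd (outQ c.f) (2 ^ 2 ^ a.eval c.q) (2 ^ a.eval c.q)) :
    CHPred (fun x => ∃ s < nSeeds (2 ^ b'.eval (c x).q) (2 ^ l'.eval (c x).q)
        ((2 * 2 ^ (a.eval (c x).q + 1) - 1) ^ (c x).n),
      finalW (2 ^ (a.eval (c x).q + 1)) (fun i => (pnat (u.eval (c x).q) (v.eval (c x).q) i : ℤ))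
        (mkTPar (k.eval (c x).q) (e.eval (c x).q) (t.eval (c x).q) (b.eval (c x).q)
          (l.eval (c x).q))
        (mkTPar (k'.eval (c x).q) (e'.eval (c x).q) (t'.eval (c x).q) (b'.eval (c x).q)
          (l'.eval (c x).q))
        (c x).f s < 0) := by
  have hev : ∀ p : Polynomial ℕ, PTU (fun x => p.eval (c x).q) := fun p => PTU.eval p hq
  have hle : ∀ p : Polynomial ℕ, PolyLe (fun x => (c x).q) (fun x => p.eval (c x).q) :=
    fun p => ⟨p, fun x => le_rfl⟩
  have hn' : PolyLe (fun x => (c x).q) (fun x => (c x).n) :=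
    ⟨Polynomial.X, fun x => by simpa using (c x).hnq⟩
  have hM : PTF (fun x => 2 ^ (a.eval (c x).q + 1)) :=
    PTF.natTwoPow ((hev a).add (PTU.const 1))
  have hM' : ExpLe (fun x => (c x).q) (fun x => 2 ^ (a.eval (c x).q + 1)) :=
    ExpLe.two_pow ((hle a).add (PolyLe.const 1))
  have hQ : ∀ x, (outQ (c x).f).totalDegree < 2 ^ (a.eval (c x).q + 1) := fun x =>
    lt_of_le_of_lt (ha (c x)).totalDegree_le₂ (Nat.pow_lt_pow_right (by norm_num) (by omega))
  have hp : ∀ i : Fin 5, CHMod (fun x => (c x).q)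
      (fun x => ((pnat (u.eval (c x).q) (v.eval (c x).q) i : ℕ) : ℤ)) := fun i =>
    chmod_twoTwoPow ((hev u).add ((PTU.const (i : ℕ)).mul ((hev v).add (PTU.const 2))))
  obtain ⟨A, hA⟩ := exists_outer_degree_bound a u v k e t b l k' e' t' b' l' ha
  obtain ⟨B, hB⟩ := exists_finalW_bound a u v k e t b l k' e' t' b' l' ha
  have hd : ExpLe (fun y : β × ℕ => (c y.1).q) (fun y =>
      (psiOut (fun i => (pnat (u.eval (c y.1).q) (v.eval (c y.1).q) i : ℤ))
        (mkTPar (k.eval (c y.1).q) (e.eval (c y.1).q) (t.eval (c y.1).q) (b.eval (c y.1).q)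
          (l.eval (c y.1).q))
        (mkTPar (k'.eval (c y.1).q) (e'.eval (c y.1).q) (t'.eval (c y.1).q) (b'.eval (c y.1).q)
          (l'.eval (c y.1).q)) (c y.1).f y.2).totalDegree) :=
    ⟨A, fun y => (hA (c y.1) 0).2.2.2.2.1 y.2⟩
  have hW := outer_W (hnz := fun x => (c x).hn) (u := fun x => (c x).q) (n := fun x => (c x).n)
    (M := fun x => 2 ^ (a.eval (c x).q + 1)) (f := fun x => (c x).f)
    (p := fun x i => ((pnat (u.eval (c x).q) (v.eval (c x).q) i : ℕ) : ℤ))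
    (t := fun x => mkTPar (k.eval (c x).q) (e.eval (c x).q) (t.eval (c x).q) (b.eval (c x).q)
          (l.eval (c x).q))
    (t' := fun x => mkTPar (k'.eval (c x).q) (e'.eval (c x).q) (t'.eval (c x).q)
          (b'.eval (c x).q) (l'.eval (c x).q))
    hq hn hn' hf (fun x => (c x).hf4) hp hM hM' hQ
    (PTF.natTwoPow (hev k)) (PTF.natTwoPow ((hev e).add (PTU.const 1)))
    (chmod_twoTwoPow (hev t)) (PTF.natTwoPow (hev b)) (PTF.natTwoPow (hev l))
    (ExpLe.two_pow (hle k)) (ExpLe.two_pow ((hle e).add (PolyLe.const 1)))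
    (ExpLe.two_pow (hle b)) (ExpLe.two_pow (hle l))
    (PTF.natTwoPow (hev k')) (PTF.natTwoPow ((hev e').add (PTU.const 1)))
    (chmod_twoTwoPow (hev t')) (PTF.natTwoPow (hev b')) (PTF.natTwoPow (hev l'))
    (ExpLe.two_pow (hle k')) (ExpLe.two_pow ((hle e').add (PolyLe.const 1)))
    hd
  have hneg := CHMod.neg_iff (u := fun y : β × ℕ => (c y.1).q) (hq.comp PTF.fst) hW
    ⟨B, fun y => hB (c y.1) y.2⟩
  have hbound : CHF (fun x => nSeeds (2 ^ b'.eval (c x).q) (2 ^ l'.eval (c x).q)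
        ((2 * 2 ^ (a.eval (c x).q + 1) - 1) ^ (c x).n)) := by
    unfold nSeeds
    refine CHF.of_ptf ?_
    refine PTF.natMul (PTF.natMul (PTF.natPowConst (PTF.natMul (PTF.const 2)
      (PTF.natTwoPow (hev b'))) 2) (PTF.natTwoPow (hev l'))) (PTF.natAdd ?_ (PTF.const 1))
    exact PTF.natPow (PTF.natSub (PTF.natMul (PTF.const 2) hM) (PTF.const 1)) hn
  exact CHPred.exists_lt (P := fun y : β × ℕ => finalW (2 ^ (a.eval (c y.1).q + 1))
    (fun i => (pnat (u.eval (c y.1).q) (v.eval (c y.1).q) i : ℤ))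
        (mkTPar (k.eval (c y.1).q) (e.eval (c y.1).q) (t.eval (c y.1).q) (b.eval (c y.1).q)
          (l.eval (c y.1).q))
        (mkTPar (k'.eval (c y.1).q) (e'.eval (c y.1).q) (t'.eval (c y.1).q) (b'.eval (c y.1).q)
          (l'.eval (c y.1).q))
        (c y.1).f y.2 < 0) hneg hbound

end Crest.Agent.R316.CH
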