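import Crest.Agent.R316.CH.PolySeed

/-!
# R316 / CH / PolyIn : the inner system in the counting hierarchy (task K7)

Context of the inner polynomials: `(b, X) : β × List ℕ`, `X` the list of the outer point.
-/

set_option autoImplicit false

namespace Crest.Agent.R316.CH

open Crest.Agent.Lib.PT MvPolynomial

variable {α β γ : Type} [PTCode α] [PTCode β] [PTCode γ]

/-- the family `f b` can be evaluated modulo large primes -/
def CHEv (u n : β → ℕ) (f : ∀ b, Zxy (n b)) : Prop :=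
  CHMod (fun x : (β × List ℕ) × List ℕ => u x.1.1)
    (fun x => ev2 (pt (n x.1.1) x.1.2) (pt (n x.1.1) x.2) (f x.1.1))

theorem ptf_mI {n : β → ℕ} (hn : PTU n) : PTF (fun b => mI (n b)) := by
  unfold mI dI
  have h5 : PTF (fun b => 5 ^ n b) := PTF.natPow (PTF.const 5) hn
  exact PTF.natSub (PTF.natMul (PTF.const 2)
    (PTF.natAdd (PTF.natMul (PTF.const 3) h5) (PTF.const 3))) (PTF.const 1)

theorem ptf_dI {n : β → ℕ} (hn : PTU n) : PTF (fun b => dI (n b)) := by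
  unfold dI
  have h5 : PTF (fun b => 5 ^ n b) := PTF.natPow (PTF.const 5) hn
  exact PTF.natAdd (PTF.natMul (PTF.const 3) h5) (PTF.const 3)

theorem expLe_five_pow {u n : β → ℕ} (hn' : PolyLe u n) : ExpLe u (fun b => 5 ^ n b) :=
  (ExpLe.const 5).pow hn'

theorem expLe_dI {u n : β → ℕ} (hn' : PolyLe u n) : ExpLe u (fun b => dI (n b)) :=
  ((ExpLe.const 3).mul (expLe_five_pow hn')).add (ExpLe.const 3)

theorem expLe_mI {u n : β → ℕ} (hn' : PolyLe u n) : ExpLe u (fun b => mI (n b)) :=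
  ((ExpLe.const 2).mul (expLe_dI hn')).mono fun _ => Nat.sub_le _ _

/-- sums over `Fin n` -/
theorem CHPoly.sum_fin_in {u n : β → ℕ} (hn : PTU n)
    {G : ∀ b, Fin (n b) → MvPolynomial (Fin (n b)) ℤ}
    (hG : CHPoly (fun c : β × ℕ => u c.1) (fun c => n c.1)
      (fun c => if h : c.2 < n c.1 then G c.1 ⟨c.2, h⟩ else 0)) :
    CHPoly u n (fun b => ∑ j, G b j) := by
  refine (hG.sum (m := n) (CHF.of_ptf hn.toPTF)).of_eq fun b => ?_
  rw [← Fin.sum_univ_eq_sum_range (fun k => if h : k < n b then G b ⟨k, h⟩ else 0)]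
  exact Finset.sum_congr rfl fun i _ => by simp

/-- the variable `X_k`, `k` the second component of the context -/
theorem CHPoly.Xsnd {u n : β → ℕ} (hn : PTU n) :
    CHPoly (fun c : β × ℕ => u c.1) (fun c => n c.1)
      (fun c => if h : c.2 < n c.1 then (MvPolynomial.X ⟨c.2, h⟩ :
        MvPolynomial (Fin (n c.1)) ℤ) else 0) :=
  CHPoly.X (i := fun c : β × ℕ => c.2) PTF.snd (hn.comp PTF.fst)

theorem CHPoly.sumsq {u n : β → ℕ} (hn : PTU n) :
    CHPoly u n (fun b => ∑ j : Fin (n b), (MvPolynomial.X j : MvPolynomial (Fin (n b)) ℤ) ^ 2) := by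
  refine CHPoly.sum_fin_in hn (((CHPoly.Xsnd hn).pow (CHF.const 2) (ExpLe.const 2)).of_eq
    fun c => ?_)
  by_cases h : c.2 < n c.1 <;> simp [h]

variable {u n : β → ℕ} {f : ∀ b, Zxy (n b)} {Γ Z : β → ℤ}

theorem inner_fp (hn : PTU n) (hn' : PolyLe u n) (hf : CHEv u n f)
    (hf4 : ∀ b, (f b).totalDegree ≤ 4) :
    CHPoly (fun c : β × List ℕ => u c.1) (fun c => n c.1)
      (fun c => map (xhom (pt (n c.1) c.2)) (fp (f c.1))) := by
  have h1 : CHPoly (fun c : β × List ℕ => u c.1) (fun c => n c.1)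
      (fun c => map (xhom (pt (n c.1) c.2)) (f c.1)) := by
    refine ⟨hf, (ExpLe.const 4).mono fun c => ?_⟩
    exact (Finset.sup_mono (support_map_subset _ (f c.1))).trans (hf4 c.1)
  have hn1 : PTU (fun c : β × List ℕ => n c.1) := hn.comp PTF.fst
  have h2 := h1.mul ((CHPoly.one.add (CHPoly.sumsq hn1)).pow
    (e := fun c : β × List ℕ => 3 * 5 ^ n c.1)
    (CHF.of_ptf (PTF.natMul (PTF.const 3) (PTF.natPow (PTF.const 5) hn1)))
    (((ExpLe.const 3).mul (expLe_five_pow hn')).comp Prod.fst))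
  refine h2.of_eq fun c => ?_
  simp [fp]

theorem inner_G (hn : PTU n) (hn' : PolyLe u n) (hf : CHEv u n f)
    (hf4 : ∀ b, (f b).totalDegree ≤ 4) (hΓ : CHMod u Γ) (hZ : CHMod u Z) :
    CHSys (fun c : β × List ℕ => u c.1) (fun c => n c.1)
      (fun c => innerG (xhom (pt (n c.1) c.2)) (Γ c.1) (Z c.1) (f c.1)) := by
  have hg : PTF (fun d : (β × List ℕ) × ℕ => d.1) := PTF.fst
  have hg' : PTF (fun d : (β × List ℕ) × ℕ => d.1.1) := by fun_prop
  have h1 := (inner_fp hn hn' hf hf4).comp hg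
  have hnd : PTU (fun d : (β × List ℕ) × ℕ => n d.1.1) := hn.comp hg'
  have h2 := CHPoly.pderiv (j := fun d : (β × List ℕ) × ℕ => d.2) hnd PTF.snd h1
  have h3 : CHMod (fun d : (β × List ℕ) × ℕ => u d.1.1) (fun d => Z d.1.1 * Γ d.1.1) :=
    (hZ.mul hΓ).comp hg'
  have h4 := (((CHPoly.C h3).mul h2).neg).sub CHPoly.one
  refine (CHPoly.ite (c := fun d : (β × List ℕ) × ℕ => d.2 < n d.1.1)
    (CHPred.of_ptpred (PTPred.natLt PTF.snd hnd.toPTF)) h4 CHPoly.zero).of_eq fun d => ?_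
  by_cases h : d.2 < n d.1.1
  · simp only [h, if_true, dif_pos, extF, innerG]
  · simp only [h, if_false, extF, dif_neg, not_false_eq_true]

theorem inner_pen (hn : PTU n) (hn' : PolyLe u n) :
    CHPoly u n (fun b => pen ℤ (n b)) := by
  have hn1 : PTU (fun c : β × ℕ => n c.1) := hn.comp PTF.fst
  have hX := CHPoly.Xsnd (u := u) hn
  have hd : CHMod (fun c : β × ℕ => u c.1) (fun c => 2 * (dI (n c.1) : ℤ)) :=
    (CHMod.const 2).mul (CHMod.natCast (CHF.of_ptf (ptf_dI hn1)))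
  have h1 := hX.pow (e := fun c : β × ℕ => 2 * dI (n c.1))
    (CHF.of_ptf (PTF.natMul (PTF.const 2) (ptf_dI hn1)))
    (((ExpLe.const 2).mul (expLe_dI hn')).comp Prod.fst)
  have h2 := (h1.add ((CHPoly.C hd).mul hX)).add (CHPoly.C hd)
  refine CHPoly.sum_fin_in hn ((CHPoly.ite (c := fun c : β × ℕ => c.2 < n c.1)
    (CHPred.of_ptpred (PTPred.natLt PTF.snd hn1.toPTF)) h2 CHPoly.zero).of_eq fun c => ?_)
  by_cases h : c.2 < n c.1
  · simp only [h, if_true, dif_pos]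
  · simp only [h, if_false, dif_neg, not_false_eq_true]

theorem inner_H (hn : PTU n) (hn' : PolyLe u n) (hf : CHEv u n f)
    (hf4 : ∀ b, (f b).totalDegree ≤ 4) (hΓ : CHMod u Γ) (hZ : CHMod u Z) :
    CHPoly (fun c : β × List ℕ => u c.1) (fun c => n c.1)
      (fun c => innerH (xhom (pt (n c.1) c.2)) (Γ c.1) (Z c.1) (f c.1)) := by
  have h1 := inner_fp hn hn' hf hf4
  have hg : PTF (fun c : β × List ℕ => c.1) := PTF.fst
  have hpen := (inner_pen (u := u) hn hn').comp hg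
  have hd : CHMod (fun c : β × List ℕ => u c.1) (fun c => 2 * (dI (n c.1) : ℤ) * Z c.1) :=
    ((CHMod.const 2).mul (CHMod.natCast (CHF.of_ptf (ptf_dI (hn.comp hg))))).mul (hZ.comp hg)
  exact ((CHPoly.C hd).mul (((CHPoly.C (hΓ.comp hg)).mul h1).sub CHPoly.one)).add hpen

theorem inner_V (hu : PTU u) (hn : PTU n) (hn' : PolyLe u n) (hf : CHEv u n f)
    (hf4 : ∀ b, (f b).totalDegree ≤ 4) (hΓ : CHMod u Γ) (hZ : CHMod u Z) :
    CHMod (fun c : β × List ℕ => u c.1)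
      (fun c => innerV (xhom (pt (n c.1) c.2)) (Γ c.1) (Z c.1) (f c.1)) :=
  CHMod.mnorm (m := fun c : β × List ℕ => mI (n c.1)) (hu.comp PTF.fst) (hn.comp PTF.fst)
    (hn'.comp Prod.fst) (ptf_mI (hn.comp PTF.fst)) ((expLe_mI hn').comp Prod.fst)
    (inner_G hn hn' hf hf4 hΓ hZ) (fun c => innerG_totalDegree_lt _ _ _ (hf4 c.1))
    (inner_H hn hn' hf hf4 hΓ hZ)

theorem inner_D (hu : PTU u) (hn : PTU n) (hn' : PolyLe u n) (hf : CHEv u n f)
    (hf4 : ∀ b, (f b).totalDegree ≤ 4) (hΓ : CHMod u Γ) (hZ : CHMod u Z) :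
    CHMod (fun c : β × List ℕ => u c.1)
      (fun c => innerD (xhom (pt (n c.1) c.2)) (Γ c.1) (Z c.1) (f c.1)) :=
  CHMod.mnorm (m := fun c : β × List ℕ => mI (n c.1)) (hu.comp PTF.fst) (hn.comp PTF.fst)
    (hn'.comp Prod.fst) (ptf_mI (hn.comp PTF.fst)) ((expLe_mI hn').comp Prod.fst)
    (inner_G hn hn' hf hf4 hΓ hZ) (fun c => innerG_totalDegree_lt _ _ _ (hf4 c.1))
    (CHPoly.mjac (m := fun c : β × List ℕ => mI (n c.1)) (hn.comp PTF.fst)
      (hn'.comp Prod.fst) (ptf_mI (hn.comp PTF.fst)) ((expLe_mI hn').comp Prod.fst)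
      (inner_G hn hn' hf hf4 hΓ hZ) (fun c => innerG_totalDegree_lt _ _ _ (hf4 c.1)))

/-- **(K7)** the integers `N_s(x)` -/
theorem inner_N [hnz : ∀ b, NeZero (n b)] (hu : PTU u) (hn : PTU n) (hn' : PolyLe u n)
    (hf : CHEv u n f)
    (hf4 : ∀ b, (f b).totalDegree ≤ 4) (hΓ : CHMod u Γ) (hZ : CHMod u Z) {t : β → TPar}
    (hK : PTF (fun b => (t b).K)) (he : PTF (fun b => (t b).e))
    (hT0 : CHMod u (fun b => ((t b).T0 : ℤ))) (hB : PTF (fun b => (t b).B))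
    (hL : PTF (fun b => (t b).L)) (hK' : ExpLe u (fun b => (t b).K))
    (he' : ExpLe u (fun b => (t b).e)) {s : β → ℕ} (hs : PTF s) :
    CHMod (fun c : β × List ℕ => u c.1)
      (fun c => innerN (xhom (pt (n c.1) c.2)) (Γ c.1) (Z c.1) (t c.1) (f c.1) (s c.1)) := by
  have hg : PTF (fun c : β × List ℕ => c.1) := PTF.fst
  have hψ : CHPoly (fun d : (β × List ℕ) × ℕ => u d.1.1) (fun d => n d.1.1)
      (fun d => psiIn (xhom (pt (n d.1.1) d.1.2)) (Γ d.1.1) (Z d.1.1) (t d.1.1).T0 (f d.1.1)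
        d.2) := by
    have h1 := (inner_H hn hn' hf hf4 hΓ hZ).comp
      (g := fun d : (β × List ℕ) × ℕ => d.1) PTF.fst
    have h2 : CHMod (fun d : (β × List ℕ) × ℕ => u d.1.1) (fun d => ((t d.1.1).T0 : ℤ)) :=
      hT0.comp (g := fun d : (β × List ℕ) × ℕ => d.1.1) (by fun_prop)
    refine ((((CHPoly.intCast h2).mul h1).neg).sub CHPoly.one).of_eq fun d => ?_
    simp [psiIn]
  exact CHMod.mnorm (m := fun c : β × List ℕ => mI (n c.1)) (hu.comp hg) (hn.comp hg)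
    (hn'.comp Prod.fst) (ptf_mI (hn.comp hg)) ((expLe_mI hn').comp Prod.fst)
    (inner_G hn hn' hf hf4 hΓ hZ) (fun c => innerG_totalDegree_lt _ _ _ (hf4 c.1))
    (CHPoly.seedPolyS (m := fun c : β × List ℕ => mI (n c.1)) (t := fun c => t c.1)
      (N1 := fun _ => 1)
      (ψ := fun c => psiIn (xhom (pt (n c.1) c.2)) (Γ c.1) (Z c.1) (t c.1).T0 (f c.1))
      (hu.comp hg) (hn.comp hg) (hn'.comp Prod.fst) (ptf_mI (hn.comp hg))
      ((expLe_mI hn').comp Prod.fst) (inner_G hn hn' hf hf4 hΓ hZ)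
      (fun c => innerG_totalDegree_lt _ _ _ (hf4 c.1)) (hK.comp hg) (he.comp hg) (hT0.comp hg)
      (hB.comp hg) (hL.comp hg) (hK'.comp Prod.fst) (he'.comp Prod.fst) (PTF.const 1)
      (ExpLe.const 1) hψ (hs.comp hg))

end Crest.Agent.R316.CH
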