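import Crest.Agent.R316.CH.Digits
import Crest.Agent.R316.CH.Extract

/-!
# R316 / CH / PolyK : families of integer polynomials evaluable modulo all large primes
-/

set_option autoImplicit false

namespace Crest.Agent.R316.CH

open Crest.Agent.Lib.PT MvPolynomial

variable {α β γ : Type} [PTCode α] [PTCode β] [PTCode γ]

/-! ### univariate coefficient extraction -/

theorem CHMod.polyCoeff {u : β → ℕ} {P : β → Polynomial ℤ}
    (hP : CHMod (fun c : β × ℕ => u c.1) (fun c => (P c.1).eval (c.2 : ℤ)))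
    (hd : ExpLe u (fun b => (P b).natDegree)) {e : β → ℕ} (he : CHF e) (he' : ExpLe u e) :
    CHMod u (fun b => (P b).coeff (e b)) := by
  obtain ⟨p, F, hF, h⟩ := hP
  obtain ⟨d, hd⟩ := hd
  obtain ⟨d', hd'⟩ := he'
  have hq : CHF (fun c : β × ℕ => c.2) := CHF.of_ptf PTF.snd
  -- F' (b,q) = (q - (Σ_{k<q-1} F((b,k+1),q) * pmod (k+1) (q-1-e b) q) % q) 
  have h1 : CHF (fun c : (β × ℕ) × ℕ => F ((c.1.1, c.2 + 1), c.1.2) *
      R316.CH.pmod (c.2 + 1) (c.1.2 - 1 - e c.1.1) c.1.2) := by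
    refine (hF.comp (g := fun c : (β × ℕ) × ℕ => ((c.1.1, c.2 + 1), c.1.2)) (by fun_prop)).mul
      (CHF.pmod (CHF.of_ptf (by fun_prop)) ?_ (CHF.of_ptf (by fun_prop)))
    exact (CHF.of_ptf (by fun_prop)).sub (he.comp (by fun_prop))
  have h2 := CHF.sum h1 (b := fun c : β × ℕ => c.2 - 1) (CHF.of_ptf (by fun_prop))
  refine CHMod.intro (p + d + d' + 2)
    (F := fun c : β × ℕ => c.2 - (∑ k ∈ Finset.range (c.2 - 1), F ((c.1, k + 1), c.2) *
      R316.CH.pmod (k + 1) (c.2 - 1 - e c.1) c.2) % c.2) (hq.sub (h2.mod hq)) ?_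
  intro b q hqp hlt
  have := Fact.mk hqp
  simp only [Polynomial.eval_add, Polynomial.eval_ofNat] at hlt
  have hp' : 2 ^ p.eval (u b) < q := lt_of_le_of_lt (Nat.pow_le_pow_right (by norm_num) (by omega)) hlt
  have hlt1 : 2 ^ d.eval (u b) * 4 ≤ q - 1 := by
    have : 2 ^ d.eval (u b) * 4 ≤ 2 ^ (p.eval (u b) + d.eval (u b) + d'.eval (u b) + 2) := by
      rw [show (4 : ℕ) = 2 ^ 2 by norm_num, ← pow_add]
      exact Nat.pow_le_pow_right (by norm_num) (by omega)
    omega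
  have hlt2 : 2 ^ d'.eval (u b) * 4 ≤ q - 1 := by
    have : 2 ^ d'.eval (u b) * 4 ≤ 2 ^ (p.eval (u b) + d.eval (u b) + d'.eval (u b) + 2) := by
      rw [show (4 : ℕ) = 2 ^ 2 by norm_num, ← pow_add]
      exact Nat.pow_le_pow_right (by norm_num) (by omega)
    omega
  have hdeg : (P b).natDegree < q - 1 := by
    have h5 : (P b).natDegree ≤ 2 ^ d.eval (u b) := hd b
    have := Nat.two_pow_pos (d.eval (u b))
    omega
  have hee : e b < q - 1 := by
    have h5 : e b ≤ 2 ^ d'.eval (u b) := hd' b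
    have := Nat.two_pow_pos (d'.eval (u b))
    omega
  rw [polyCoeff_eq_sum_zmod (P b) hdeg (e b) hee]
  rw [Nat.cast_sub (Nat.mod_lt _ hqp.pos).le, ZMod.natCast_mod, ZMod.natCast_self, zero_sub]
  congr 1
  push_cast
  refine Finset.sum_congr rfl fun k _ => ?_
  have h3 := h (b, k + 1) q hqp hp'
  simp only at h3
  rw [h3, pmod_eq hqp.pos, ZMod.natCast_mod]
  push_cast
  ring

/-! ### integer points and multivariate coefficient extraction -/

/-- the point given by a list -/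
def pt (n : ℕ) (X : List ℕ) : Fin n → ℤ := fun i => ((X.getD i 0 : ℕ) : ℤ)

theorem pt_apply (n : ℕ) (X : List ℕ) (i : Fin n) : pt n X i = ((X.getD i 0 : ℕ) : ℤ) := rfl

/-- `CHPoly u n P` : the family `P b` of integer polynomials in `n b` variables can be evaluated
modulo all large primes in the counting hierarchy, and has at most exponential degree. -/
def CHPoly (u n : β → ℕ) (P : ∀ b, MvPolynomial (Fin (n b)) ℤ) : Prop :=
  CHMod (fun c : β × List ℕ => u c.1) (fun c => eval (pt (n c.1) c.2) (P c.1)) ∧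
    ExpLe u (fun b => (P b).totalDegree)

theorem CHPoly.of_eq {u n : β → ℕ} {P P' : ∀ b, MvPolynomial (Fin (n b)) ℤ}
    (hP : CHPoly u n P) (h : ∀ b, P b = P' b) : CHPoly u n P' := by
  have : P = P' := funext h
  rwa [← this]

theorem CHPoly.comp {u n : β → ℕ} {P : ∀ b, MvPolynomial (Fin (n b)) ℤ}
    (hP : CHPoly u n P) {g : γ → β} (hg : PTF g) :
    CHPoly (fun c => u (g c)) (fun c => n (g c)) (fun c => P (g c)) :=
  ⟨hP.1.comp (g := fun c : γ × List ℕ => (g c.1, c.2))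
    (PTF.prodMk (hg.comp PTF.fst) PTF.snd), hP.2.comp g⟩

/-- evaluation at a point which is itself `CHMod`... here: at a poly-time computable list -/
theorem CHPoly.evalList {u n : β → ℕ} {P : ∀ b, MvPolynomial (Fin (n b)) ℤ}
    (hP : CHPoly u n P) {X : β → List ℕ} (hX : PTF X) :
    CHMod u (fun b => eval (pt (n b) (X b)) (P b)) :=
  hP.1.comp (g := fun b : β => (b, X b)) (PTF.prodMk PTF.id hX)

theorem CHPoly.C {u n : β → ℕ} {W : β → ℤ} (hW : CHMod u W) :
    CHPoly u n (fun b => C (W b)) := by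
  refine ⟨(hW.comp (g := fun c : β × List ℕ => c.1) PTF.fst).of_eq fun c => by simp, ?_⟩
  refine (ExpLe.const 0).mono fun b => ?_
  rw [totalDegree_C]

theorem CHPoly.const {u n : β → ℕ} (W : ℤ) : CHPoly u n (fun _ => MvPolynomial.C W) :=
  CHPoly.C (CHMod.const W)

theorem CHPoly.intCast {u n : β → ℕ} {W : β → ℤ} (hW : CHMod u W) :
    CHPoly u n (fun b => ((W b : ℤ) : MvPolynomial (Fin (n b)) ℤ)) :=
  (CHPoly.C hW).of_eq fun b => by simp

theorem CHPoly.one {u n : β → ℕ} : CHPoly u n (fun _ => 1) :=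
  (CHPoly.const 1).of_eq fun b => by simp

theorem CHPoly.zero {u n : β → ℕ} : CHPoly u n (fun _ => 0) :=
  (CHPoly.const 0).of_eq fun b => by simp

theorem CHPoly.add {u n : β → ℕ} {P Q : ∀ b, MvPolynomial (Fin (n b)) ℤ}
    (hP : CHPoly u n P) (hQ : CHPoly u n Q) : CHPoly u n (fun b => P b + Q b) := by
  refine ⟨(hP.1.add hQ.1).of_eq fun c => by simp, (hP.2.max hQ.2).mono fun b => ?_⟩
  exact totalDegree_add _ _

theorem CHPoly.neg {u n : β → ℕ} {P : ∀ b, MvPolynomial (Fin (n b)) ℤ}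
    (hP : CHPoly u n P) : CHPoly u n (fun b => -P b) := by
  refine ⟨(hP.1.neg).of_eq fun c => by simp, hP.2.mono fun b => ?_⟩
  rw [totalDegree_neg]

theorem CHPoly.sub {u n : β → ℕ} {P Q : ∀ b, MvPolynomial (Fin (n b)) ℤ}
    (hP : CHPoly u n P) (hQ : CHPoly u n Q) : CHPoly u n (fun b => P b - Q b) :=
  (hP.add hQ.neg).of_eq fun b => by ring

theorem CHPoly.mul {u n : β → ℕ} {P Q : ∀ b, MvPolynomial (Fin (n b)) ℤ}
    (hP : CHPoly u n P) (hQ : CHPoly u n Q) : CHPoly u n (fun b => P b * Q b) := by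
  refine ⟨(hP.1.mul hQ.1).of_eq fun c => by simp, (hP.2.add hQ.2).mono fun b => ?_⟩
  exact totalDegree_mul _ _

theorem CHPoly.pow {u n : β → ℕ} {P : ∀ b, MvPolynomial (Fin (n b)) ℤ}
    (hP : CHPoly u n P) {e : β → ℕ} (he : CHF e) (he' : ExpLe u e) :
    CHPoly u n (fun b => P b ^ e b) := by
  refine ⟨(hP.1.pow (he.comp PTF.fst)).of_eq fun c => by simp, (he'.mul hP.2).mono fun b => ?_⟩
  exact totalDegree_pow _ _

theorem CHPoly.ite {u n : β → ℕ} {c : β → Prop} [DecidablePred c] (hc : CHPred c)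
    {P Q : ∀ b, MvPolynomial (Fin (n b)) ℤ}
    (hP : CHPoly u n P) (hQ : CHPoly u n Q) : CHPoly u n (fun b => if c b then P b else Q b) := by
  refine ⟨(CHMod.ite (P := fun x : β × List ℕ => c x.1) (hc.comp PTF.fst) hP.1 hQ.1).of_eq
    fun x => ?_, (hP.2.max hQ.2).mono fun b => ?_⟩
  · by_cases h : c x.1 <;> simp [h]
  · by_cases h : c b <;> simp [h]

/-- variables -/
theorem CHPoly.X {u n i : β → ℕ} (hi : PTF i) (hn : PTU n) :
    CHPoly u n (fun b => if h : i b < n b then X ⟨i b, h⟩ else 0) := by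
  refine ⟨?_, (ExpLe.const 1).mono fun b => ?_⟩
  · refine (CHMod.natCast (u := fun c : β × List ℕ => u c.1)
      (f := fun c : β × List ℕ => if i c.1 < n c.1 then c.2.getD (min (i c.1) (n c.1)) 0 else 0)
      ?_).of_eq fun c => ?_
    · refine CHF.ite (CHPred.of_ptpred (PTPred.natLt (hi.comp PTF.fst) (hn.toPTF.comp PTF.fst)))
        (CHF.of_ptf ?_) (CHF.const 0)
      exact PTF.getD (PTF.natMinUn (hi.comp PTF.fst) (hn.comp PTF.fst)) PTF.snd (PTF.const 0)
    · by_cases h : i c.1 < n c.1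
      · simp [h, pt, Nat.min_eq_left h.le]
      · simp [h]
  · by_cases h : i b < n b
    · simp [h]
    · simp [h]

/-- extension of a `Fin n`-indexed family by zero -/
def extF {n : ℕ} {R : Type*} [Zero R] (g : Fin n → R) (k : ℕ) : R :=
  if h : k < n then g ⟨k, h⟩ else 0

theorem extF_fin {n : ℕ} {R : Type*} [Zero R] (g : Fin n → R) (i : Fin n) : extF g i = g i := by
  simp [extF]

/-- `CHSys u n g` : the systems `g b : Fin (n b) → ℤ[X_1..X_(n b)]` can be evaluated modulo all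
large primes in the counting hierarchy, and have at most exponential degree -/
def CHSys (u n : β → ℕ) (g : ∀ b, Fin (n b) → MvPolynomial (Fin (n b)) ℤ) : Prop :=
  CHPoly (fun c : β × ℕ => u c.1) (fun c => n c.1) (fun c => extF (g c.1) c.2)

/-- exponentially long sums -/
theorem CHPoly.sum {u n : β → ℕ} {P : ∀ c : β × ℕ, MvPolynomial (Fin (n c.1)) ℤ}
    (hP : CHPoly (fun c : β × ℕ => u c.1) (fun c => n c.1) P) {m : β → ℕ} (hm : CHF m) :
    CHPoly u n (fun b => ∑ k ∈ Finset.range (m b), P (b, k)) := by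
  obtain ⟨h1, p, hp⟩ := hP
  refine ⟨?_, p, fun b => ?_⟩
  · refine (CHMod.sum (u := fun c : β × List ℕ => u c.1)
      (W := fun c : (β × List ℕ) × ℕ => eval (pt (n c.1.1) c.1.2) (P (c.1.1, c.2)))
      (h1.comp (g := fun c : (β × List ℕ) × ℕ => ((c.1.1, c.2), c.1.2)) (by fun_prop))
      (hm.comp PTF.fst)).of_eq fun c => ?_
    simp
  · have hp' : ∀ k, (P (b, k)).totalDegree ≤ 2 ^ p.eval (u b) := fun k => hp (b, k)
    exact (totalDegree_finsetSum _ _).trans (Finset.sup_le fun k _ => hp' k)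

/-- exponentially long products -/
theorem CHPoly.prod {u n : β → ℕ} {P : ∀ c : β × ℕ, MvPolynomial (Fin (n c.1)) ℤ}
    (hP : CHPoly (fun c : β × ℕ => u c.1) (fun c => n c.1) P) {m : β → ℕ} (hm : CHF m)
    (hm' : ExpLe u m) :
    CHPoly u n (fun b => ∏ k ∈ Finset.range (m b), P (b, k)) := by
  obtain ⟨h1, p, hp⟩ := hP
  refine ⟨?_, ?_⟩
  · refine (CHMod.prod (u := fun c : β × List ℕ => u c.1)
      (W := fun c : (β × List ℕ) × ℕ => eval (pt (n c.1.1) c.1.2) (P (c.1.1, c.2)))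
      (h1.comp (g := fun c : (β × List ℕ) × ℕ => ((c.1.1, c.2), c.1.2)) (by fun_prop))
      (hm.comp PTF.fst)).of_eq fun c => ?_
    simp
  · refine ((hm'.mul (ExpLe.two_pow (f := fun b => p.eval (u b)) ⟨p, fun b => le_rfl⟩))).mono
      fun b => ?_
    refine (totalDegree_finsetProd _ _).trans ?_
    have hp' : ∀ k, (P (b, k)).totalDegree ≤ 2 ^ p.eval (u b) := fun k => hp (b, k)
    refine (Finset.sum_le_card_nsmul _ _ _ fun k _ => hp' k).trans ?_
    simp

end Crest.Agent.R316.CH
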