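import Crest.Agent.R316.CH.PolyK
import Crest.Agent.R316.Alg.NewtonExp

/-!
# R316 / CH / PolyNm : norms of monic systems from traces (task K4)
-/

set_option autoImplicit false

namespace Crest.Agent.R316.CH

open Crest.Agent.Lib.PT MvPolynomial

variable {α β γ : Type} [PTCode α] [PTCode β] [PTCode γ]

/-- partial factorial products -/
theorem CHMod.prodIcc {u : β → ℕ} {j D : β → ℕ} (hj : CHF j) (hD : CHF D) :
    CHMod u (fun b => ∏ i ∈ Finset.Icc (j b + 1) (D b), (i : ℤ)) := by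
  have h := CHMod.prod (u := u) (W := fun x : β × ℕ => ((j x.1 + 1 + x.2 : ℕ) : ℤ))
    (CHMod.natCast (((hj.comp PTF.fst).add (CHF.const 1)).add (CHF.of_ptf PTF.snd))) (hD.sub hj)
  refine h.of_eq fun b => ?_
  have e : Finset.Icc (j b + 1) (D b) = Finset.Ico (j b + 1) (D b + 1) := by
    ext x
    simp only [Finset.mem_Icc, Finset.mem_Ico]
    omega
  rw [e, Finset.prod_Ico_eq_prod_range]
  rw [show D b + 1 - (j b + 1) = D b - j b by omega]

/-- factorial products with one factor omitted -/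
theorem CHMod.prodErase {u : β → ℕ} {k D : β → ℕ} (hk : CHF k) (hD : CHF D) :
    CHMod u (fun b => ∏ i ∈ (Finset.Icc 1 (D b)).erase (k b), (i : ℤ)) := by
  have hpred : CHPred (fun x : β × ℕ => x.2 + 1 = k x.1) :=
    CHPred.eq (CHF.of_ptf (by fun_prop)) (hk.comp PTF.fst)
  have h := CHMod.prod (u := u)
    (W := fun x : β × ℕ => if x.2 + 1 = k x.1 then (1 : ℤ) else ((x.2 + 1 : ℕ) : ℤ))
    (CHMod.ite (P := fun x : β × ℕ => x.2 + 1 = k x.1) hpred (CHMod.const 1)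
      (CHMod.natCast (CHF.of_ptf (by fun_prop)))) hD
  refine h.of_eq fun b => ?_
  have e : (Finset.Icc 1 (D b)).erase (k b) = (Finset.Icc 1 (D b)).filter (fun i => ¬ i = k b) := by
    ext x
    simp only [Finset.mem_erase, Finset.mem_Icc, Finset.mem_filter]
    tauto
  rw [e, Finset.prod_filter]
  have e2 : Finset.Icc 1 (D b) = Finset.Ico 1 (D b + 1) := by
    ext x
    simp only [Finset.mem_Icc, Finset.mem_Ico]
    omega
  rw [e2, Finset.prod_Ico_eq_prod_range]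
  rw [show D b + 1 - 1 = D b by omega]
  refine Finset.prod_congr rfl fun i _ => ?_
  rw [add_comm 1 i]
  by_cases h : i + 1 = k b
  · simp [h]
  · simp [h]

theorem natDegree_powerSumPoly_le (D : ℕ) (p : ℕ → ℤ) : (powerSumPoly D p).natDegree ≤ D := by
  unfold powerSumPoly
  refine Polynomial.natDegree_sum_le_of_forall_le _ _ fun k hk => ?_
  rw [Finset.mem_Icc] at hk
  exact (Polynomial.natDegree_C_mul_X_pow_le _ _).trans hk.2

theorem sum_Icc_one_eq (D : ℕ) (F : ℕ → ℤ) :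
    ∑ k ∈ Finset.Icc 1 D, F k = ∑ k ∈ Finset.range D, F (k + 1) := by
  have e2 : Finset.Icc 1 D = Finset.Ico 1 (D + 1) := by
    ext x
    simp only [Finset.mem_Icc, Finset.mem_Ico]
    omega
  rw [e2, Finset.sum_Ico_eq_sum_range, show D + 1 - 1 = D by omega]
  exact Finset.sum_congr rfl fun k _ => by rw [add_comm 1 k]

theorem eval_powerSumPoly (D : ℕ) (p : ℕ → ℤ) (x : ℤ) : (powerSumPoly D p).eval x =
    ∑ k ∈ Finset.range D,
      ((∏ i ∈ (Finset.Icc 1 D).erase (k + 1), (i : ℤ)) * p (k + 1)) * x ^ (k + 1) := by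
  unfold powerSumPoly
  rw [Polynomial.eval_finsetSum, sum_Icc_one_eq]
  refine Finset.sum_congr rfl fun k _ => ?_
  rw [Polynomial.eval_mul, Polynomial.eval_C, Polynomial.eval_pow, Polynomial.eval_X]

theorem CHMod.powerSumPoly_eval {u : β → ℕ} {D : β → ℕ} (hD : CHF D) {p : β × ℕ → ℤ}
    (hp : CHMod (fun c : β × ℕ => u c.1) p) :
    CHMod (fun c : β × ℕ => u c.1)
      (fun c => (powerSumPoly (D c.1) (fun k => p (c.1, k))).eval (c.2 : ℤ)) := by
  -- context ((b, x), k)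
  have h1 : CHMod (fun c : (β × ℕ) × ℕ => u c.1.1)
      (fun c : (β × ℕ) × ℕ => ((∏ i ∈ (Finset.Icc 1 (D c.1.1)).erase (c.2 + 1), (i : ℤ)) *
        p (c.1.1, c.2 + 1)) * ((c.1.2 : ℕ) : ℤ) ^ (c.2 + 1)) := by
    refine ((CHMod.prodErase (CHF.of_ptf (by fun_prop)) (hD.comp (by fun_prop))).mul
      (hp.comp (g := fun c : (β × ℕ) × ℕ => (c.1.1, c.2 + 1)) (by fun_prop))).mul
      ((CHMod.natCast (CHF.of_ptf (by fun_prop))).pow (CHF.of_ptf (by fun_prop)))
  refine (CHMod.sum h1 (hD.comp PTF.fst)).of_eq fun c => ?_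
  rw [eval_powerSumPoly]

theorem CHMod.powerSumPoly_coeff {u : β → ℕ} {D : β → ℕ} (hDp : PTF D) (hD' : ExpLe u D)
    {p : β × ℕ → ℤ} (hp : CHMod (fun c : β × ℕ => u c.1) p) :
    CHMod (fun c : β × ℕ => u c.1)
      (fun c => ((powerSumPoly (D c.1) (fun k => p (c.1, k))) ^ min c.2 (D c.1)).coeff
        (D c.1)) := by
  have hD : CHF D := CHF.of_ptf hDp
  have hSe := CHMod.powerSumPoly_eval (u := u) hD hp
  have hmin : CHF (fun c : β × ℕ => min c.2 (D c.1)) :=
    CHF.of_ptf (PTF.natMin PTF.snd (hDp.comp PTF.fst))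
  refine CHMod.polyCoeff (β := β × ℕ) (u := fun c : β × ℕ => u c.1)
    (P := fun c : β × ℕ => (powerSumPoly (D c.1) (fun k => p (c.1, k))) ^ min c.2 (D c.1))
    (e := fun c : β × ℕ => D c.1) ?_ ?_ (hD.comp PTF.fst) (hD'.comp Prod.fst)
  · refine ((hSe.comp (g := fun c : (β × ℕ) × ℕ => (c.1.1, c.2)) (by fun_prop)).pow
      (hmin.comp (g := fun c : (β × ℕ) × ℕ => c.1) (by fun_prop))).of_eq fun c => ?_
    simp
  · refine ((hD'.mul hD').comp (Prod.fst (β := ℕ))).mono fun c => ?_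
    refine Polynomial.natDegree_pow_le.trans ?_
    exact Nat.mul_le_mul (min_le_right _ _) (natDegree_powerSumPoly_le _ _)

theorem CHMod.newtonSum {u : β → ℕ} {D : β → ℕ} (hDp : PTF D) (hD' : ExpLe u D)
    {p : β × ℕ → ℤ} (hp : CHMod (fun c : β × ℕ => u c.1) p) :
    CHMod u (fun b => ∑ j ∈ Finset.range (D b + 1), (-1) ^ j *
      ((D b).factorial : ℤ) ^ (D b - j) * (∏ i ∈ Finset.Icc (j + 1) (D b), (i : ℤ)) *
        ((powerSumPoly (D b) (fun k => p (b, k))) ^ j).coeff (D b)) := by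
  have hD : CHF D := CHF.of_ptf hDp
  have hco := CHMod.powerSumPoly_coeff hDp hD' hp
  have hfac : CHMod u (fun b => ((D b).factorial : ℤ)) := CHMod.factorial hD
  have hj : CHF (fun c : β × ℕ => c.2) := CHF.of_ptf PTF.snd
  have h1 : CHMod (fun c : β × ℕ => u c.1) (fun c : β × ℕ => ((-1 : ℤ)) ^ c.2) :=
    (CHMod.const (-1)).pow hj
  have h2 : CHMod (fun c : β × ℕ => u c.1)
      (fun c : β × ℕ => ((D c.1).factorial : ℤ) ^ (D c.1 - c.2)) :=
    (hfac.comp PTF.fst).pow ((hD.comp PTF.fst).sub hj)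
  have h3 : CHMod (fun c : β × ℕ => u c.1)
      (fun c : β × ℕ => ∏ i ∈ Finset.Icc (c.2 + 1) (D c.1), (i : ℤ)) :=
    CHMod.prodIcc hj (hD.comp PTF.fst)
  have h4 := CHMod.sum (((h1.mul h2).mul h3).mul hco) (hD.add (CHF.const 1))
  refine h4.of_eq fun b => ?_
  refine Finset.sum_congr rfl fun j hj => ?_
  rw [Finset.mem_range] at hj
  simp only
  rw [min_eq_left (by omega : j ≤ D b)]

theorem powerSumPoly_congr {D : ℕ} {p p' : ℕ → ℤ} (h : ∀ k ≤ D, p k = p' k) :
    powerSumPoly D p = powerSumPoly D p' := by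
  unfold powerSumPoly
  refine Finset.sum_congr rfl fun k hk => ?_
  rw [Finset.mem_Icc] at hk
  rw [h k hk.2]

theorem CHMod.newton_div {u : β → ℕ} {D : β → ℕ} (hDp : PTF D) (hD' : ExpLe u D)
    {p : β × ℕ → ℤ} (hp : CHMod (fun c : β × ℕ => u c.1) p) {W : β → ℤ}
    (h : ∀ b, W b * (((D b).factorial : ℤ) ^ (D b) * (D b).factorial) =
      (-1) ^ (D b) * ∑ j ∈ Finset.range (D b + 1), (-1) ^ j *
      ((D b).factorial : ℤ) ^ (D b - j) * (∏ i ∈ Finset.Icc (j + 1) (D b), (i : ℤ)) *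
        ((powerSumPoly (D b) (fun k => p (b, k))) ^ j).coeff (D b)) :
    CHMod u W := by
  have hD : CHF D := CHF.of_ptf hDp
  have hfac : CHMod u (fun b => ((D b).factorial : ℤ)) := CHMod.factorial hD
  refine CHMod.div (((CHMod.const (-1)).pow hD).mul (CHMod.newtonSum hDp hD' hp))
    ((hfac.pow hD).mul hfac) h ?_
  obtain ⟨p, hp⟩ := hD'
  refine ⟨p, fun b q hq hlt hdvd => ?_⟩
  have h1 : D b < q := (hp b).trans_lt hlt
  have hq' : Prime (q : ℤ) := Nat.prime_iff_prime_int.1 hq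
  have h2 : (q : ℤ) ∣ ((D b).factorial : ℤ) := by
    rcases hq'.dvd_or_dvd hdvd with h | h
    · exact hq'.dvd_of_dvd_pow h
    · exact h
  have h3 : q ∣ (D b).factorial := by exact_mod_cast h2
  have h4 := (hq.dvd_factorial).1 h3
  omega

/-- norms from traces -/
theorem CHMod.mnorm_of_traces {u n m : β → ℕ} (hn : PTU n) (hn' : PolyLe u n) (hm : PTF m)
    (hm' : ExpLe u m)
    {g : ∀ b, Fin (n b) → MvPolynomial (Fin (n b)) ℤ}
    (hdeg : ∀ b i, (g b i).totalDegree < m b)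
    {G : ∀ b, MvPolynomial (Fin (n b)) ℤ}
    (htr : CHMod (fun c : β × ℕ => u c.1)
      (fun c => R316.mtrace (m c.1) (g c.1) (G c.1 ^ min c.2 (m c.1 ^ n c.1)))) :
    CHMod u (fun b => R316.mnorm (m b) (g b) (G b)) := by
  refine CHMod.newton_div (D := fun b => m b ^ n b) (PTF.natPow hm hn) (hm'.pow hn') htr
    fun b => ?_
  rw [mnorm_from_traces (hdeg b) (G b) (m b ^ n b) rfl]
  rw [powerSumPoly_congr (p := fun k => R316.mtrace (m b) (g b) (G b ^ k))
    (p' := fun k => R316.mtrace (m b) (g b) (G b ^ min k (m b ^ n b)))]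
  intro k hk
  rw [min_eq_left hk]

end Crest.Agent.R316.CH
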