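import Crest.Agent.R316.CH.PolyTr
import Crest.Agent.R316.Alg.NewtonExp
import Crest.Agent.R316.CH.PolyNm

/-!
# R316 / CH / PolyNorm : traces and norms of monic systems (task K4; K3 `CHMod.mtrace` is in PolyTr)
-/

set_option autoImplicit false

namespace Crest.Agent.R316.CH

open Crest.Agent.Lib.PT MvPolynomial

variable {α β γ : Type} [PTCode α] [PTCode β] [PTCode γ]

/-- **(K4)** norms: `mnorm_from_traces`, `CHMod.polyCoeff`, `CHMod.div`; clamp `k` by `D` in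
`G ^ k`. -/
theorem CHMod.mnorm {u n m : β → ℕ} (hu : PTU u) (hn : PTU n) (hn' : PolyLe u n) (hm : PTF m)
    (hm' : ExpLe u m)
    {g : ∀ b, Fin (n b) → MvPolynomial (Fin (n b)) ℤ} (hg : CHSys u n g)
    (hdeg : ∀ b i, (g b i).totalDegree < m b)
    {G : ∀ b, MvPolynomial (Fin (n b)) ℤ} (hG : CHPoly u n G) :
    CHMod u (fun b => R316.mnorm (m b) (g b) (G b)) := by
  refine CHMod.mnorm_of_traces hn hn' hm hm' hdeg ?_
  have hg' : CHSys (fun c : β × ℕ => u c.1) (fun c => n c.1) (fun c => g c.1) :=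
    CHPoly.comp (β := β × ℕ) (γ := (β × ℕ) × ℕ) (g := fun c : (β × ℕ) × ℕ => (c.1.1, c.2)) hg
      (by fun_prop)
  have hD : CHF (fun c : β × ℕ => min c.2 (m c.1 ^ n c.1)) :=
    CHF.of_ptf (PTF.natMin PTF.snd ((PTF.natPow hm hn).comp PTF.fst))
  have hD' : ExpLe (fun c : β × ℕ => u c.1) (fun c : β × ℕ => min c.2 (m c.1 ^ n c.1)) :=
    ((hm'.pow hn').comp (Prod.fst (β := ℕ))).mono fun c => min_le_right _ _
  have hG' : CHPoly (fun c : β × ℕ => u c.1) (fun c => n c.1)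
      (fun c => G c.1 ^ min c.2 (m c.1 ^ n c.1)) :=
    CHPoly.pow (CHPoly.comp (g := fun c : β × ℕ => c.1) hG PTF.fst) hD hD'
  exact CHMod.mtrace (β := β × ℕ) (u := fun c => u c.1) (n := fun c => n c.1)
    (m := fun c => m c.1) (hu.comp PTF.fst) (hn.comp PTF.fst) (hn'.comp Prod.fst)
    (hm.comp PTF.fst) (hm'.comp Prod.fst) (g := fun c => g c.1) hg' (fun c => hdeg c.1) hG'

end Crest.Agent.R316.CH
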