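import Crest.Agent.R316.CH.PolyIn

/-!
# R316 / CH / PolyOut : the outer system in the counting hierarchy (task K8)
-/

set_option autoImplicit false

namespace Crest.Agent.R316.CH

open Crest.Agent.Lib.PT MvPolynomial

variable {α β γ : Type} [PTCode α] [PTCode β] [PTCode γ]

variable {u n M : β → ℕ} {f : ∀ b, Zxy (n b)} {p : β → Fin 5 → ℤ}

/-- squared norm of the evaluation point -/
theorem chmod_sum_sq (hn : PTU n) :
    CHMod (fun c : β × List ℕ => u c.1) (fun c => ∑ i, pt (n c.1) c.2 i ^ 2) := by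
  refine CHMod.sum_fin (u := fun c : β × List ℕ => u c.1) (n := fun c : β × List ℕ => n c.1)
    (CHF.of_ptf (hn.toPTF.comp PTF.fst)) (W := fun c i => pt (n c.1) c.2 i ^ 2) ?_
  refine (CHMod.natCast (f := fun x : (β × List ℕ) × ℕ => if x.2 < n x.1.1 then
    x.1.2.getD (min x.2 (n x.1.1)) 0 ^ 2 else 0) ?_).of_eq fun x => ?_
  · refine CHF.ite (CHPred.of_ptpred (PTPred.natLt (by fun_prop) (hn.toPTF.comp (by fun_prop))))
      (CHF.of_ptf ?_) (CHF.const 0)
    refine PTF.natPowConst (PTF.getD (PTF.natMinUn (by fun_prop) (hn.comp (by fun_prop)))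
      (by fun_prop) (PTF.const 0)) 2
  · by_cases h : x.2 < n x.1.1
    · simp [h, pt, Nat.min_eq_left h.le]
    · simp [h]

theorem outer_Q (hu : PTU u) (hn : PTU n) (hn' : PolyLe u n) (hf : CHEv u n f)
    (hf4 : ∀ b, (f b).totalDegree ≤ 4) (hp : ∀ i, CHMod u (fun b => p b i)) (hM' : ExpLe u M)
    (hQ : ∀ b, (outQ (f b)).totalDegree < M b) :
    CHPoly u n (fun b => QO (p b) (f b)) := by
  refine ⟨?_, hM'.mono fun b => ?_⟩
  · have hV := inner_V hu hn hn' hf hf4 (hp 1) (hp 2)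
    have hD := inner_D hu hn hn' hf hf4 (hp 1) (hp 2)
    have h0 : CHMod (fun c : β × List ℕ => u c.1) (fun c => p c.1 0 ^ 2) :=
      ((hp 0).comp (g := fun c : β × List ℕ => c.1) PTF.fst).pow (CHF.const 2)
    refine (((h0.sub (chmod_sum_sq hn)).mul hV).mul hD).of_eq fun c => ?_
    rw [eval_QO _ _ (hf4 c.1)]
  · exact (Finset.sup_mono (support_map_subset _ _)).trans (hQ b).le

theorem outer_G (hu : PTU u) (hn : PTU n) (hn' : PolyLe u n) (hf : CHEv u n f)
    (hf4 : ∀ b, (f b).totalDegree ≤ 4) (hp : ∀ i, CHMod u (fun b => p b i)) (hM' : ExpLe u M)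
    (hQ : ∀ b, (outQ (f b)).totalDegree < M b) :
    CHSys u n (fun b => gO (p b) (f b)) := by
  have hQO := outer_Q hu hn hn' hf hf4 hp hM' hQ
  have h2 : CHPoly (fun c : β × ℕ => u c.1) (fun c => n c.1)
      (fun c => QO (p c.1) (f c.1) ^ 2) :=
    (hQO.comp (g := fun c : β × ℕ => c.1) PTF.fst).pow (e := fun _ => 2) (CHF.const 2)
      (ExpLe.const 2)
  have h3 := CHPoly.pderiv (n := fun c : β × ℕ => n c.1) (j := fun c : β × ℕ => c.2)
    (hn.comp PTF.fst) PTF.snd h2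
  have h43 : CHPoly (fun c : β × ℕ => u c.1) (fun c => n c.1)
      (fun c => C (p c.1 4 * p c.1 3)) :=
    CHPoly.C (((hp 4).mul (hp 3)).comp (g := fun c : β × ℕ => c.1) PTF.fst)
  have h4 : CHPoly (fun c : β × ℕ => u c.1) (fun c => n c.1) (fun c => C (p c.1 4)) :=
    CHPoly.C ((hp 4).comp (g := fun c : β × ℕ => c.1) PTF.fst)
  have hlt : CHPred (fun c : β × ℕ => c.2 < n c.1) :=
    CHPred.of_ptpred (PTPred.natLt PTF.snd (hn.toPTF.comp PTF.fst))
  refine (CHPoly.ite (c := fun c : β × ℕ => c.2 < n c.1) hlt ((h43.mul h3).sub h4)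
    CHPoly.zero).of_eq fun c => ?_
  by_cases h : c.2 < n c.1
  · simp only [h, if_true, dif_pos, extF, gO_eq]
  · simp only [h, if_false, extF, dif_neg, not_false_iff]

theorem ptf_nOut {t : β → TPar} (hn : PTU n) (hB : PTF (fun b => (t b).B))
    (hL : PTF (fun b => (t b).L)) : PTF (fun b => nOut (n b) (t b)) := by
  unfold nOut nSeeds
  have h1 : PTF (fun b => mI (n b) ^ n b) := PTF.natPow (ptf_mI hn) hn
  fun_prop

theorem expLe_nOut {t : β → TPar} (hn' : PolyLe u n) (hB' : ExpLe u (fun b => (t b).B))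
    (hL' : ExpLe u (fun b => (t b).L)) : ExpLe u (fun b => nOut (n b) (t b)) := by
  unfold nOut nSeeds
  exact (ExpLe.const 1).add ((((((ExpLe.const 2).mul hB').pow (PolyLe.const 2))).mul hL').mul
    (((expLe_mI hn').pow hn').add (ExpLe.const 1)))

/-- the property polynomials; their degree bound is the hypothesis `hd` (C11b) -/
theorem outer_psi [hnz : ∀ b, NeZero (n b)] (hu : PTU u) (hn : PTU n) (hn' : PolyLe u n)
    (hf : CHEv u n f)
    (hf4 : ∀ b, (f b).totalDegree ≤ 4) (hp : ∀ i, CHMod u (fun b => p b i)) {t t' : β → TPar}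
    (hK : PTF (fun b => (t b).K)) (he : PTF (fun b => (t b).e))
    (hT0 : CHMod u (fun b => ((t b).T0 : ℤ))) (hB : PTF (fun b => (t b).B))
    (hL : PTF (fun b => (t b).L)) (hK' : ExpLe u (fun b => (t b).K))
    (he' : ExpLe u (fun b => (t b).e))
    (hT0' : CHMod u (fun b => ((t' b).T0 : ℤ)))
    (hd : ExpLe (fun c : β × ℕ => u c.1)
      (fun c => (psiOut (p c.1) (t c.1) (t' c.1) (f c.1) c.2).totalDegree)) :
    CHPoly (fun c : β × ℕ => u c.1) (fun c => n c.1)
      (fun c => psiOut (p c.1) (t c.1) (t' c.1) (f c.1) c.2) := by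
  refine ⟨?_, hd⟩
  -- context `((b, k), X)`
  have hfst : PTF (fun c : β × ℕ => c.1) := PTF.fst
  have hfc : CHEv (fun c : β × ℕ => u c.1) (fun c => n c.1) (fun c => f c.1) :=
    CHMod.comp (g := fun x : ((β × ℕ) × List ℕ) × List ℕ => ((x.1.1.1, x.1.2), x.2)) hf
      (by fun_prop)
  have hN := inner_N (β := β × ℕ) (u := fun c => u c.1) (n := fun c => n c.1)
    (f := fun c => f c.1) (Γ := fun c => p c.1 1) (Z := fun c => p c.1 2) (t := fun c => t c.1)
    (s := fun c => c.2 - 1) (hnz := fun c => hnz c.1)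
    (hu.comp PTF.fst) (hn.comp PTF.fst) (hn'.comp _) hfc (fun c => hf4 c.1)
    ((hp 1).comp hfst) ((hp 2).comp hfst) (hK.comp hfst) (he.comp hfst) (hT0.comp hfst)
    (hB.comp hfst) (hL.comp hfst) (hK'.comp _) (he'.comp _) (by fun_prop)
  have hg : PTF (fun x : (β × ℕ) × List ℕ => x.1.1) := by fun_prop
  have hT : CHMod (fun x : (β × ℕ) × List ℕ => u x.1.1) (fun x => ((t' x.1.1).T0 : ℤ)) :=
    hT0'.comp hg
  have h0 : CHMod (fun x : (β × ℕ) × List ℕ => u x.1.1) (fun x => p x.1.1 0 ^ 2) :=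
    ((hp 0).comp hg).pow (CHF.const 2)
  have hS : CHMod (fun x : (β × ℕ) × List ℕ => u x.1.1)
      (fun x => ∑ i, pt (n x.1.1) x.2 i ^ 2) :=
    (chmod_sum_sq (u := u) hn).comp (g := fun x : (β × ℕ) × List ℕ => (x.1.1, x.2)) (by fun_prop)
  refine (CHMod.ite (P := fun x : (β × ℕ) × List ℕ => x.1.2 = 0)
    (CHPred.of_ptpred (PTPred.natEq (by fun_prop) (by fun_prop)))
    ((hT.mul (h0.sub hS)).sub (CHMod.const 1)) ((hT.mul hN).add (CHMod.const 1))).of_eq
    fun x => ?_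
  unfold psiOut
  by_cases h : x.1.2 = 0
  · simp only [h, if_true, map_sub, map_mul, map_natCast, map_one, map_sum, map_pow, eval_C,
      eval_X]
  · simp only [h, if_false, map_add, map_mul, map_natCast, map_one]
    congr 2
    rw [map_innerN _ _ _ _ _ (hf4 x.1.1)]
    have e1 : (eval (pt (n x.1.1) x.2)).comp (RingHom.id (Zx (n x.1.1))) =
        xhom (pt (n x.1.1) x.2) := by
      ext i
      · simp
      · simp
    rw [e1, eval_C, eval_C]

/-- **(K8)** the final integers -/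
theorem outer_W [hnz : ∀ b, NeZero (n b)] (hu : PTU u) (hn : PTU n) (hn' : PolyLe u n)
    (hf : CHEv u n f)
    (hf4 : ∀ b, (f b).totalDegree ≤ 4) (hp : ∀ i, CHMod u (fun b => p b i)) (hM : PTF M)
    (hM' : ExpLe u M) (hQ : ∀ b, (outQ (f b)).totalDegree < M b) {t t' : β → TPar}
    (hK : PTF (fun b => (t b).K)) (he : PTF (fun b => (t b).e))
    (hT0 : CHMod u (fun b => ((t b).T0 : ℤ))) (hB : PTF (fun b => (t b).B))
    (hL : PTF (fun b => (t b).L)) (hK' : ExpLe u (fun b => (t b).K))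
    (he' : ExpLe u (fun b => (t b).e)) (hB' : ExpLe u (fun b => (t b).B))
    (hL' : ExpLe u (fun b => (t b).L))
    (hK2 : PTF (fun b => (t' b).K)) (he2 : PTF (fun b => (t' b).e))
    (hT02 : CHMod u (fun b => ((t' b).T0 : ℤ))) (hB2 : PTF (fun b => (t' b).B))
    (hL2 : PTF (fun b => (t' b).L)) (hK2' : ExpLe u (fun b => (t' b).K))
    (he2' : ExpLe u (fun b => (t' b).e))
    (hd : ExpLe (fun c : β × ℕ => u c.1)
      (fun c => (psiOut (p c.1) (t c.1) (t' c.1) (f c.1) c.2).totalDegree)) :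
    CHMod (fun c : β × ℕ => u c.1)
      (fun c => finalW (M c.1) (p c.1) (t c.1) (t' c.1) (f c.1) c.2) := by
  have hfst : PTF (fun c : β × ℕ => c.1) := PTF.fst
  have hG := outer_G hu hn hn' hf hf4 hp hM' hQ
  have hψ := outer_psi hu hn hn' hf hf4 hp hK he hT0 hB hL hK' he' hT02 hd
  have hm : PTF (fun c : β × ℕ => 2 * M c.1 - 1) := by
    have := hM.comp hfst
    fun_prop
  have hm' : ExpLe (fun c : β × ℕ => u c.1) (fun c => 2 * M c.1 - 1) :=
    (((ExpLe.const 2).mul hM').mono fun b => Nat.sub_le _ _).comp _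
  have hGc : CHSys (fun c : β × ℕ => u c.1) (fun c => n c.1)
      (fun c => gO (p c.1) (f c.1)) :=
    CHPoly.comp (g := fun d : (β × ℕ) × ℕ => (d.1.1, d.2)) hG (by fun_prop)
  have hdeg : ∀ (c : β × ℕ) (i : Fin (n c.1)),
      (gO (p c.1) (f c.1) i).totalDegree < 2 * M c.1 - 1 :=
    fun c i => gO_totalDegree_lt (p c.1) (hQ c.1) i
  have hψc : CHPoly (fun d : (β × ℕ) × ℕ => u d.1.1) (fun d => n d.1.1)
      (fun d => psiOut (p d.1.1) (t d.1.1) (t' d.1.1) (f d.1.1) d.2) :=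
    CHPoly.comp (g := fun d : (β × ℕ) × ℕ => (d.1.1, d.2)) hψ (by fun_prop)
  have hN1 : PTF (fun c : β × ℕ => nOut (n c.1) (t c.1)) := (ptf_nOut hn hB hL).comp hfst
  have hN1' : ExpLe (fun c : β × ℕ => u c.1) (fun c => nOut (n c.1) (t c.1)) :=
    (expLe_nOut hn' hB' hL').comp _
  have hS := CHPoly.seedPolyS (β := β × ℕ) (u := fun c => u c.1) (n := fun c => n c.1)
    (m := fun c => 2 * M c.1 - 1) (hnz := fun c => hnz c.1)
    (hu.comp PTF.fst) (hn.comp PTF.fst) (hn'.comp _) hm hm' hGc hdeg (t := fun c => t' c.1)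
    (hK2.comp hfst) (he2.comp hfst) (hT02.comp hfst) (hB2.comp hfst) (hL2.comp hfst)
    (hK2'.comp _) (he2'.comp _) (N1 := fun c => nOut (n c.1) (t c.1)) hN1 hN1'
    (ψ := fun c => psiOut (p c.1) (t c.1) (t' c.1) (f c.1)) hψc (s := fun c => c.2) PTF.snd
  exact CHMod.mnorm (β := β × ℕ) (u := fun c => u c.1) (n := fun c => n c.1)
    (hu.comp PTF.fst) (hn.comp PTF.fst) (hn'.comp _) hm hm' hGc hdeg hS

end Crest.Agent.R316.CH
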