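import Crest.Agent.R316.CH.PolyK
import Crest.Agent.R316.Ana.Deriv

/-!
# R316 / CH / PolyPd : partial derivatives of CH-evaluable polynomials (task K2a)
-/

set_option autoImplicit false

namespace Crest.Agent.R316.CH

open Crest.Agent.Lib.PT MvPolynomial

variable {α β γ : Type} [PTCode α] [PTCode β] [PTCode γ]

/-- the list of the point shifted by `k + 1` in direction `j` -/
def shiftL (n j : ℕ) (X : List ℕ) (k : ℕ) : List ℕ :=
  (List.range n).map fun i => if i = j then X.getD (min i n) 0 + (k + 1) else X.getD (min i n) 0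

theorem pt_shiftL {n : ℕ} (j : Fin n) (X : List ℕ) (k : ℕ) :
    pt n (shiftL n j X k) = Function.update (pt n X) j (pt n X j + (k + 1)) := by
  funext i
  have hi : (i : ℕ) < n := i.2
  rw [pt_apply, shiftL, List.getD_eq_getElem?_getD, List.getElem?_map, List.getElem?_range hi]
  simp only [Option.map_some, Option.getD_some]
  by_cases h : i = j
  · subst h
    simp [pt]
  · have h' : (i : ℕ) ≠ j := fun h' => h (Fin.ext h')
    rw [if_neg h', Function.update_of_ne h, pt_apply, Nat.min_eq_left hi.le]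

theorem ptf_shiftL {n j : β → ℕ} {X : β → List ℕ} {k : β → ℕ} (hn : PTU n) (hj : PTF j)
    (hX : PTF X) (hk : PTF k) : PTF (fun b => shiftL (n b) (j b) (X b) (k b)) := by
  unfold shiftL
  refine PTF.tabulate hn ?_
  have h1 : PTF (fun q : β × ℕ => (X q.1).getD (min q.2 (n q.1)) 0) :=
    PTF.getD (PTF.natMinUn PTF.snd (hn.comp PTF.fst)) (hX.comp PTF.fst) (PTF.const 0)
  have h2 : PTF (fun q : β × ℕ => (X q.1).getD (min q.2 (n q.1)) 0 + (k q.1 + 1)) :=
    PTF.natAdd h1 (PTF.natAdd (hk.comp PTF.fst) (PTF.const 1))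
  refine PTF.ite ?_ h2 h1
  exact PTPred.natEq PTF.snd (hj.comp PTF.fst)

/-- partial derivatives -/
theorem CHPoly.pderiv {u n j : β → ℕ} (hn : PTU n) (hj : PTF j)
    {P : ∀ b, MvPolynomial (Fin (n b)) ℤ} (hP : CHPoly u n P) :
    CHPoly u n (fun b => if h : j b < n b then MvPolynomial.pderiv ⟨j b, h⟩ (P b) else 0) := by
  obtain ⟨⟨p, F, hF, h⟩, d, hd⟩ := hP
  refine ⟨?_, d, fun b => ?_⟩
  · have hq : CHF (fun c : (β × List ℕ) × ℕ => c.2) := CHF.of_ptf PTF.snd
    have hjlt : CHPred (fun c : (β × List ℕ) × ℕ => j c.1.1 < n c.1.1) :=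
      CHPred.of_ptpred (PTPred.natLt (hj.comp (by fun_prop)) (hn.toPTF.comp (by fun_prop)))
    have h1 : CHF (fun c : ((β × List ℕ) × ℕ) × ℕ =>
        F ((c.1.1.1, shiftL (n c.1.1.1) (j c.1.1.1) c.1.1.2 c.2), c.1.2) *
        R316.CH.pmod (c.2 + 1) (c.1.2 - 1 - 1) c.1.2) := by
      refine (hF.comp (g := fun c : ((β × List ℕ) × ℕ) × ℕ =>
        ((c.1.1.1, shiftL (n c.1.1.1) (j c.1.1.1) c.1.1.2 c.2), c.1.2)) ?_).mul
        (CHF.pmod (CHF.of_ptf (by fun_prop)) ?_ (CHF.of_ptf (by fun_prop)))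
      · have h3 : PTF (fun c : ((β × List ℕ) × ℕ) × ℕ => c.1.1.1) := by fun_prop
        have h4 : PTF (fun c : ((β × List ℕ) × ℕ) × ℕ => c.1.1.2) := by fun_prop
        have h5 := ptf_shiftL (hn.comp h3) (hj.comp h3) h4
          (k := fun c : ((β × List ℕ) × ℕ) × ℕ => c.2) PTF.snd
        exact PTF.prodMk (PTF.prodMk h3 h5) (by fun_prop)
      · exact ((CHF.of_ptf (by fun_prop)).sub (CHF.const 1)).sub (CHF.const 1)
    have h2 := CHF.sum h1 (b := fun c : (β × List ℕ) × ℕ => c.2 - 1)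
      ((CHF.of_ptf PTF.snd).sub (CHF.const 1))
    refine CHMod.intro (p + d + 2)
      (F := fun c : (β × List ℕ) × ℕ => if j c.1.1 < n c.1.1 then
        c.2 - (∑ k ∈ Finset.range (c.2 - 1),
          F ((c.1.1, shiftL (n c.1.1) (j c.1.1) c.1.2 k), c.2) *
          R316.CH.pmod (k + 1) (c.2 - 1 - 1) c.2) % c.2 else 0)
      (CHF.ite hjlt (hq.sub (h2.mod hq)) (CHF.const 0)) ?_
    rintro ⟨b, X⟩ q hqp hlt
    simp only
    by_cases hjn : j b < n b
    swap
    · simp [hjn]
    rw [if_pos hjn, dif_pos hjn]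
    have := Fact.mk hqp
    simp only [Polynomial.eval_add, Polynomial.eval_ofNat] at hlt
    have hp' : 2 ^ p.eval (u b) < q :=
      lt_of_le_of_lt (Nat.pow_le_pow_right (by norm_num) (by omega)) hlt
    have hlt1 : 2 ^ d.eval (u b) * 4 < q := by
      have : 2 ^ d.eval (u b) * 4 ≤ 2 ^ (p.eval (u b) + d.eval (u b) + 2) := by
        rw [show (4 : ℕ) = 2 ^ 2 by norm_num, ← pow_add]
        exact Nat.pow_le_pow_right (by norm_num) (by omega)
      omega
    have hpos := Nat.two_pow_pos (d.eval (u b))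
    have hdeg : (P b).totalDegree < q - 1 := by
      have h5 : (P b).totalDegree ≤ 2 ^ d.eval (u b) := hd b
      omega
    rw [pderiv_eq_sum_zmod (by omega) (P b) hdeg]
    rw [Nat.cast_sub (Nat.mod_lt _ hqp.pos).le, ZMod.natCast_mod, ZMod.natCast_self, zero_sub]
    congr 1
    push_cast
    refine Finset.sum_congr rfl fun k _ => ?_
    have h3 := h (b, shiftL (n b) (j b) X k) q hqp hp'
    simp only at h3
    rw [h3, pmod_eq hqp.pos, ZMod.natCast_mod, ← pt_shiftL ⟨j b, hjn⟩ X k]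
    push_cast
    ring
  · simp only
    by_cases hjn : j b < n b
    · rw [dif_pos hjn]
      exact (totalDegree_pderiv_le_D _ _).trans (hd b)
    · simp [hjn]

end Crest.Agent.R316.CH
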