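import Crest.Agent.R316.CH.PolyThom
import Crest.Agent.R316.Ana.Spec

/-!
# R316 / CH / PolySeed : the test polynomials (task K6)
-/

set_option autoImplicit false

namespace Crest.Agent.R316.CH

open Crest.Agent.Lib.PT MvPolynomial

variable {α β γ : Type} [PTCode α] [PTCode β] [PTCode γ]

theorem CHMod.sgP {u : β → ℕ} {K e : β → ℕ} (hK : CHF K) (he : CHF e) {t : β → ℤ}
    (ht : CHMod u t) : CHMod u (fun b => R316.sgP (K b) (e b) (t b)) := by
  unfold R316.sgP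
  refine CHMod.prod (u := u) (W := fun x : β × ℕ => (t x.1 + 2 ^ x.2) ^ e x.1) ?_
    (hK.add (CHF.const 1))
  refine CHMod.pow ?_ (he.comp PTF.fst)
  exact (ht.comp PTF.fst).add ((CHMod.const 2).pow (CHF.of_ptf PTF.snd))

theorem CHMod.sgQ {u : β → ℕ} {K e : β → ℕ} (hK : CHF K) (he : CHF e) {t : β → ℤ}
    (ht : CHMod u t) : CHMod u (fun b => R316.sgQ (K b) (e b) (t b)) := by
  unfold R316.sgQ
  exact (CHMod.sgP hK he ht).add (CHMod.sgP hK he ht.neg)

theorem CHMod.testDen {u : β → ℕ} {K e N : β → ℕ} (hK : CHF K) (he : CHF e) (hN : CHF N)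
    {G : β → ℕ → ℤ} (hG : CHMod (fun x : β × ℕ => u x.1) (fun x => G x.1 x.2)) :
    CHMod u (fun b => R316.testDen (K b) (e b) (N b) (G b)) := by
  unfold R316.testDen
  exact CHMod.prod (u := u)
    (W := fun x : β × ℕ => R316.sgQ (K x.1) (e x.1) (G x.1 x.2))
    (CHMod.sgQ (hK.comp PTF.fst) (he.comp PTF.fst) hG) hN

theorem prod_erase_eq {A : Type*} [CommRing A] (N k : ℕ) (f : ℕ → A) :
    ∏ j ∈ (Finset.range N).erase k, f j =
      ∏ j ∈ Finset.range N, (if j = k then 1 else f j) := by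
  rw [← Finset.prod_erase (Finset.range N) (f := fun j => if j = k then 1 else f j) (a := k)
    (by simp)]
  refine Finset.prod_congr rfl fun j hj => ?_
  rw [if_neg (Finset.ne_of_mem_erase hj)]

theorem CHMod.testNum {u : β → ℕ} {K e N v : β → ℕ} (hK : CHF K) (he : CHF e) (hN : CHF N)
    (hv : CHF v) {w : β → ℕ → ℕ} (hw : CHF (fun x : β × ℕ => w x.1 x.2))
    {G : β → ℕ → ℤ} (hG : CHMod (fun x : β × ℕ => u x.1) (fun x => G x.1 x.2)) :
    CHMod u (fun b => R316.testNum (K b) (e b) (N b) (w b) (v b) (G b)) := by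
  unfold R316.testNum
  refine CHMod.sub ?_ ((CHMod.natCast hv).mul (CHMod.testDen hK he hN hG))
  refine CHMod.sum (u := u) (W := fun x : β × ℕ => (w x.1 x.2 : ℤ) *
      R316.sgP (K x.1) (e x.1) (-(G x.1 x.2)) *
      ∏ j ∈ (Finset.range (N x.1)).erase x.2, R316.sgQ (K x.1) (e x.1) (G x.1 j)) ?_ hN
  refine ((CHMod.natCast hw).mul (CHMod.sgP (hK.comp PTF.fst) (he.comp PTF.fst) hG.neg)).mul ?_
  simp only [prod_erase_eq]
  refine CHMod.prod (u := fun x : β × ℕ => u x.1) (W := fun x : (β × ℕ) × ℕ =>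
    if x.2 = x.1.2 then 1 else R316.sgQ (K x.1.1) (e x.1.1) (G x.1.1 x.2)) ?_ (hN.comp PTF.fst)
  refine CHMod.ite ?_ (CHMod.const 1) (CHMod.sgQ (hK.comp (PTF.fst.comp PTF.fst))
    (he.comp (PTF.fst.comp PTF.fst)) ?_)
  · exact CHPred.of_ptpred (PTPred.natEq PTF.snd (PTF.snd.comp PTF.fst))
  · exact hG.comp (g := fun x : (β × ℕ) × ℕ => (x.1.1, x.2)) (by fun_prop)

/-- integer valued test polynomials -/
theorem CHMod.testPoly {u : β → ℕ} {K e N v D c : β → ℕ} (hK : PTF K) (he : PTF e) (hN : PTF N)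
    (hv : PTF v) (hD : PTF D) (hc : PTF c) {w : β → ℕ → ℕ}
    (hw : PTF (fun x : β × ℕ => w x.1 x.2)) {G : β → ℕ → ℤ}
    (hG : CHMod (fun x : β × ℕ => u x.1) (fun x => G x.1 x.2)) :
    CHMod u (fun b => R316.testPoly (K b) (e b) (N b) (w b) (v b) (D b) (c b) (G b)) := by
  unfold R316.testPoly
  have hden := CHMod.testDen (CHF.of_ptf hK) (CHF.of_ptf he) (CHF.of_ptf hN) hG
  have hnum := CHMod.testNum (CHF.of_ptf hK) (CHF.of_ptf he) (CHF.of_ptf hN) (CHF.of_ptf hv)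
    (CHF.of_ptf hw) hG
  exact (((CHMod.natCast (CHF.of_ptf hD)).add (CHMod.const 1)).mul
    (((CHMod.const 16).mul (hnum.pow (CHF.const 2))).sub
      ((CHMod.const 2).mul (hden.pow (CHF.const 2))))).add (CHMod.natCast (CHF.of_ptf hc))

/-- the weights are poly-time computable (numbers in binary) -/
theorem ptf_famW {N1 L p a : β → ℕ} (hN : PTF N1) (hL : PTF L) (hp : PTF p) (ha : PTF a) :
    PTF (fun x : β × ℕ => famW (N1 x.1) (L x.1) (p x.1) (a x.1) x.2) := by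
  unfold famW
  refine PTF.ite (PTPred.natLt PTF.snd (hN.comp PTF.fst)) (hL.comp PTF.fst) ?_
  exact PTF.natPowMod (ha.comp PTF.fst) (PTF.natSub PTF.snd (hN.comp PTF.fst))
    (PTF.natAdd (hp.comp PTF.fst) (PTF.const 1)) (fun _ => Nat.succ_pos _)

/-- the Thom family together with the property polynomials -/
theorem CHPoly.famG {u n m : β → ℕ} [hnz : ∀ b, NeZero (n b)] (hu : PTU u) (hn : PTU n)
    (hn' : PolyLe u n) (hm : PTF m) (hm' : ExpLe u m)
    {g : ∀ b, Fin (n b) → MvPolynomial (Fin (n b)) ℤ} (hg : CHSys u n g)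
    (hdeg : ∀ b i, (g b i).totalDegree < m b) {N1 T0 : β → ℕ} (hN1 : PTF N1)
    (hT0 : CHMod u (fun b => (T0 b : ℤ))) {ψ : ∀ b, ℕ → MvPolynomial (Fin (n b)) ℤ}
    (hψ : CHPoly (fun c : β × ℕ => u c.1) (fun c => n c.1) (fun c => ψ c.1 c.2)) :
    CHPoly (fun c : β × ℕ => u c.1) (fun c => n c.1)
      (fun c => R316.famG (m c.1) (g c.1) (N1 c.1) (T0 c.1) (ψ c.1) c.2) := by
  have hk : PTF (fun c : β × ℕ => (c.2 - N1 c.1) / 2) :=
    PTF.natDiv (PTF.natSub PTF.snd (hN1.comp PTF.fst)) (PTF.const 2)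
  have hthom := CHPoly.mthom (u := fun c : β × ℕ => u c.1) (n := fun c : β × ℕ => n c.1)
    (m := fun c : β × ℕ => m c.1) (hu.comp PTF.fst) (hn.comp PTF.fst) (hn'.comp Prod.fst)
    (hm.comp PTF.fst) (hm'.comp Prod.fst) (g := fun c : β × ℕ => g c.1)
    (hg.comp (g := fun c : (β × ℕ) × ℕ => (c.1.1, c.2)) (by fun_prop))
    (fun c i => hdeg c.1 i) (i := fun c : β × ℕ => (c.2 - N1 c.1) / 2 % n c.1)
    (l := fun c : β × ℕ => (c.2 - N1 c.1) / 2 / n c.1)
    (PTF.natMod hk (hn.toPTF.comp PTF.fst)) (PTF.natDiv hk (hn.toPTF.comp PTF.fst))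
  have hT : CHPoly (fun c : β × ℕ => u c.1) (fun c => n c.1)
      (fun c => ((T0 c.1 : ℤ) : MvPolynomial (Fin (n c.1)) ℤ)) :=
    CHPoly.intCast (hT0.comp PTF.fst)
  have hsgn : CHPoly (fun c : β × ℕ => u c.1) (fun c => n c.1)
      (fun c => if (c.2 - N1 c.1) % 2 = 0 then (1 : MvPolynomial (Fin (n c.1)) ℤ) else -1) :=
    CHPoly.ite (c := fun c : β × ℕ => (c.2 - N1 c.1) % 2 = 0)
      (CHPred.of_ptpred (PTPred.natEq (PTF.natMod (PTF.natSub PTF.snd (hN1.comp PTF.fst))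
        (PTF.const 2)) (PTF.const 0))) CHPoly.one CHPoly.one.neg
  refine (CHPoly.ite (c := fun c : β × ℕ => c.2 < N1 c.1)
    (CHPred.of_ptpred (PTPred.natLt PTF.snd (hN1.comp PTF.fst))) hψ
    ((hT.mul hthom).add hsgn)).of_eq fun c => ?_
  unfold R316.famG
  have hlt : (c.2 - N1 c.1) / 2 % n c.1 < n c.1 := Nat.mod_lt _ (NeZero.pos (n c.1))
  simp only [hlt, dif_pos]
  split_ifs <;> simp [Fin.ofNat]

/-- **(K6)** the seed polynomials (degree: `totalDegree_seedPolyS_le`; evaluation: the ring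
homomorphism `eval x` goes through `testPoly` by `map_testPoly`) -/
theorem CHPoly.seedPolyS {u n m : β → ℕ} [hnz : ∀ b, NeZero (n b)] (hu : PTU u) (hn : PTU n)
    (hn' : PolyLe u n) (hm : PTF m) (hm' : ExpLe u m)
    {g : ∀ b, Fin (n b) → MvPolynomial (Fin (n b)) ℤ} (hg : CHSys u n g)
    (hdeg : ∀ b i, (g b i).totalDegree < m b) {t : β → TPar}
    (hK : PTF (fun b => (t b).K)) (he : PTF (fun b => (t b).e))
    (hT0 : CHMod u (fun b => ((t b).T0 : ℤ))) (hB : PTF (fun b => (t b).B))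
    (hL : PTF (fun b => (t b).L)) (hK' : ExpLe u (fun b => (t b).K))
    (he' : ExpLe u (fun b => (t b).e)) {N1 : β → ℕ} (hN1 : PTF N1) (hN1' : ExpLe u N1)
    {ψ : ∀ b, ℕ → MvPolynomial (Fin (n b)) ℤ}
    (hψ : CHPoly (fun c : β × ℕ => u c.1) (fun c => n c.1) (fun c => ψ c.1 c.2))
    {s : β → ℕ} (hs : PTF s) :
    CHPoly u n (fun b => R316.seedPolyS (m b) (g b) (t b) (N1 b) (ψ b) (s b)) := by
  have hfam := CHPoly.famG hu hn hn' hm hm' hg hdeg hN1 hT0 hψ
  have hD : PTF (fun b => m b ^ n b) := PTF.natPow hm hn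
  have h2B : PTF (fun b => 2 * (t b).B) := PTF.natMul (PTF.const 2) hB
  have hp : PTF (fun b => (seedOf (t b).B (t b).L (m b ^ n b) (s b)).1) := by
    unfold seedOf
    exact PTF.natMod hs h2B
  have ha : PTF (fun b => (seedOf (t b).B (t b).L (m b ^ n b) (s b)).2.1) := by
    unfold seedOf
    exact PTF.natMod (PTF.natDiv hs h2B) h2B
  have hv : PTF (fun b => (seedOf (t b).B (t b).L (m b ^ n b) (s b)).2.2.1) := by
    unfold seedOf
    exact PTF.natMod (PTF.natDiv hs (PTF.natPowConst h2B 2)) hL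
  have hc : PTF (fun b => (seedOf (t b).B (t b).L (m b ^ n b) (s b)).2.2.2) := by
    unfold seedOf
    exact PTF.natMod (PTF.natDiv hs (PTF.natMul (PTF.natPowConst h2B 2) hL))
      (PTF.natAdd hD (PTF.const 1))
  have hN : PTF (fun b => N1 b + nThom (n b) (m b)) := by
    unfold nThom
    exact PTF.natAdd hN1 (PTF.natMul (PTF.const 2)
      (PTF.natMul hn.toPTF (PTF.natAdd hD (PTF.const 1))))
  refine ⟨?_, ?_⟩
  · have h := CHMod.testPoly (u := fun c : β × List ℕ => u c.1)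
      (K := fun c : β × List ℕ => (t c.1).K) (e := fun c : β × List ℕ => (t c.1).e)
      (N := fun c : β × List ℕ => N1 c.1 + nThom (n c.1) (m c.1))
      (v := fun c : β × List ℕ => (seedOf (t c.1).B (t c.1).L (m c.1 ^ n c.1) (s c.1)).2.2.1)
      (D := fun c : β × List ℕ => m c.1 ^ n c.1)
      (c := fun c : β × List ℕ => (seedOf (t c.1).B (t c.1).L (m c.1 ^ n c.1) (s c.1)).2.2.2)
      (hK.comp PTF.fst) (he.comp PTF.fst) (hN.comp PTF.fst) (hv.comp PTF.fst)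
      (hD.comp PTF.fst) (hc.comp PTF.fst)
      (w := fun c : β × List ℕ => famW (N1 c.1) (t c.1).L
        (seedOf (t c.1).B (t c.1).L (m c.1 ^ n c.1) (s c.1)).1
        (seedOf (t c.1).B (t c.1).L (m c.1 ^ n c.1) (s c.1)).2.1)
      ((ptf_famW hN1 hL hp ha).comp (f := fun x : (β × List ℕ) × ℕ => (x.1.1, x.2))
        (by fun_prop))
      (G := fun c : β × List ℕ => fun k => eval (pt (n c.1) c.2)
        (R316.famG (m c.1) (g c.1) (N1 c.1) (t c.1).T0 (ψ c.1) k))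
      (hfam.1.comp (g := fun x : (β × List ℕ) × ℕ => ((x.1.1, x.2), x.1.2)) (by fun_prop))
    refine h.of_eq fun c => ?_
    unfold R316.seedPolyS R316.seedPoly
    rw [map_testPoly]
  · obtain ⟨p, hp'⟩ := hψ.2
    have hd : ExpLe u (fun b => 2 ^ p.eval (u b)) := ⟨p, fun b => le_rfl⟩
    have hmn : ExpLe u (fun b => m b ^ n b) := hm'.pow hn'
    have hnT : ExpLe u (fun b => nThom (n b) (m b)) := by
      unfold nThom
      exact (ExpLe.const 2).mul (hn'.expLe.mul (hmn.add (ExpLe.const 1)))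
    refine ((ExpLe.const 2).mul (((hN1'.add hnT).add (ExpLe.const 1)).mul
      ((hK'.add (ExpLe.const 1)).mul (he'.mul (hd.add hmn))))).mono fun b => ?_
    exact totalDegree_seedPolyS_le (hdeg b) (t b) (N1 b) (d := 2 ^ p.eval (u b))
      (fun j _ => hp' (b, j)) (s b)

end Crest.Agent.R316.CH
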