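import Crest.Agent.R316.CH.PolyNorm

/-!
# R316 / CH / PolyThom : the Thom polynomials (task K5)
-/

set_option autoImplicit false

namespace Crest.Agent.R316.CH

open Crest.Agent.Lib.PT MvPolynomial

variable {α β γ : Type} [PTCode α] [PTCode β] [PTCode γ]

theorem CHSys.compPT {u n : β → ℕ} {g : ∀ b, Fin (n b) → MvPolynomial (Fin (n b)) ℤ}
    (hg : CHSys u n g) {f : γ → β} (hf : PTF f) :
    CHSys (fun c => u (f c)) (fun c => n (f c)) (fun c => g (f c)) :=
  CHPoly.comp (g := fun c : γ × ℕ => (f c.1, c.2)) hg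
    (PTF.prodMk (hf.comp PTF.fst) PTF.snd)

theorem eval_mthom_k5 {R : Type*} [CommRing R] {n m : ℕ} {g : Fin n → MvPolynomial (Fin n) R}
    (x : Fin n → R) (i : Fin n) (l : ℕ) :
    eval x (mthom m g i l) = (Polynomial.hasseDeriv l (mchi m g i)).eval (x i) := by
  unfold mthom
  have hc : (eval x).comp (C : R →+* MvPolynomial (Fin n) R) = RingHom.id R := by
    ext a; simp
  rw [Polynomial.aeval_def, Polynomial.hom_eval₂, MvPolynomial.algebraMap_eq, hc, eval_X]
  rfl

/-- **(K5)** `eval x (mthom m g i l)` is the `l`-th coefficient of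
`T ↦ mnorm m g (C (T + x i) - X i)` (`mcp_eval`, `Polynomial.taylor_coeff`), of degree `m ^ n` in
`T`. `l` may be arbitrary: clamp by `m ^ n + 1` (`hasseDeriv` vanishes above the degree). The
context for the norm is `((b, X), T)` with `X` the list of the point. Degree:
`totalDegree_mthom_le`. -/
theorem CHPoly.mthom {u n m : β → ℕ} (hu : PTU u) (hn : PTU n) (hn' : PolyLe u n) (hm : PTF m)
    (hm' : ExpLe u m)
    {g : ∀ b, Fin (n b) → MvPolynomial (Fin (n b)) ℤ} (hg : CHSys u n g)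
    (hdeg : ∀ b i, (g b i).totalDegree < m b) {i l : β → ℕ} (hi : PTF i) (hl : PTF l) :
    CHPoly u n (fun b => if h : i b < n b then R316.mthom (m b) (g b) ⟨i b, h⟩ (l b) else 0) := by
  have hmn : ExpLe u (fun b => m b ^ n b) := hm'.pow hn'
  refine ⟨?_, hmn.mono fun b => ?_⟩
  swap
  · show (if h : i b < n b then R316.mthom (m b) (g b) ⟨i b, h⟩ (l b) else 0).totalDegree ≤ _
    by_cases h : i b < n b
    · rw [dif_pos h]
      exact totalDegree_mthom_le (hdeg b) _ _
    · rw [dif_neg h, totalDegree_zero]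
      exact Nat.zero_le _
  have hproj : PTF (fun d : (β × List ℕ) × ℕ => d.1.1) := by fun_prop
  -- the shifted characteristic polynomial
  set T : β × List ℕ → Polynomial ℤ := fun c =>
    if h : i c.1 < n c.1 then
      Polynomial.taylor (pt (n c.1) c.2 ⟨i c.1, h⟩) (mchi (m c.1) (g c.1) ⟨i c.1, h⟩)
    else 0 with hT
  have hG : CHPoly (fun d : (β × List ℕ) × ℕ => u d.1.1) (fun d => n d.1.1)
      (fun d => MvPolynomial.C ((d.2 : ℤ) + ((d.1.2.getD (min (i d.1.1) (n d.1.1)) 0 : ℕ) : ℤ)) -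
        (if h : i d.1.1 < n d.1.1 then MvPolynomial.X ⟨i d.1.1, h⟩ else 0)) := by
    refine (CHPoly.C ?_).sub (CHPoly.X (hi.comp hproj) (hn.comp hproj))
    refine (CHMod.natCast (CHF.of_ptf PTF.snd)).add (CHMod.natCast (CHF.of_ptf ?_))
    exact PTF.getD (PTF.natMinUn (hi.comp hproj) (hn.comp hproj)) (PTF.snd.comp PTF.fst)
      (PTF.const 0)
  have hN := CHMod.mnorm (u := fun d : (β × List ℕ) × ℕ => u d.1.1) (n := fun d => n d.1.1)
    (m := fun d => m d.1.1) (g := fun d => g d.1.1) (hu.comp hproj) (hn.comp hproj)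
    (hn'.comp _) (hm.comp hproj) (hm'.comp _) (hg.compPT hproj) (fun d => hdeg d.1.1) hG
  have hTe : CHMod (fun d : (β × List ℕ) × ℕ => u d.1.1)
      (fun d => (T d.1).eval (d.2 : ℤ)) := by
    refine (CHMod.ite (P := fun d : (β × List ℕ) × ℕ => i d.1.1 < n d.1.1)
      (CHPred.of_ptpred (PTPred.natLt (hi.comp hproj) (hn.toPTF.comp hproj))) hN
      (CHMod.const 0)).of_eq fun d => ?_
    by_cases h : i d.1.1 < n d.1.1
    · simp only [if_pos h, dif_pos h, hT, Polynomial.taylor_eval, mchi]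
      rw [mcp_eval (hdeg d.1.1)]
      simp only [pt, Nat.min_eq_left h.le]
    · simp only [if_neg h, dif_neg h, hT, Polynomial.eval_zero]
  have hTd : ∀ c, (T c).natDegree ≤ m c.1 ^ n c.1 := by
    intro c
    by_cases h : i c.1 < n c.1
    · simp only [hT, dif_pos h, Polynomial.natDegree_taylor, mchi]
      exact natDegree_mcp_le (hdeg c.1) _
    · simp [hT, dif_neg h]
  have hmn2 : CHF (fun c : β × List ℕ => m c.1 ^ n c.1) :=
    CHF.pow_unary (CHF.of_ptf (hm.comp PTF.fst)) (hn.comp PTF.fst)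
  have hle : CHF (fun c : β × List ℕ =>
      if l c.1 ≤ m c.1 ^ n c.1 then l c.1 else m c.1 ^ n c.1 + 1) :=
    CHF.ite (CHPred.le (CHF.of_ptf (hl.comp PTF.fst)) hmn2) (CHF.of_ptf (hl.comp PTF.fst))
      (hmn2.add (CHF.const 1))
  have hco := CHMod.polyCoeff (u := fun c : β × List ℕ => u c.1) (P := T) hTe
    (((hmn.comp (fun c : β × List ℕ => c.1))).mono hTd) hle
    ((((hmn.add (ExpLe.const 1)).comp (fun c : β × List ℕ => c.1))).mono (fun c => by
      split_ifs <;> omega))
  refine hco.of_eq fun c => ?_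
  have hclamp : (T c).coeff (if l c.1 ≤ m c.1 ^ n c.1 then l c.1 else m c.1 ^ n c.1 + 1) =
      (T c).coeff (l c.1) := by
    split_ifs with h
    · rfl
    · rw [Polynomial.coeff_eq_zero_of_natDegree_lt (lt_of_le_of_lt (hTd c) (by omega)),
        Polynomial.coeff_eq_zero_of_natDegree_lt (lt_of_le_of_lt (hTd c) (by omega))]
  rw [hclamp]
  by_cases h : i c.1 < n c.1
  · simp only [hT, dif_pos h]
    rw [Polynomial.taylor_coeff]
    exact (eval_mthom_k5 _ _ _).symm
  · simp [hT, dif_neg h]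

end Crest.Agent.R316.CH
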