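import Crest.Agent.R316.CH.PolyCoeff
import Crest.Agent.R316.CH.PolyDer
import Crest.Agent.R316.Alg.TraceFormula

/-!
# R316 / CH / PolyTr : traces of monic systems (task K3)
-/

set_option autoImplicit false

namespace Crest.Agent.R316.CH

open Crest.Agent.Lib.PT MvPolynomial

variable {α β γ : Type} [PTCode α] [PTCode β] [PTCode γ]

/-- products of powers of the members of a system, with exponents given by a list (clamped) -/
theorem CHSys.prodPow {u n K : β → ℕ} (hn : PTU n) (hn' : PolyLe u n) (hK : PTF K)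
    (hK' : ExpLe u K) {g : ∀ b, Fin (n b) → MvPolynomial (Fin (n b)) ℤ} (hg : CHSys u n g) :
    CHPoly (fun c : β × List ℕ => u c.1) (fun c => n c.1)
      (fun c => ∏ i : Fin (n c.1), g c.1 i ^ min (c.2.getD (i : ℕ) 0) (K c.1)) := by
  have h1 : CHPoly (fun c : (β × List ℕ) × ℕ => u c.1.1) (fun c => n c.1.1)
      (fun c => extF (g c.1.1) c.2 ^
        min (c.1.2.getD (min c.2 (n c.1.1)) 0) (K c.1.1)) := by
    refine CHPoly.pow (P := fun c : (β × List ℕ) × ℕ => extF (g c.1.1) c.2)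
      (hg.comp (g := fun c : (β × List ℕ) × ℕ => (c.1.1, c.2)) (by fun_prop)) ?_ ?_
    · refine CHF.of_ptf (PTF.natMin ?_ (hK.comp (by fun_prop)))
      exact PTF.getD (PTF.natMinUn PTF.snd (hn.comp (by fun_prop))) (by fun_prop) (PTF.const 0)
    · exact (hK'.comp (fun c : (β × List ℕ) × ℕ => c.1.1)).mono fun c => min_le_right _ _
  have h2 := CHPoly.prod (u := fun c : β × List ℕ => u c.1) (n := fun c => n c.1)
    (P := fun c : (β × List ℕ) × ℕ => extF (g c.1.1) c.2 ^
        min (c.1.2.getD (min c.2 (n c.1.1)) 0) (K c.1.1)) h1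
    (m := fun c => n c.1) (CHF.of_ptf (hn.toPTF.comp PTF.fst))
    (hn'.expLe.comp (fun c : β × List ℕ => c.1))
  refine h2.of_eq fun c => ?_
  rw [← Fin.prod_univ_eq_prod_range (fun k => extF (g c.1) k ^
        min (c.2.getD (min k (n c.1)) 0) (K c.1))]
  refine Finset.prod_congr rfl fun i _ => ?_
  rw [extF_fin, Nat.min_eq_left i.2.le]

theorem CHMod.mtrace {u n m : β → ℕ} (hu : PTU u) (hn : PTU n) (hn' : PolyLe u n) (hm : PTF m)
    (hm' : ExpLe u m)
    {g : ∀ b, Fin (n b) → MvPolynomial (Fin (n b)) ℤ} (hg : CHSys u n g)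
    (hdeg : ∀ b i, (g b i).totalDegree < m b)
    {G : ∀ b, MvPolynomial (Fin (n b)) ℤ} (hG : CHPoly u n G) :
    CHMod u (fun b => R316.mtrace (m b) (g b) (G b)) := by
  have hJ : CHPoly u n (fun b => G b * mjac (m b) (g b)) :=
    hG.mul (CHPoly.mjac hn hn' hm hm' hg hdeg)
  obtain ⟨p, hp⟩ := hJ.2
  -- the number of summands
  let K : β → ℕ := fun b => 2 ^ (p + 1).eval (u b)
  have hK : PTF K := PTF.natTwoPow (PTU.eval (p + 1) hu)
  have hK' : ExpLe u K := ⟨p + 1, fun b => le_rfl⟩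
  have hlt : ∀ b, (G b * mjac (m b) (g b)).totalDegree < K b := by
    intro b
    refine lt_of_le_of_lt (hp b) ?_
    simp only [K, Polynomial.eval_add, Polynomial.eval_one, pow_succ]
    have := Nat.two_pow_pos (p.eval (u b))
    omega
  have hP : CHPoly (fun c : β × List ℕ => u c.1) (fun c => n c.1)
      (fun c => G c.1 * mjac (m c.1) (g c.1) *
        ∏ i : Fin (n c.1), g c.1 i ^ min (c.2.getD (i : ℕ) 0) (K c.1)) :=
    (hJ.comp (g := fun c : β × List ℕ => c.1) PTF.fst).mul (hg.prodPow hn hn' hK hK')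
  have hC := CHPoly.coeff (u := fun c : β × List ℕ => u c.1) (n := fun c => n c.1)
    (hn.comp PTF.fst) hP
    (E := fun c : (β × List ℕ) × ℕ => (m c.1.1 - 1) + m c.1.1 *
      min (c.1.2.getD (min c.2 (n c.1.1)) 0) (K c.1.1)) ?_ ?_
  · refine (CHMod.sum_pi (u := u) (W := fun c : β × List ℕ => MvPolynomial.coeff
      (Finsupp.equivFunOnFinite.symm fun i : Fin (n c.1) => (m c.1 - 1) + m c.1 *
      min (c.2.getD (min (i : ℕ) (n c.1)) 0) (K c.1))
        (G c.1 * mjac (m c.1) (g c.1) *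
        ∏ i : Fin (n c.1), g c.1 i ^ min (c.2.getD (i : ℕ) 0) (K c.1)))
      hC (n := n) (K := K) hn (CHF.of_ptf hK)).of_eq fun b => ?_
    rw [mtrace_formula (hdeg b) (G b) (K b) (hlt b)]
    refine Finset.sum_congr rfl fun κ _ => ?_
    have h1 : ∀ i : Fin (n b), (List.ofFn fun i => (κ i : ℕ)).getD (i : ℕ) 0 = κ i := by
      intro i
      rw [List.getD_eq_getElem _ _ (by simp)]
      simp
    have h2 : ∀ i : Fin (n b), min ((κ i : ℕ)) (K b) = κ i := fun i =>
      Nat.min_eq_left (κ i).2.le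
    simp only [h1, h2, Nat.min_eq_left (Fin.is_lt _).le]
  · refine (CHF.of_ptf ?_)
    refine PTF.natAdd (PTF.natSub (hm.comp (by fun_prop)) (PTF.const 1))
      (PTF.natMul (hm.comp (by fun_prop)) (PTF.natMin ?_ (hK.comp (by fun_prop))))
    exact PTF.getD (PTF.natMinUn PTF.snd (hn.comp (by fun_prop))) (by fun_prop) (PTF.const 0)
  · have h3 : ExpLe (fun c : (β × List ℕ) × ℕ => u c.1.1) (fun c => m c.1.1) :=
      hm'.comp (fun c : (β × List ℕ) × ℕ => c.1.1)
    have h4 : ExpLe (fun c : (β × List ℕ) × ℕ => u c.1.1)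
      (fun c => min (c.1.2.getD (min c.2 (n c.1.1)) 0) (K c.1.1)) :=
      (hK'.comp (fun c : (β × List ℕ) × ℕ => c.1.1)).mono fun c => min_le_right _ _
    exact (h3.mono fun c => Nat.sub_le _ _).add (h3.mul h4)

end Crest.Agent.R316.CH
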