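import Crest.Agent.R316.CH.Basic
import Crest.Agent.Lib.PT.Arith
import Crest.Agent.Lib.PT.ListFns

/-!
# R316 / CH / Pred : predicates on coded types decidable in the counting hierarchy
-/

set_option autoImplicit false

namespace Crest.Agent.R316.CH

open Crest.Agent.Lib.PT

variable {α β γ : Type} [PTCode α] [PTCode β] [PTCode γ]

/-- a predicate on a coded type is decidable in the counting hierarchy -/
def CHPred (P : α → Prop) : Prop := ∃ L : Set (List Bool), InCH L ∧ ∀ a, P a ↔ enc a ∈ L

theorem CHPred.of_iff {P Q : α → Prop} (hP : CHPred P) (h : ∀ a, P a ↔ Q a) : CHPred Q := by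
  have : P = Q := funext fun a => propext (h a)
  rwa [← this]

theorem CHPred.of_ptpred {P : α → Prop} (hP : PTPred P) : CHPred P := by
  obtain ⟨f, ⟨g, hg, hgf⟩, hf⟩ := hP
  refine ⟨{x | (g x).headD false = true}, InCH.of_ptb (c := fun x => (g x).headD false) ?_,
    fun a => ?_⟩
  · refine PT.of_eq (PT.ite hg (PT.const [true]) (PT.const [false])) fun x => ?_
    rcases h : g x with _ | ⟨_ | _, l⟩ <;> simp [h]
  · rw [hf a]
    simp only [Set.mem_ofPred_eq, hgf, enc_bool, List.headD_cons]

theorem CHPred.const (p : Prop) : CHPred (fun _ : α => p) := CHPred.of_ptpred (PTPred.const p)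

theorem CHPred.comp {P : β → Prop} {f : α → β} (hP : CHPred P) (hf : PTF f) :
    CHPred (fun a => P (f a)) := by
  obtain ⟨L, hL, h⟩ := hP
  obtain ⟨g, hg, hgf⟩ := hf
  exact ⟨_, hL.preim hg, fun a => (h _).trans (by rw [Set.mem_ofPred_eq, hgf])⟩

theorem CHPred.not {P : α → Prop} (hP : CHPred P) : CHPred (fun a => ¬ P a) := by
  obtain ⟨L, hL, h⟩ := hP
  exact ⟨_, hL.compl, fun a => not_congr (h a)⟩

theorem CHPred.and {P Q : α → Prop} (hP : CHPred P) (hQ : CHPred Q) :
    CHPred (fun a => P a ∧ Q a) := by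
  obtain ⟨L, hL, h⟩ := hP
  obtain ⟨L', hL', h'⟩ := hQ
  exact ⟨_, hL.inter hL', fun a => and_congr (h a) (h' a)⟩

theorem CHPred.or {P Q : α → Prop} (hP : CHPred P) (hQ : CHPred Q) :
    CHPred (fun a => P a ∨ Q a) :=
  (hP.not.and hQ.not).not.of_iff fun a => by tauto

theorem CHPred.imp {P Q : α → Prop} (hP : CHPred P) (hQ : CHPred Q) :
    CHPred (fun a => P a → Q a) :=
  (hP.not.or hQ).of_iff fun a => by tauto

theorem CHPred.iff {P Q : α → Prop} (hP : CHPred P) (hQ : CHPred Q) :
    CHPred (fun a => P a ↔ Q a) :=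
  ((hP.imp hQ).and (hQ.imp hP)).of_iff fun a => by tauto

theorem CHPred.ite {c P Q : α → Prop} [DecidablePred c] (hc : CHPred c) (hP : CHPred P)
    (hQ : CHPred Q) : CHPred (fun a => if c a then P a else Q a) :=
  ((hc.imp hP).and (hc.not.imp hQ)).of_iff fun a => by
    by_cases h : c a <;> simp [h]

theorem bval_bits (y : List Bool) :
    (bval y).bits = ((y.reverse).dropWhile (fun c => c == false)).reverse := by
  induction y with
  | nil => simp
  | cons b y ih =>
    rw [bval_cons, List.reverse_cons]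
    by_cases h : bval y = 0
    · rw [h] at ih
      have h0 : (y.reverse).dropWhile (fun c => c == false) = [] := by
        simpa using ih.symm
      cases b
      · rw [h]
        simp only [List.dropWhile_append, h0]
        simp
      · rw [h]
        simp only [List.dropWhile_append, h0]
        simp
    · rw [Nat.bits_append_bit _ _ (fun h' => absurd h' h), ih]
      have h0 : (y.reverse).dropWhile (fun c => c == false) ≠ [] := by
        intro h1
        rw [h1] at ih
        apply h
        have := Nat.size_eq_bits_len (bval y)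
        rw [ih] at this
        simp only [List.reverse_nil, List.length_nil] at this
        exact Nat.size_eq_zero.1 this.symm
      rw [List.dropWhile_append]
      have h2 : (List.dropWhile (fun c => c == false) y.reverse).isEmpty = false := by
        simpa using h0
      rw [h2]
      simp

theorem ptf_bval : PTF (fun y : Bits => bval y.val) := by
  refine ⟨_, PT.comp PT.reverse (PT.comp (pt_dropWhile false) PT.reverse), fun y => ?_⟩
  rw [enc_nat, bval_bits]
  rfl

theorem ptf_takeBits {m : α → ℕ} {f : α → Bits} (hm : PTU m) (hf : PTF f) :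
    PTF (fun a => Bits.mk (List.take (m a) (f a).val)) := by
  obtain ⟨g, hg, hgm⟩ := hm
  obtain ⟨h, hh, hhf⟩ := hf
  exact ⟨_, PT.take' hg hh, fun a => by rw [hgm, hhf]; simp⟩

theorem ptf_tailBits {f : α → Bits} (hf : PTF f) :
    PTF (fun a => Bits.mk (f a).val.tail) := by
  obtain ⟨h, hh, hhf⟩ := hf
  exact ⟨_, PT.tail' hh, fun a => by rw [hhf]; rfl⟩

theorem ptpred_headBits {f : α → Bits} (hf : PTF f) (b : Bool) :
    PTPred (fun a => (f a).val.head? = some b) := by
  obtain ⟨h, hh, hhf⟩ := hf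
  exact ⟨fun a => decide ((f a).val.head? = some b), ⟨_, ptb_head hh b, fun a => by
    simp only [hhf]; rfl⟩, fun a => by simp⟩

/-- **threshold counting** -/
theorem CHPred.count_gt {P : α × ℕ → Prop} (hP : CHPred P) {m : α → ℕ} (hm : PTU m) {t : α → ℕ}
    (ht : PTF t) : CHPred (fun a => t a < {k | k < 2 ^ m a ∧ P (a, k)}.ncard) := by
  classical
  obtain ⟨q, hq⟩ := hm.pb
  have hk : PTF (fun p : α × Bits => bval (Bits.mk (List.take (m p.1) p.2.val.tail)).val) :=
    PTF.comp (g := fun y : Bits => bval y.val) ptf_bval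
      (ptf_takeBits (hm.comp PTF.fst) (ptf_tailBits PTF.snd))
  have hQ : CHPred (fun p : α × Bits => if p.2.val.head? = some false then
      P (p.1, bval (List.take (m p.1) p.2.val.tail)) else
      bval (List.take (m p.1) p.2.val.tail) + t p.1 < 2 ^ m p.1) := by
    refine CHPred.ite (CHPred.of_ptpred (ptpred_headBits PTF.snd false))
      (hP.comp (PTF.prodMk PTF.fst hk)) (CHPred.of_ptpred ?_)
    exact PTPred.natLt (PTF.natAdd hk (PTF.comp ht PTF.fst)) (PTF.natTwoPow (hm.comp PTF.fst))
  obtain ⟨L, hL, hQL⟩ := hQ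
  refine ⟨_, hL.majority (q + 1), fun a => ?_⟩
  have e : (q + 1).eval (enc a).length = q.eval (sz a) + 1 := by simp [sz]
  obtain ⟨r, hr⟩ := Nat.exists_eq_add_of_le (hq a)
  change t a < {k | k < 2 ^ m a ∧ P (a, k)}.ncard ↔ _
  rw [Set.mem_ofPred_eq, e, cnt_succ, hr]
  have e1 : cnt (m a + r) {y | false :: y ∈ {y | pair (enc a) y ∈ L}} =
      2 ^ r * {k | k < 2 ^ m a ∧ P (a, k)}.ncard := by
    rw [← cnt_bval (m a) (fun k => P (a, k)), ← cnt_take]
    refine cnt_congr fun y _ => ?_
    have := hQL (a, Bits.mk (false :: y))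
    simp only [enc_prod, enc_bits] at this
    simp only [Set.mem_ofPred_eq, ← this]
    simp
  have e2 : cnt (m a + r) {y | true :: y ∈ {y | pair (enc a) y ∈ L}} =
      2 ^ r * {k | k < 2 ^ m a ∧ k + t a < 2 ^ m a}.ncard := by
    rw [← cnt_bval (m a) (fun k => k + t a < 2 ^ m a), ← cnt_take]
    refine cnt_congr fun y _ => ?_
    have := hQL (a, Bits.mk (true :: y))
    simp only [enc_prod, enc_bits] at this
    simp only [Set.mem_ofPred_eq, ← this]
    simp
  have e3 : {k | k < 2 ^ m a ∧ k + t a < 2 ^ m a}.ncard = 2 ^ m a - t a := by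
    have : {k | k < 2 ^ m a ∧ k + t a < 2 ^ m a} = (Finset.range (2 ^ m a - t a) : Set ℕ) := by
      ext k; simp only [Set.mem_ofPred_eq, Finset.coe_range, Set.mem_Iio]; omega
    rw [this, Set.ncard_coe_finset, Finset.card_range]
  have e4 : {k | k < 2 ^ m a ∧ P (a, k)}.ncard ≤ 2 ^ m a := by
    have h1 : {k | k < 2 ^ m a ∧ P (a, k)} ⊆ (Finset.range (2 ^ m a) : Set ℕ) := by
      intro k hk; simpa using hk.1
    have := Set.ncard_le_ncard h1 (Finset.finite_toSet _)
    rwa [Set.ncard_coe_finset, Finset.card_range] at this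
  rw [e1, e2, e3, ← Nat.mul_add, pow_succ, pow_add]
  clear e1 e2 e3
  generalize {k | k < 2 ^ m a ∧ P (a, k)}.ncard = N at e4 ⊢
  rw [show 2 ^ m a * 2 ^ r * 2 = 2 ^ r * (2 ^ m a * 2) by ring,
    show 2 * (2 ^ r * (N + (2 ^ m a - t a))) = 2 ^ r * (2 * (N + (2 ^ m a - t a))) by ring,
    Nat.mul_lt_mul_left (Nat.two_pow_pos r)]
  omega

theorem CHPred.exists_lt_two_pow {P : α × ℕ → Prop} (hP : CHPred P) {m : α → ℕ} (hm : PTU m) :
    CHPred (fun a => ∃ k < 2 ^ m a, P (a, k)) := by
  refine (hP.count_gt hm (PTF.const 0)).of_iff fun a => ?_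
  have hfin : {k | k < 2 ^ m a ∧ P (a, k)}.Finite :=
    (Set.finite_Iio (2 ^ m a)).subset fun _ h => h.1
  rw [Set.ncard_pos hfin]
  rfl

theorem CHPred.forall_lt_two_pow {P : α × ℕ → Prop} (hP : CHPred P) {m : α → ℕ} (hm : PTU m) :
    CHPred (fun a => ∀ k < 2 ^ m a, P (a, k)) :=
  (hP.not.exists_lt_two_pow hm).not.of_iff fun a => by push Not; rfl

end Crest.Agent.R316.CH
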