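import Mathlib

/-!
# R316 / CH / Primes : the product of the primes in `(2^s, 2^(s+c)]` is large
-/

set_option autoImplicit false

namespace Crest.Agent.R316.CH

open Chebyshev

theorem sixty_four_mul_sq_le (m : ℕ) (hm : 20 ≤ m) : 64 * m ^ 2 ≤ 2 ^ m := by
  induction m, hm using Nat.le_induction with
  | base => norm_num
  | succ m hm ih =>
    have h1 : (m + 1) ^ 2 ≤ 2 * m ^ 2 := by nlinarith
    calc 64 * (m + 1) ^ 2 ≤ 2 * (64 * m ^ 2) := by omega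
      _ ≤ 2 * 2 ^ m := Nat.mul_le_mul_left _ ih
      _ = 2 ^ (m + 1) := by ring

theorem sixty_four_mul_sq_le_real (m : ℕ) (hm : 20 ≤ m) : 64 * (m : ℝ) ^ 2 ≤ 2 ^ m := by
  have := sixty_four_mul_sq_le m hm
  exact_mod_cast this

/-- Chebyshev lower bound at powers of two -/
theorem theta_two_pow_ge (m : ℕ) (hm : 20 ≤ m) :
    ((2 : ℝ) ^ m * (11 / 16)) * Real.log 2 ≤ θ ((2 : ℝ) ^ m) := by
  have hlog2 : 0 < Real.log 2 := Real.log_pos (by norm_num)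
  have h0 := sixty_four_mul_sq_le_real m hm
  have h1 := theta_ge (2 ^ m)
  push_cast at h1
  obtain ⟨N, hN⟩ : ∃ N : ℝ, N = (2 : ℝ) ^ m := ⟨_, rfl⟩
  have hlogn : Real.log N = m * Real.log 2 := by rw [hN, Real.log_pow]
  have hN1 : 1 ≤ N := by rw [hN]; exact one_le_pow₀ (by norm_num)
  have hlogn1 : Real.log (N + 1) ≤ (m + 1) * Real.log 2 := by
    have h3 : N + 1 ≤ 2 ^ (m + 1) := by rw [pow_succ, ← hN]; linarith
    calc Real.log (N + 1) ≤ Real.log (2 ^ (m + 1)) :=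
          Real.log_le_log (by positivity) h3
      _ = (m + 1) * Real.log 2 := by rw [Real.log_pow]; push_cast; ring
  rw [← hN] at h0 h1 ⊢
  rw [hlogn] at h1
  clear hN
  obtain ⟨r, hr⟩ : ∃ r : ℝ, r = √N := ⟨_, rfl⟩
  have hr0 : 0 ≤ r := by rw [hr]; exact Real.sqrt_nonneg _
  have hss : r * r = N := by rw [hr]; exact Real.mul_self_sqrt (by linarith)
  have hsq : (8 * m : ℝ) ≤ r := by
    rw [hr]
    apply Real.le_sqrt_of_sq_le
    nlinarith
  rw [← hr] at h1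
  have h4 : (20 : ℝ) ≤ m := by exact_mod_cast hm
  have hmN : (m : ℝ) + 1 ≤ N / 16 := by nlinarith
  have hmr : 2 * r * m ≤ N / 4 := by nlinarith
  have hrr : 2 * r * (m * Real.log 2) ≤ N / 4 * Real.log 2 := by
    calc 2 * r * (m * Real.log 2) = (2 * r * m) * Real.log 2 := by ring
      _ ≤ _ := mul_le_mul_of_nonneg_right hmr hlog2.le
  have hm1 : ((m : ℝ) + 1) * Real.log 2 ≤ N / 16 * Real.log 2 :=
    mul_le_mul_of_nonneg_right hmN hlog2.le
  nlinarith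

theorem theta_two_pow_le (s : ℕ) : θ ((2 : ℝ) ^ s) ≤ (2 * 2 ^ s) * Real.log 2 := by
  have h2 := theta_le_log4_mul_x (x := (2 : ℝ) ^ s) (by positivity)
  have hlog4 : Real.log 4 = 2 * Real.log 2 := by
    rw [show (4 : ℝ) = 2 ^ 2 by norm_num, Real.log_pow]; norm_num
  rw [hlog4] at h2
  linarith

theorem theta_diff (s m : ℕ) (hsm : s ≤ m) : θ ((2 : ℝ) ^ m) = θ ((2 : ℝ) ^ s) +
    ∑ q ∈ (Finset.Ioc (2 ^ s) (2 ^ m)).filter Nat.Prime, Real.log q := by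
  have e1 : ((2 : ℝ) ^ m) = ((2 ^ m : ℕ) : ℝ) := by push_cast; rfl
  have e2 : ((2 : ℝ) ^ s) = ((2 ^ s : ℕ) : ℝ) := by push_cast; rfl
  rw [e1, e2]
  unfold theta
  rw [Nat.floor_natCast, Nat.floor_natCast]
  have hle : 2 ^ s ≤ 2 ^ m := Nat.pow_le_pow_right (by norm_num) hsm
  rw [← Finset.sum_union]
  · congr 1
    ext q
    simp only [Finset.mem_filter, Finset.mem_union, Finset.mem_Ioc]
    constructor
    · rintro ⟨⟨h1, h2⟩, h3⟩
      rcases le_or_gt q (2 ^ s) with h | h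
      · exact Or.inl ⟨⟨h1, h⟩, h3⟩
      · exact Or.inr ⟨⟨h, h2⟩, h3⟩
    · rintro (⟨⟨h1, h2⟩, h3⟩ | ⟨⟨h1, h2⟩, h3⟩)
      · exact ⟨⟨h1, h2.trans hle⟩, h3⟩
      · exact ⟨⟨(Nat.zero_le _).trans_lt h1, h2⟩, h3⟩
  · rw [Finset.disjoint_left]
    intro q h1 h2
    simp only [Finset.mem_filter, Finset.mem_Ioc] at h1 h2
    exact absurd h2.1.1 (not_lt.2 h1.1.2)

/-- the product of the primes in `(2^s, 2^(s+20)]` is large -/
theorem prod_primes_large_aux (s m : ℕ) (hm : m = s + 20) :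
    2 ^ (2 ^ s + 8) < ∏ q ∈ (Finset.Ioc (2 ^ s) (2 ^ m)).filter Nat.Prime, q := by
  have hlog2 : 0 < Real.log 2 := Real.log_pos (by norm_num)
  have h1 := theta_two_pow_ge m (by omega)
  have h2 := theta_two_pow_le s
  have h3 := theta_diff s m (by omega)
  have hN : (2 : ℝ) ^ m = 2 ^ 20 * 2 ^ s := by rw [hm, pow_add]; ring
  have hS1 : (1 : ℝ) ≤ 2 ^ s := one_le_pow₀ (by norm_num)
  have hlogprod : Real.log ((∏ q ∈ (Finset.Ioc (2 ^ s) (2 ^ m)).filter Nat.Prime, q : ℕ) : ℝ) =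
      ∑ q ∈ (Finset.Ioc (2 ^ s) (2 ^ m)).filter Nat.Prime, Real.log q := by
    push_cast
    rw [Real.log_prod]
    intro q hq
    have := (Finset.mem_filter.1 hq).2.pos
    positivity
  have hpos : 0 < ((∏ q ∈ (Finset.Ioc (2 ^ s) (2 ^ m)).filter Nat.Prime, q : ℕ) : ℝ) := by
    have : 0 < ∏ q ∈ (Finset.Ioc (2 ^ s) (2 ^ m)).filter Nat.Prime, q :=
      Finset.prod_pos fun q hq => (Finset.mem_filter.1 hq).2.pos
    exact_mod_cast this
  have hgoal : ((2 ^ (2 ^ s + 8) : ℕ) : ℝ) <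
      ((∏ q ∈ (Finset.Ioc (2 ^ s) (2 ^ m)).filter Nat.Prime, q : ℕ) : ℝ) := by
    rw [← Real.log_lt_log_iff (by positivity) hpos, hlogprod]
    have e1 : Real.log ((2 ^ (2 ^ s + 8) : ℕ) : ℝ) = (2 ^ s + 8) * Real.log 2 := by
      push_cast; rw [Real.log_pow]; push_cast; ring
    rw [e1]
    have hfin : (2 ^ s + 8 : ℝ) + 2 * 2 ^ s < (2 : ℝ) ^ m * (11 / 16) := by
      rw [hN]; nlinarith
    have hfin' := mul_lt_mul_of_pos_right hfin hlog2
    linarith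
  exact_mod_cast hgoal

theorem prod_primes_large (s : ℕ) :
    2 ^ (2 ^ s + 8) < ∏ q ∈ (Finset.Ioc (2 ^ s) (2 ^ (s + 20))).filter Nat.Prime, q :=
  prod_primes_large_aux s _ rfl

/-- the product of the primes in `(2^s, 2^(s+c)]` is large (choose the constant `c` freely) -/
theorem exists_prod_primes_large : ∃ c : ℕ, ∀ s : ℕ,
    2 ^ (2 ^ s + 8) < ∏ q ∈ (Finset.Ioc (2 ^ s) (2 ^ (s + c))).filter Nat.Prime, q :=
  ⟨20, prod_primes_large⟩

end Crest.Agent.R316.CH
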