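import Crest.Agent.R316.CH.Fun

/-!
# R316 / CH / SignPure : the sign of a huge integer from its residues (pure number theory)
-/

set_option autoImplicit false

namespace Crest.Agent.R316.CH

open Finset

/-- primes in `(2^l, 2^L)` -/
def PS (l L : ℕ) : Finset ℕ := (range (2 ^ L)).filter (fun q => q.Prime ∧ 2 ^ l < q)

theorem mem_PS {l L q : ℕ} : q ∈ PS l L ↔ q < 2 ^ L ∧ q.Prime ∧ 2 ^ l < q := by
  simp [PS]

theorem arith_bound (l : ℕ) :
    (2 * l + 20) * (2 * 2 ^ l + 6) + (2 * l + 20) + 2 ≤ 2 ^ (2 * l + 20) := by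
  have h1 : 2 * l + 20 ≤ 2 ^ (l + 5) := by
    induction l with
    | zero => norm_num
    | succ l ih => rw [show l + 1 + 5 = (l + 5) + 1 by ring, pow_succ]; omega
  have h2 : 1 ≤ 2 ^ l := Nat.one_le_two_pow
  calc (2 * l + 20) * (2 * 2 ^ l + 6) + (2 * l + 20) + 2
      ≤ (2 * l + 20) * (2 * 2 ^ l + 6) + (2 * l + 20) * 2 := by omega
    _ = (2 * l + 20) * (2 * 2 ^ l + 8) := by ring
    _ ≤ 2 ^ (l + 5) * (2 ^ (l + 15)) := by
        refine Nat.mul_le_mul h1 ?_
        rw [pow_add]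
        norm_num
        omega
    _ = 2 ^ (2 * l + 20) := by rw [← pow_add]; congr 1; ring

theorem card_PS_aux (l L : ℕ) :
    2 ^ L ≤ L + 1 + L * ((PS l L).card + (2 ^ l + 2)) := by
  have h1 := Chebyshev.two_pow_le_mul_lcmUpto (2 ^ L)
  have h2 : Nat.lcmUpto (2 ^ L) ≤ (2 ^ L) ^ (Nat.primesLE (2 ^ L)).card := by
    rw [Nat.lcmUpto_eq_prod_pow_log]
    refine (Finset.prod_le_pow_card _ _ _ fun p hp => ?_)
    exact Nat.pow_log_le_self p (by positivity)
  have h3 : (Nat.primesLE (2 ^ L)).card ≤ (PS l L).card + (2 ^ l + 2) := by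
    have : Nat.primesLE (2 ^ L) ⊆ PS l L ∪ (range (2 ^ l + 1) ∪ {2 ^ L}) := by
      intro p hp
      rw [Nat.mem_primesLE] at hp
      simp only [mem_union, mem_PS, mem_range, mem_singleton]
      by_cases h : p = 2 ^ L
      · exact Or.inr (Or.inr h)
      · by_cases h' : 2 ^ l < p
        · exact Or.inl ⟨lt_of_le_of_ne hp.1 h, hp.2, h'⟩
        · exact Or.inr (Or.inl (by omega))
    refine (card_le_card this).trans ((card_union_le _ _).trans ?_)
    refine Nat.add_le_add_left ((card_union_le _ _).trans ?_) _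
    simp
  generalize (Nat.primesLE (2 ^ L)).card = x at h2 h3
  generalize (PS l L).card + (2 ^ l + 2) = z at h3 ⊢
  generalize Nat.lcmUpto (2 ^ L) = y at h1 h2
  have h6 : 2 ^ L + 1 ≤ 2 ^ (L + 1) := by
    rw [pow_succ]
    have := Nat.one_le_two_pow (n := L)
    omega
  have h4 : 2 ^ (2 ^ L) ≤ 2 ^ (L + 1 + L * z) :=
    calc 2 ^ (2 ^ L) ≤ (2 ^ L + 1) * y := h1
      _ ≤ 2 ^ (L + 1) * (2 ^ L) ^ x := Nat.mul_le_mul h6 h2
      _ ≤ 2 ^ (L + 1) * (2 ^ L) ^ z :=
        Nat.mul_le_mul_left _ (Nat.pow_le_pow_right (by positivity) h3)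
      _ = 2 ^ (L + 1 + L * z) := by rw [pow_add 2 (L + 1), pow_mul]
  exact (Nat.pow_le_pow_iff_right (by norm_num : 1 < 2)).1 h4

theorem card_PS (l : ℕ) : 2 ^ l + 4 ≤ (PS l (2 * l + 20)).card := by
  have h5 := card_PS_aux l (2 * l + 20)
  have h6 := arith_bound l
  by_contra h7
  push Not at h7
  have h8 : (2 * l + 20) * ((PS l (2 * l + 20)).card + (2 ^ l + 2)) ≤
      (2 * l + 20) * (2 * 2 ^ l + 6) := Nat.mul_le_mul_left _ (by omega)
  generalize (2 * l + 20) * ((PS l (2 * l + 20)).card + (2 ^ l + 2)) = u at h5 h8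
  generalize (2 * l + 20) * (2 * 2 ^ l + 6) = v at h6 h8
  generalize 2 ^ (2 * l + 20) = w at h5 h6
  omega

theorem prod_PS_large (l : ℕ) : 2 ^ (2 ^ l + 4) ≤ ∏ q ∈ PS l (2 * l + 20), q := by
  refine (Nat.pow_le_pow_right (by norm_num) (card_PS l)).trans ?_
  refine Finset.pow_card_le_prod _ _ _ fun q hq => ?_
  exact (mem_PS.1 hq).2.1.two_le

theorem prod_PS_le (l L : ℕ) : ∏ q ∈ PS l L, q ≤ 2 ^ (L * 2 ^ L) := by
  have h1 : ∏ q ∈ PS l L, q ≤ (2 ^ L) ^ (PS l L).card :=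
    Finset.prod_le_pow_card _ _ _ fun q hq => (mem_PS.1 hq).1.le
  refine h1.trans ?_
  rw [pow_mul]
  refine Nat.pow_le_pow_right (by positivity) ?_
  exact (card_filter_le _ _).trans (by simp)

theorem card_PS_le (l L : ℕ) : (PS l L).card ≤ 2 ^ L :=
  (card_filter_le _ _).trans (by simp)

/-- CRT with approximate fractions -/
theorem crt_approx (P : Finset ℕ) (hP : ∀ q ∈ P, q.Prime) (Y : ℤ) (c : ℕ → ℕ)
    (h : ∀ q ∈ P, (q : ℤ) ∣ ((c q * ∏ p ∈ P.erase q, p : ℕ) : ℤ) - Y) (T : ℕ) :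
    ∃ i : ℤ, ((∏ q ∈ P, q : ℕ) : ℤ) * (∑ q ∈ P, c q * T / q : ℕ) ≤
        T * (Y + (∏ q ∈ P, q : ℕ) * i) ∧
      T * (Y + (∏ q ∈ P, q : ℕ) * i) ≤
        ((∏ q ∈ P, q : ℕ) : ℤ) * ((∑ q ∈ P, c q * T / q : ℕ) + P.card) := by
  have hd : ((∏ q ∈ P, q : ℕ) : ℤ) ∣ ((∑ q ∈ P, c q * ∏ p ∈ P.erase q, p : ℕ) : ℤ) - Y := by
    rw [Nat.cast_prod]
    refine Finset.prod_dvd_of_coprime ?_ fun q hq => ?_
    · intro p hp q hq hpq
      have := (Nat.coprime_primes (hP p hp) (hP q hq)).2 hpq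
      exact Nat.isCoprime_iff_coprime.2 this
    · rw [← Finset.add_sum_erase _ _ hq, Nat.cast_add, add_sub_right_comm]
      refine dvd_add (h q hq) ?_
      rw [Int.natCast_dvd_natCast]
      refine Finset.dvd_sum fun p hp => ?_
      refine Dvd.dvd.mul_left (Finset.dvd_prod_of_mem (fun p => p) ?_) _
      exact mem_erase.2 ⟨(mem_erase.1 hp).1.symm, hq⟩
  obtain ⟨j, hj⟩ := hd
  refine ⟨j, ?_⟩
  have e : Y + ((∏ q ∈ P, q : ℕ) : ℤ) * j = ((∑ q ∈ P, c q * ∏ p ∈ P.erase q, p : ℕ) : ℤ) := by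
    rw [← hj]; ring
  rw [e]
  have key : ∀ q ∈ P, (∏ q ∈ P, q) * (c q * T / q) ≤ T * (c q * ∏ p ∈ P.erase q, p) ∧
      T * (c q * ∏ p ∈ P.erase q, p) ≤ (∏ q ∈ P, q) * (c q * T / q + 1) := by
    intro q hq
    have hq0 := (hP q hq).pos
    rw [← Finset.mul_prod_erase P (fun q => q) hq]
    have h1 : q * (c q * T / q) ≤ c q * T := Nat.mul_div_le _ _
    have h2 : c q * T ≤ q * (c q * T / q + 1) := (Nat.lt_mul_div_succ _ hq0).le
    constructor
    · calc q * (∏ x ∈ P.erase q, x) * (c q * T / q)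
          = (q * (c q * T / q)) * ∏ x ∈ P.erase q, x := by ring
        _ ≤ (c q * T) * ∏ x ∈ P.erase q, x := Nat.mul_le_mul_right _ h1
        _ = T * (c q * ∏ p ∈ P.erase q, p) := by ring
    · calc T * (c q * ∏ p ∈ P.erase q, p) = (c q * T) * ∏ x ∈ P.erase q, x := by ring
        _ ≤ (q * (c q * T / q + 1)) * ∏ x ∈ P.erase q, x := Nat.mul_le_mul_right _ h2
        _ = q * (∏ x ∈ P.erase q, x) * (c q * T / q + 1) := by ring
  constructor
  · have : (∏ q ∈ P, q) * (∑ q ∈ P, c q * T / q) ≤ T * ∑ q ∈ P, c q * ∏ p ∈ P.erase q, p := by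
      rw [Finset.mul_sum, Finset.mul_sum]
      exact Finset.sum_le_sum fun q hq => (key q hq).1
    exact_mod_cast this
  · have : T * ∑ q ∈ P, c q * ∏ p ∈ P.erase q, p ≤ (∏ q ∈ P, q) * (∑ q ∈ P, c q * T / q + P.card) := by
      rw [Finset.mul_sum, Finset.card_eq_sum_ones, ← Finset.sum_add_distrib, Finset.mul_sum]
      exact Finset.sum_le_sum fun q hq => (key q hq).2
    exact_mod_cast this

theorem sign_step {M T N A : ℕ} {Y i : ℤ} (hM : 0 < M) (hT : 0 < T) (hN : 1024 * N ≤ T)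
    (hA : A < T) (h1 : (M : ℤ) * A ≤ T * (Y + M * i)) (h2 : T * (Y + M * i) ≤ (M : ℤ) * (A + N))
    (hY : 3 * |Y| < M) :
    ((8 * A < T ∨ 7 * T ≤ 8 * A) → 6 * |Y| < M) ∧
      (T ≤ 8 * A → 8 * A < 7 * T → (Y < 0 ↔ T ≤ 2 * A) ∧ Y ≠ 0) := by
  have hM' : (0 : ℚ) < M := by exact_mod_cast hM
  have hT' : (0 : ℚ) < T := by exact_mod_cast hT
  set y : ℚ := (Y : ℚ) / M with hy
  set a : ℚ := (A : ℚ) / T with ha
  set e : ℚ := (N : ℚ) / T with he
  have hYy : (Y : ℚ) = y * M := by rw [hy]; field_simp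
  have hAa : (A : ℚ) = a * T := by rw [ha]; field_simp
  have hNe : (N : ℚ) = e * T := by rw [he]; field_simp
  have ha0 : 0 ≤ a := by positivity
  have ha1 : a < 1 := by rw [ha, div_lt_one hT']; exact_mod_cast hA
  have he0 : 0 ≤ e := by positivity
  have he1 : 1024 * e ≤ 1 := by
    rw [he, mul_div_assoc', div_le_one hT']; exact_mod_cast hN
  have hy3 : 3 * |y| < 1 := by
    rw [hy, abs_div, abs_of_pos hM', mul_div_assoc', div_lt_one hM']
    exact_mod_cast hY
  obtain ⟨hy3l, hy3r⟩ := abs_lt.1 (show |y| < 1 / 3 by linarith)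
  have h1' : a ≤ y + i := by
    have : (M : ℚ) * A ≤ T * (Y + M * i) := by exact_mod_cast h1
    rw [hYy, hAa] at this
    have h3 : (M * T : ℚ) * a ≤ (M * T) * (y + i) := by nlinarith
    exact le_of_mul_le_mul_left h3 (by positivity)
  have h2' : y + i ≤ a + e := by
    have : T * (Y + M * i) ≤ (M : ℚ) * (A + N) := by exact_mod_cast h2
    rw [hYy, hAa, hNe] at this
    have h3 : (M * T : ℚ) * (y + i) ≤ (M * T) * (a + e) := by nlinarith
    exact le_of_mul_le_mul_left h3 (by positivity)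
  have hi : i = 0 ∨ i = 1 := by
    have h3 : (-1 : ℚ) < i := by linarith
    have h4 : (i : ℚ) < 2 := by linarith
    have h5 : (-1 : ℤ) < i := by exact_mod_cast h3
    have h6 : i < (2 : ℤ) := by exact_mod_cast h4
    omega
  have hlow : (8 * A < T) ↔ 8 * a < 1 := by
    rw [ha, mul_div_assoc', div_lt_one hT']; exact_mod_cast Iff.rfl
  have hmid1 : (T ≤ 8 * A) ↔ 1 ≤ 8 * a := by
    rw [ha, mul_div_assoc', one_le_div hT']; exact_mod_cast Iff.rfl
  have hhigh : (7 * T ≤ 8 * A) ↔ 7 ≤ 8 * a := by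
    rw [ha, mul_div_assoc', le_div_iff₀ hT']; exact_mod_cast Iff.rfl
  have hhigh' : (8 * A < 7 * T) ↔ 8 * a < 7 := by
    rw [ha, mul_div_assoc', div_lt_iff₀ hT']; exact_mod_cast Iff.rfl
  have hhalf : (T ≤ 2 * A) ↔ 1 ≤ 2 * a := by
    rw [ha, mul_div_assoc', one_le_div hT']; exact_mod_cast Iff.rfl
  have hneg : Y < 0 ↔ y < 0 := by
    rw [hy, div_lt_iff₀ hM', zero_mul]; exact_mod_cast Iff.rfl
  have h6 : 6 * |Y| < M ↔ |y| < 1 / 6 := by
    rw [hy, abs_div, abs_of_pos hM', div_lt_iff₀ hM']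
    have e : ((|Y| : ℤ) : ℚ) = |(Y : ℚ)| := by push_cast; rfl
    constructor
    · intro h
      have : (6 * (|Y| : ℤ) : ℚ) < M := by exact_mod_cast h
      rw [e] at this
      linarith
    · intro h
      have : (6 * (|Y| : ℤ) : ℚ) < M := by rw [e]; linarith
      exact_mod_cast this
  rw [hlow, hmid1, hhigh, hhigh', hhalf, hneg, h6, abs_lt]
  rcases hi with rfl | rfl
  · simp only [Int.cast_zero, add_zero] at h1' h2'
    refine ⟨?_, fun h3 h4 => ⟨⟨fun h5 => ?_, fun h5 => ?_⟩, ?_⟩⟩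
    · rintro (h3 | h3) <;> constructor <;> linarith
    · linarith
    · linarith
    · rintro rfl
      have : y = 0 := by rw [hy]; simp
      linarith
  · simp only [Int.cast_one] at h1' h2'
    refine ⟨?_, fun h3 h4 => ⟨⟨fun h5 => ?_, fun h5 => ?_⟩, ?_⟩⟩
    · rintro (h3 | h3) <;> constructor <;> linarith
    · linarith
    · linarith
    · rintro rfl
      have : y = 0 := by rw [hy]; simp
      linarith

/-- the middle region -/
def Mid (T A : ℕ) : Prop := T ≤ 8 * A ∧ 8 * A < 7 * T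

theorem sign_algorithm {M T N K : ℕ} {X : ℤ} (A : ℕ → ℕ) (hM : 0 < M) (hT : 0 < T)
    (hN : 1024 * N ≤ T) (hA : ∀ k, A k < T)
    (h : ∀ k, ∃ i : ℤ, (M : ℤ) * A k ≤ T * (2 ^ k * X + M * i) ∧
      T * (2 ^ k * X + M * i) ≤ (M : ℤ) * (A k + N))
    (hX : 3 * |X| < M) (hK : M ≤ 2 ^ K) :
    X < 0 ↔ least K (fun k => Mid T (A k)) < K ∧ T ≤ 2 * A (least K (fun k => Mid T (A k))) := by
  -- boundedness before the first middle time
  have hb : ∀ k, (∀ j < k, ¬ Mid T (A j)) → 3 * |2 ^ k * X| < M := by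
    intro k
    induction k with
    | zero => intro _; simpa using hX
    | succ k ih =>
      intro hk
      have h1 := ih fun j hj => hk j (by omega)
      obtain ⟨i, hi1, hi2⟩ := h k
      have h2 := (sign_step hM hT hN (hA k) hi1 hi2 h1).1 ?_
      · have e : 2 ^ (k + 1) * X = 2 * (2 ^ k * X) := by ring
        rw [e, abs_mul, abs_two]
        linarith
      · have := hk k (by omega)
        unfold Mid at this
        omega
  have hmid : ∀ k, (∀ j < k, ¬ Mid T (A j)) → Mid T (A k) →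
      (X < 0 ↔ T ≤ 2 * A k) := by
    intro k hk hm
    obtain ⟨i, hi1, hi2⟩ := h k
    have h2 := ((sign_step hM hT hN (hA k) hi1 hi2 (hb k hk)).2 hm.1 hm.2).1
    rw [← h2]
    have hp : (0 : ℤ) < 2 ^ k := by positivity
    constructor
    · exact fun h => mul_neg_of_pos_of_neg hp h
    · intro h
      by_contra h3
      have := mul_nonneg hp.le (not_lt.1 h3)
      omega
  constructor
  · intro hneg
    have hex : ∃ k, k < K ∧ Mid T (A k) := by
      by_contra hno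
      push Not at hno
      have h1 := hb K fun j hj => hno j hj
      have h2 : (1 : ℤ) ≤ |X| := Int.one_le_abs hneg.ne
      have h3 : (2 ^ K : ℤ) ≤ |2 ^ K * X| := by
        rw [abs_mul, abs_of_pos (by positivity : (0 : ℤ) < 2 ^ K)]
        have : (0 : ℤ) ≤ 2 ^ K := by positivity
        nlinarith
      have h4 : (M : ℤ) ≤ 2 ^ K := by exact_mod_cast hK
      have h5 : (0 : ℤ) < M := by exact_mod_cast hM
      linarith
    have h1 := least_spec hex
    refine ⟨h1.1, (hmid _ (fun j hj hm => ?_) h1.2).1 hneg⟩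
    have := least_le_of (b := K) (P := fun k => Mid T (A k)) hm
    omega
  · rintro ⟨h1, h2⟩
    have h3 : Mid T (A (least K (fun k => Mid T (A k)))) := by
      rcases least_mem K (fun k => Mid T (A k)) with h | h
      · exact h
      · omega
    refine (hmid _ (fun j hj hm => ?_) h3).2 h2
    have := least_le_of (b := K) (P := fun k => Mid T (A k)) hm
    omega

end Crest.Agent.R316.CH
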